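import Vale.Agent.P022D.CA.Dep

/-!
# P022G: the chain argument (abstract form)
-/

set_option linter.all false

open IsLocalRing

namespace Vale.Agent.P022G.Chain

open Vale.Agent.P022D.CA

variable {A : Type} [CommRing A]

/-- a prime which contains `I` and has dimension at least `d` -/
def Pd (I : Ideal A) (d : ℕ) (E : Ideal A) : Prop :=
  E.IsPrime ∧ I ≤ E ∧ (d : WithBot ℕ∞) ≤ ringKrullDim (A ⧸ E)

/-- a curve: a prime of dimension one -/
def Cv (p : Ideal A) : Prop := p.IsPrime ∧ ringKrullDim (A ⧸ p) = 1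

/-- two primes of dimension at least `d + 1` which meet in dimension at least `d` -/
def Lnk (I : Ideal A) (d : ℕ) (E E' : Ideal A) : Prop :=
  Pd I (d + 1) E ∧ Pd I (d + 1) E' ∧ (d : WithBot ℕ∞) ≤ ringKrullDim (A ⧸ (E ⊔ E'))

/-- `V(I)` is connected in dimension `d` -/
def Cn (I : Ideal A) (d : ℕ) : Prop :=
  ∀ E E', Pd I (d + 1) E → Pd I (d + 1) E' → Relation.ReflTransGen (Lnk I d) E E'

theorem Pd.mono {I I' E : Ideal A} {d d' : ℕ} (h : Pd I d E) (hI : I' ≤ I) (hd : d' ≤ d) :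
    Pd I' d' E := ⟨h.1, hI.trans h.2.1, le_trans (by exact_mod_cast hd) h.2.2⟩

variable [IsNoetherianRing A]

/-- every closed set of positive dimension contains a curve -/
theorem exists_cv [IsLocalRing A] {I : Ideal A}
    (h : ((1 : ℕ) : WithBot ℕ∞) ≤ ringKrullDim (A ⧸ I)) : ∃ p, Cv p ∧ I ≤ p := by
  obtain ⟨p, hp, hmax⟩ := set_has_maximal_iff_noetherian.2 (inferInstance : IsNoetherian A A)
    {p : Ideal A | Pd I 1 p} (dimGE_prime h)
  refine ⟨p, ⟨hp.1, le_antisymm ?_ (by exact_mod_cast hp.2.2)⟩, hp.2.1⟩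
  refine (dim_le_of_not (k := 1) fun h2 => ?_).trans (by simp)
  rw [ringKrullDim_quotient, Order.le_krullDim_iff] at h2
  obtain ⟨l, hl⟩ := h2
  have h01 : l ⟨0, by omega⟩ < l ⟨1, by omega⟩ := l.strictMono (by simp [Fin.lt_def])
  have h12 : l ⟨1, by omega⟩ < l ⟨2, by omega⟩ := l.strictMono (by simp [Fin.lt_def])
  have a0 : p ≤ (l ⟨0, by omega⟩).1.asIdeal := (l ⟨0, by omega⟩).2
  have b01 : (l ⟨0, by omega⟩).1.asIdeal < (l ⟨1, by omega⟩).1.asIdeal := h01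
  have b12 : (l ⟨1, by omega⟩).1.asIdeal < (l ⟨2, by omega⟩).1.asIdeal := h12
  refine hmax (l ⟨1, by omega⟩).1.asIdeal ⟨(l ⟨1, by omega⟩).1.2,
    hp.2.1.trans (a0.trans b01.le), ?_⟩ (a0.trans_lt b01)
  have := (l ⟨2, by omega⟩).1.2
  haveI : Nontrivial (A ⧸ (l ⟨2, by omega⟩).1.asIdeal) := Ideal.Quotient.nontrivial_iff.2 this.ne_top
  exact dimGE_succ (k := 0) (l ⟨1, by omega⟩).1.2 b12 (by
    simpa using ringKrullDim_nonneg_of_nontrivial)

/-- a curve in a surface on which a given function vanishes -/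
theorem exists_cv_mem [IsLocalRing A] {E : Ideal A} {f : A} (hf : f ∈ maximalIdeal A)
    (h : ((2 : ℕ) : WithBot ℕ∞) ≤ ringKrullDim (A ⧸ E)) : ∃ p, Cv p ∧ E ≤ p ∧ f ∈ p := by
  obtain ⟨p, hp, hle⟩ := exists_cv (dimGE_sup (k := 1) hf h)
  exact ⟨p, hp, le_sup_left.trans hle, hle (Ideal.mem_sup_right (Ideal.mem_span_singleton_self f))⟩

/-- the data of the chain argument: `I J` is the ideal of the type `J`, `X` the set of auxiliary
primes, `f a` the trace of the Frobenius element at `a`, `Md J E` says that `E` is modular of type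
`J`, `ok J` that the type contains the residually ramified primes -/
structure CH [IsLocalRing A] {C : Type} [DecidableEq C] (I : Finset C → Ideal A) (X : Finset C)
    (f : C → A) (ok : Finset C → Prop) (Md : Finset C → Ideal A → Prop) : Prop where
  ne : X.Nonempty
  max : ∀ a ∈ X, f a ∈ maximalIdeal A
  okm : ∀ J a, ok J → ok (insert a J)
  mem : ∀ J, ∀ a ∈ X, a ∈ J → f a ∈ I J
  sup : ∀ J, ∀ a ∈ X, a ∉ J → ∀ p, Cv p → I J ≤ p → f a ∈ p → I (insert a J) ≤ p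
  pres : ∀ J, ok J → ∀ p, Cv p → I J ≤ p → (∃ a ∈ X, f a ∈ p) → ∃ E, Pd (I J) 2 E ∧ E ≤ p
  seed : ∀ J, ok J → X ⊆ J → ∃ E, Pd (I J) 2 E ∧ Md J E
  conn : ∀ J, ok J → X ⊆ J → Cn (I J) 1
  patch : ∀ J, ok J → X ⊆ J → ∀ p, Cv p → ∀ E E', Pd (I J) 2 E → Pd (I J) 2 E' → E ≤ p → E' ≤ p →
    Md J E → Md J E'
  lower : ∀ J, ok J → ∀ a ∈ X, a ∉ J → ∀ p, Cv p → f a ∈ p → ∀ E E', Pd (I (insert a J)) 2 E →
    Pd (I J) 2 E' → E ≤ p → E' ≤ p → Md (insert a J) E → Md J E'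

/-- **CHAIN** every surface of type `J` is modular of type `J` -/
theorem chain [IsLocalRing A] {C : Type} [DecidableEq C] {I : Finset C → Ideal A} {X : Finset C}
    {f : C → A} {ok : Finset C → Prop} {Md : Finset C → Ideal A → Prop} (H : CH I X f ok Md)
    (J : Finset C) (hJ : ok J) (E : Ideal A) (hE : Pd (I J) 2 E) : Md J E := by
  induction hk : (X \ J).card using Nat.strong_induction_on generalizing J E with
  | _ k ih =>
  by_cases hX : X ⊆ J
  · obtain ⟨E0, h0, hM⟩ := H.seed J hJ hX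
    have h := H.conn J hJ hX E0 E h0 hE
    clear hE
    induction h with
    | refl => exact hM
    | tail _ hl ih2 =>
      obtain ⟨p, hp, hle⟩ := exists_cv hl.2.2
      exact H.patch J hJ hX p hp _ _ hl.1 hl.2.1 (le_sup_left.trans hle) (le_sup_right.trans hle)
        ih2
  · obtain ⟨a, haX, haJ⟩ := Finset.not_subset.1 hX
    obtain ⟨p, hp, hle, hf⟩ := exists_cv_mem (H.max a haX) hE.2.2
    obtain ⟨E1, h1, h1p⟩ := H.pres _ (H.okm J a hJ) p hp
      (H.sup J a haX haJ p hp (hE.2.1.trans hle) hf) ⟨a, haX, hf⟩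
    refine H.lower J hJ a haX haJ p hp hf E1 E h1 hE h1p hle (ih _ ?_ _ (H.okm J a hJ) E1 h1 rfl)
    rw [← hk]
    refine Finset.card_lt_card ⟨Finset.sdiff_subset_sdiff le_rfl (Finset.subset_insert a J), ?_⟩
    intro h
    have := h (Finset.mem_sdiff.2 ⟨haX, haJ⟩)
    simp at this

omit [IsNoetherianRing A] in
/-- connectedness from a linked family which covers `V(I)` -/
theorem cn_of_fam {I : Ideal A} {d : ℕ} (S : Set (Ideal A)) (h1 : ∀ E ∈ S, Pd I (d + 1) E)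
    (h2 : ∀ E : Ideal A, E.IsPrime → I ≤ E → ∃ F ∈ S, F ≤ E)
    (h3 : ∀ E ∈ S, ∀ E' ∈ S, Relation.ReflTransGen (fun F F' => F ∈ S ∧ F' ∈ S ∧
      (d : WithBot ℕ∞) ≤ ringKrullDim (A ⧸ (F ⊔ F'))) E E') : Cn I d := by
  intro E E' hE hE'
  obtain ⟨F, hF, hFE⟩ := h2 E hE.1 hE.2.1
  obtain ⟨F', hF', hFE'⟩ := h2 E' hE'.1 hE'.2.1
  refine Relation.ReflTransGen.head (b := F) ⟨hE, h1 F hF, ?_⟩ (Relation.ReflTransGen.tail (b := F')
    ((h3 F hF F' hF').lift id fun a b h => ⟨h1 a h.1, h1 b h.2.1, h.2.2⟩)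
    ⟨h1 F' hF', hE', ?_⟩)
  · rw [sup_eq_left.2 hFE]
    exact (hE.mono le_rfl (Nat.le_succ d)).2.2
  · rw [sup_eq_right.2 hFE']
    exact (hE'.mono le_rfl (Nat.le_succ d)).2.2

end Vale.Agent.P022G.Chain
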