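import Vale.Agent.P022G.Loc.Defs
import Vale.Agent.P022E.As.Defs2
import Vale.Agent.P022F.Gm
import Vale.Agent.P022G.Chain
import Vale.Agent.P022G.Sel.Defs
import Vale.Agent.P022G.Rel.Defs

/-!
# P022G: the rings of the Galois side (definitions)
-/

set_option linter.all false

noncomputable section

namespace Vale.Agent.P022G

open NumberField IsLocalRing MvPowerSeries
open Vale.Agent.P022 Vale.Agent.P022.H346 Vale.Agent.P022G.R Vale.Agent.P022G.Loc
open Vale.Agent.P027M.S (Inert mx)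
open Vale.Agent.P022D.Sel (M2 IsDec Ginf)
open Vale.Agent.P022D.Core (PS)
open Vale.Agent.P022E.Loc (Pl Rt En)
open Vale.Agent.P022E.GW (Ov Gn)
open Vale.Agent.P022E.As (Tg cc tt dd yy)
open Vale.Agent.P022F.Gm (GM)

section alg
variable {O : Type} [CommRing O]

/-- `ψ` is the evaluation at `v` over `j` -/
structure Hm {σ B : Type} [CommRing B] (j : O →+* B) (v : σ → B) (ψ : PS O σ →+* B) : Prop where
  c : ∀ o, ψ (C o) = j o
  x : ∀ s, ψ (X s) = v s

/-- the power series which vanish at all points of a class -/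
def KI {σ : Type} (𝒞 : ∀ (B : Type) [CommRing B], (O →+* B) → (σ → B) → Prop) :
    Ideal (PS O σ) where
  carrier := {f | ∀ (B : Type) [CommRing B] (j : O →+* B) (v : σ → B) (ψ : PS O σ →+* B),
    𝒞 B j v → Hm j v ψ → ψ f = 0}
  zero_mem' := fun B _ j v ψ _ _ => map_zero ψ
  add_mem' := fun {f g} hf hg B _ j v ψ h k => by
    rw [map_add, hf B j v ψ h k, hg B j v ψ h k, add_zero]
  smul_mem' := fun c f hf B _ j v ψ h k => by
    rw [smul_eq_mul, map_mul, hf B j v ψ h k, mul_zero]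

/-- the names of the invariant symbols `a_i`, `d_i`, `x_ij` -/
abbrev Sy (ι : Type) : Type := ι ⊕ ι ⊕ (ι × ι)

/-- the names of all entries `a_i`, `d_i`, `b_i`, `c_i` -/
abbrev Fr (ι : Type) : Type := ι ⊕ ι ⊕ ι ⊕ ι

variable {ι : Type}

/-- the values of the invariant symbols, centred at the constants `rc` -/
def gv (rc : ι → M2 O) {B : Type} [CommRing B] (j : O →+* B) (a d : ι → B) (x : ι → ι → B) :
    Sy ι → B :=
  Sum.elim (fun i => a i - j (rc i 0 0)) (Sum.elim (fun i => d i - j (rc i 1 1))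
    fun p => x p.1 p.2 - j (rc p.1 0 1 * rc p.2 1 0))

/-- the values of the invariant symbols on matrices -/
def sv (rc : ι → M2 O) {B : Type} [CommRing B] (j : O →+* B) (Z : ι → M2 B) : Sy ι → B :=
  gv rc j (fun i => Z i 0 0) (fun i => Z i 1 1) fun i k => Z i 0 1 * Z k 1 0

/-- the values of the off-diagonal entries -/
def bv (rc : ι → M2 O) {B : Type} [CommRing B] (j : O →+* B) (Z : ι → M2 B) : ι ⊕ ι → B :=
  Sum.elim (fun i => Z i 0 1 - j (rc i 0 1)) fun i => Z i 1 0 - j (rc i 1 0)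

/-- the values of all entries -/
def fv (rc : ι → M2 O) {B : Type} [CommRing B] (j : O →+* B) (Z : ι → M2 B) : Fr ι → B :=
  Sum.elim (fun i => Z i 0 0 - j (rc i 0 0)) (Sum.elim (fun i => Z i 1 1 - j (rc i 1 1))
    (bv rc j Z))

/-- the symbols as elements of any power series ring which contains their names -/
def aS (rc : ι → M2 O) {σ : Type} (e : Sy ι → σ) (i : ι) : PS O σ :=
  C (rc i 0 0) + X (e (Sum.inl i))

def dS (rc : ι → M2 O) {σ : Type} (e : Sy ι → σ) (i : ι) : PS O σ :=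
  C (rc i 1 1) + X (e (Sum.inr (Sum.inl i)))

def xS (rc : ι → M2 O) {σ : Type} (e : Sy ι → σ) (i k : ι) : PS O σ :=
  C (rc i 0 1 * rc k 1 0) + X (e (Sum.inr (Sum.inr (i, k))))

/-- the universal matrices in the ring of all entries -/
def ZF (rc : ι → M2 O) (i : ι) : M2 (PS O (Fr ι)) :=
  !![C (rc i 0 0) + X (Sum.inl i), C (rc i 0 1) + X (Sum.inr (Sum.inr (Sum.inl i)));
    C (rc i 1 0) + X (Sum.inr (Sum.inr (Sum.inr i))), C (rc i 1 1) + X (Sum.inr (Sum.inl i))]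

/-- the generator `i` acts trivially -/
def tauP (rc : ι → M2 O) {σ : Type} (e : Sy ι → σ) (i : ι) : Set (PS O σ) :=
  {aS rc e i - 1, dS rc e i - 1} ∪ (Set.range (fun k => xS rc e i k) ∪
    Set.range fun k => xS rc e k i)

/-- the trace of a generator -/
def trS (rc : ι → M2 O) {σ : Type} (e : Sy ι → σ) (i : ι) : PS O σ := aS rc e i + dS rc e i

/-- the trace of a product of two generators -/
def tr2 (rc : ι → M2 O) {σ : Type} (e : Sy ι → σ) (i k : ι) : PS O σ :=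
  aS rc e i * aS rc e k + xS rc e i k + xS rc e k i + dS rc e i * dS rc e k

/-- the equations of the type `J` -/
def IPt (rc : ι → M2 O) {σ : Type} (e : Sy ι → σ) {Γ : Type} (iτ iφ : Γ → ι) (J : Finset Γ) :
    Ideal (PS O σ) :=
  Ideal.span {u | (∃ l ∈ J, u = trS rc e (iτ l) ∨ u = trS rc e (iφ l) ∨
    u = tr2 rc e (iτ l) (iφ l)) ∨ ∃ l, l ∉ J ∧ u ∈ tauP rc e (iτ l)}

/-- the rank one relations -/
def rk1 (rc : ι → M2 O) {σ : Type} (e : Sy ι → σ) : Ideal (PS O σ) :=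
  Ideal.span {u | ∃ i k i' k', u = xS rc e i k * xS rc e i' k' - xS rc e i k' * xS rc e i' k}

end alg

variable {O F : Type} [CommRing O] [Field F]

/-- a pseudo object: a trace function over a finite local ring with its entries -/
structure PO (S : Dat O F) (B : Type) [CommRing B] where
  ι : O →+* B
  π : B →+* F
  t : GQ → B
  d : GQ →* Bˣ
  a : GQ → B
  b : GQ → B
  x : GQ → GQ → B
  fin : Finite B
  loc : ∀ u, π u ≠ 0 → IsUnit u
  alg : ∀ c, π (ι c) = S.red c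
  tf : TF t d
  gm : GM t d a b x
  x0 : ∀ g, x S.g0 g = 0 ∧ x g S.g0 = 0
  ra : ∀ g, π (a g) = mx S.rb g 0 0
  rb : ∀ g, π (b g) = mx S.rb g 1 1
  rx : ∀ g h, π (x g h) = mx S.rb g 0 1 * mx S.rb h 1 0
  opn : ∃ U : Subgroup GQ, IsOpen (U : Set GQ) ∧ ∀ u ∈ U, ∀ g, t (g * u) = t g

/-- the class of level `Q`, in terms of traces and determinants -/
structure PO.Cl {S : Dat O F} {B : Type} [CommRing B] (Z : PO S B) (L : Pl O) (Q : Finset ℕ) :
    Prop where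
  d2 : ∀ g ∈ P022D.W.dec (L.P 2), (Z.d g : B) = Z.ι (L.r g).det
  dc : (Z.d L.c : B) = -1
  dl : ∀ l ∈ L.W ∪ L.C, (Z.d (L.τ l) : B) = Z.ι (L.r (L.τ l)).det
  ty : ∀ l ∈ L.W, ∃ y : B, y ^ 2 - Z.t (L.g0 l) * y + Z.d (L.g0 l) = 0 ∧
    Z.π y = mx S.rb (L.g0 l) 1 1 ∧
    Z.t (L.τ l * L.g0 l) - y * Z.t (L.τ l) = Z.ι (L.a l) * (Z.t (L.g0 l) - 2 * y)
  unr : ∀ l : ℕ, l.Prime → l ∉ S.T → l ∉ Q → ∀ P : Ideal (𝓞 Qb), P.IsPrime → (l : 𝓞 Qb) ∈ P →
    ∀ s, Inert P s → ∀ g, Z.t (g * s) = Z.t g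

/-- the values of the symbols on a pseudo object -/
def PO.val {S : Dat O F} {B : Type} [CommRing B] (Z : PO S B) {ι : Type} (rc : ι → M2 O)
    (γ : ι → GQ) : Sy ι → B :=
  gv rc Z.ι (fun i => Z.a (γ i)) (fun i => Z.b (γ i)) fun i k => Z.x (γ i) (γ k)

/-- `u` presents the pseudo object as a quotient of the ring of symbols `Tg` -/
structure PO.Std {S : Dat O F} {B : Type} [CommRing B] (Z : PO S B) (u : Tg O →+* B) : Prop where
  c : ∀ o, u (cc o) = Z.ι o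
  t : ∀ g, u (tt g) = Z.t g
  d : ∀ g, u (dd g) = Z.d g

/-- `γ` generates every finite quotient of level `Q` in which the kernel of the residual
representation has a `2`-group as image -/
def Gen (S : Dat O F) (Q : Finset ℕ) {ι : Type} (γ : ι → GQ) : Prop :=
  ∀ (Γ : Type) [Group Γ] [Finite Γ] (f : GQ →* Γ), IsOpen {g : GQ | f g = 1} →
    (∀ g, S.rb g = 1 → ∃ k : ℕ, f g ^ 2 ^ k = 1) →
    (∀ l : ℕ, l.Prime → l ∉ S.T → l ∉ Q → ∀ P : Ideal (𝓞 Qb), P.IsPrime → (l : 𝓞 Qb) ∈ P →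
      ∀ s, Inert P s → f s = 1) →
    ∀ g, f g ∈ Subgroup.closure (Set.range fun i => f (γ i))

/-- generators, with names for the special elements; `κ` indexes the block coordinates -/
structure Gs (S : Dat O F) (L : Pl O) {κ : Type} (gk : κ → GQ) (ι : Type) where
  γ : ι → GQ
  i0 : ι
  ic : ι
  iτ : L.C → ι
  iφ : L.C → ι
  iK : κ → ι
  h0 : γ i0 = S.g0
  hc : γ ic = L.c
  hτ : ∀ l, γ (iτ l) = L.τ l
  hφ : ∀ l, γ (iφ l) = L.φ l
  hK : ∀ t, γ (iK t) = gk t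
  inj : Function.Injective (Sum.elim ![i0, ic] (Sum.elim iτ iφ))
  gen : ∀ (r : ℕ) (q : Fin r → ℕ) (τ' : Fin r → GQ),
    (∀ i, q i ∉ S.T ∧ ∃ P, Ov (q i) P ∧ Gn (q i) P (τ' i)) →
    Gen S (Finset.univ.image q) (Sum.elim γ τ')

section rings
variable {S : Dat O F} {L : Pl O} {κ : Type} {gk : κ → GQ} {ι : Type} (G : Gs S L gk ι)

/-- the constants of level zero -/
def Gs.rc (i : ι) : M2 O := L.r (G.γ i)

/-- the constants with `r` auxiliary generators -/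
def Gs.rcr (r : ℕ) : ι ⊕ Fin r → M2 O := Sum.elim G.rc fun _ => 1

/-- the relations of the pseudo objects of level zero, in `A = PS O (Sy ι)` -/
def Gs.aP : Ideal (PS O (Sy ι)) :=
  KI fun B _ j v => ∃ Z : PO S B, Z.Cl L ∅ ∧ j = Z.ι ∧ v = Z.val G.rc G.γ

/-- the relations of the traces of the objects of level zero -/
def Gs.aG : Ideal (PS O (Sy ι)) :=
  KI fun B _ j v => ∃ X : Obj S B, Ty (ClG L S) ∅ B X ∧ j = X.ι ∧
    v = sv G.rc X.ι fun i => X.ρ (G.γ i)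

/-- the relations of the entries of the objects of level zero -/
def Gs.Jac : Ideal (PS O (Fr ι)) :=
  KI fun B _ j v => ∃ X : Obj S B, Ty (ClG L S) ∅ B X ∧ j = X.ι ∧
    v = fv G.rc X.ι fun i => X.ρ (G.γ i)

/-- the annihilator in `A` of a module over the symbols -/
def Gs.An (Y : Type) [AddCommGroup Y] [Module (Tg O) Y] : Ideal (PS O (Sy ι)) :=
  KI fun B _ j v => ∃ (w : Y) (Z : PO S B) (u : Tg O →+* B), Z.Std u ∧
    RingHom.ker u = Ideal.torsionOf (Tg O) Y w ∧ j = Z.ι ∧ v = Z.val G.rc G.γ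

/-- the ideal of the type `J` in characteristic two -/
def Gs.IT (ϖ : O) (J : Finset L.C) : Ideal (PS O (Sy ι)) :=
  G.aG ⊔ Ideal.span {C ϖ} ⊔ IPt G.rc id G.iτ G.iφ J

/-- the trace of the Frobenius element -/
def Gs.fr (a : L.C) : PS O (Sy ι) := trS G.rc id (G.iφ a)

/-- the prime is irreducible -/
def Gs.Irr (E : Ideal (PS O (Sy ι))) : Prop := ∃ i k, xS G.rc id i k ∉ E

/-- the types which contain the residually ramified primes -/
def okT (S : Dat O F) (L : Pl O) (J : Finset L.C) : Prop :=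
  ∀ l : L.C, mx S.rb (L.τ l) ≠ 1 → l ∈ J

/-- a framed point with values in a discrete valuation ring of characteristic two -/
structure Gs.Crv {V : Type} [CommRing V] (t : V) (j : O →+* V) (ρ : GQ →* GL (Fin 2) V)
    (θ : PS O (Sy ι) →+* V) : Prop where
  hm : Hm j (sv G.rc j fun i => (ρ (G.γ i) : M2 V)) θ
  res : ∀ g a b, t ∣ (ρ g : M2 V) a b - j (L.r g a b)
  dg : (ρ S.g0 : M2 V) 0 1 = 0 ∧ (ρ S.g0 : M2 V) 1 0 = 0
  lv : ∀ N, _root_.P022G.Sel.Lv (_root_.P022G.Sel.rd (_root_.P022G.Sel.tI t N) ρ) S.T L.D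
  det : ∀ g, (ρ g : M2 V).det = 1
  ty : ∀ l ∈ L.W, ∃ y : V, y ^ 2 - (ρ (L.g0 l) : M2 V).trace * y + 1 = 0 ∧
    t ∣ y - j (L.r (L.g0 l) 1 1) ∧ (ρ (L.τ l * L.g0 l) : M2 V).trace - y * (ρ (L.τ l) : M2 V).trace
      = j (L.a l) * (ρ (L.g0 l) : M2 V).trace

end rings

section framed
variable {S : Dat O F} {L : Pl O} {β : Type} {τ ι' : β → Type} (K : Kx O β τ ι' L.C) {ι : Type}
  (G : Gs S L K.g ι) (r : ℕ)

/-- the names of the variables of the framed ring outside the blocks -/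
abbrev Rs (ι : Type) (T : Finset ℕ) : Type := Sy ι ⊕ (ι ⊕ ι) ⊕ (T × Fin 2 × Fin 2)

/-- the names of all variables of the framed ring `S₀` -/
abbrev V0 (τ : β → Type) (L : Pl O) (ι : Type) (T : Finset ℕ) (r : ℕ) : Type :=
  Ix τ L ⊕ Rs (ι ⊕ Fin r) T

/-- the symbols inside the variables of `S₀` -/
def e0 : Sy (ι ⊕ Fin r) ↪ V0 τ L ι S.T r :=
  Function.Embedding.inl.trans Function.Embedding.inr

/-- the universal matrices in `S₀` -/
def ZS (i : ι ⊕ Fin r) : M2 (PS O (V0 τ L ι S.T r)) :=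
  !![aS (G.rcr r) (e0 r) i, C (G.rcr r i 0 1) + X (Sum.inr (Sum.inr (Sum.inl (Sum.inl i))));
    C (G.rcr r i 1 0) + X (Sum.inr (Sum.inr (Sum.inl (Sum.inr i)))), dS (G.rcr r) (e0 r) i]

/-- the universal frames in `S₀` -/
def αS (τ : β → Type) (L : Pl O) (ι : Type) (T : Finset ℕ) (r l : ℕ) :
    M2 (PS O (V0 τ L ι T r)) :=
  if h : l ∈ T then 1 + Matrix.of fun a b => X (Sum.inr (Sum.inr (Sum.inr (⟨l, h⟩, a, b))))
  else 1

/-- the universal local matrices -/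
def lS (l : ℕ) (i : ι) : M2 (PS O (V0 τ L ι S.T r)) :=
  (αS τ L ι S.T r l)⁻¹ * ZS K G r (Sum.inl i) * αS τ L ι S.T r l

/-- the block coordinates as functions of the entries -/
def κS : Ix τ L → PS O (V0 τ L ι S.T r) :=
  K.val C (fun t => lS K G r (K.l t) (G.iK t)) (fun γ => lS K G r γ (G.iφ γ))
    fun γ => lS K G r γ (G.iτ γ)

/-- the tautological relations in `S₀` -/
def t0 : Ideal (PS O (V0 τ L ι S.T r)) :=
  Ideal.span (Set.range (fun p : (ι ⊕ Fin r) × (ι ⊕ Fin r) =>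
      xS (G.rcr r) (e0 r) p.1 p.2 - ZS K G r p.1 0 1 * ZS K G r p.2 1 0) ∪
    Set.range (fun i => X (Sum.inl i) - κS K G r i) ∪
    {ZS K G r (Sum.inl G.i0) 0 1, ZS K G r (Sum.inl G.i0) 1 0,
      αS τ L ι S.T r S.l0 0 0 - 1, αS τ L ι S.T r S.l0 1 1 - 1})

/-- the values of all variables of `S₀` on matrices `Z` and frames `α`, `α'` -/
def v0 {B : Type} [CommRing B] (j : O →+* B) (ρ : GQ → M2 B) (α α' : ℕ → M2 B)
    (τ' : Fin r → GQ) : V0 τ L ι S.T r → B :=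
  Sum.elim (K.val j (fun t => α' (K.l t) * ρ (K.g t) * α (K.l t))
      (fun γ => α' γ * ρ (L.φ γ) * α γ) fun γ => α' γ * ρ (L.τ γ) * α γ)
    (Sum.elim (sv (G.rcr r) j fun i => ρ (Sum.elim G.γ τ' i))
      (Sum.elim (bv (G.rcr r) j fun i => ρ (Sum.elim G.γ τ' i))
        fun p => (α p.1 - 1) p.2.1 p.2.2))

/-- the relations of the framed objects of level `q` -/
def Kn (q : Fin r → ℕ) (τ' : Fin r → GQ) : Ideal (PS O (V0 τ L ι S.T r)) :=
  KI fun B _ j v => ∃ X : Obj S B, Ty (ClG L S) (Finset.univ.image q) B X ∧ j = X.ι ∧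
    v = v0 K G r X.ι X.ρ X.α X.β τ'

/-- the framed curve: all frames are trivial, the auxiliary generators act trivially -/
def Cf {V : Type} [CommRing V] (j : O →+* V) (ρ : GQ →* GL (Fin 2) V)
    (θ : PS O (V0 τ L ι S.T r) →+* V) : Prop :=
  Hm j (v0 K G r j (fun g => (ρ g : M2 V)) (fun _ => 1) (fun _ => 1) fun _ => 1) θ

end framed

/-- the fixed data of the Galois side; `X` is the set of auxiliary primes, `as` a special one -/
structure Cx [IsLocalRing O] (S : Dat O F) (L : Pl O) (X : Finset ℕ) (as : ℕ) : Prop where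
  ok : OkG L S
  g0 : S.g0 ∈ L.H ∧ (∀ z : Qb, z ^ 8 = 1 → S.g0 z = z) ∧ L.r S.g0 0 1 = 0 ∧ L.r S.g0 1 0 = 0
  irr : (∃ g, L.r g 0 1 ≠ 0) ∧ ∃ g, L.r g 1 0 ≠ 0
  unr : ∀ l : ℕ, l.Prime → (l ∉ S.T ∨ l ∈ X) → ∀ P : Ideal (𝓞 Qb), P.IsPrime →
    (l : 𝓞 Qb) ∈ P → ∀ s, Inert P s → L.r s = 1
  sub : X ⊆ L.C
  big : (L.C \ X).card + 2 ≤ X.card
  one : ∀ a ∈ X, a % 8 = 1 ∧ mx S.rb (L.φ a) = 1
  mem : as ∈ X
  mv1 : ∃ z : Qb, z ^ 4 = 2 ∧ L.φ as z ≠ z
  mv2 : ∃ z : Qb, z ^ 8 = -4 ∧ L.φ as z ≠ z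

end Vale.Agent.P022G
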