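import Vale.Agent.P022F.Gm

/-!
P022G: a residually reducible trace function over a discrete valuation ring is, after adjoining a
square root of the uniformiser, the trace of a representation with split reduction.
-/

set_option linter.all false

noncomputable section

namespace Vale.Agent.P022G.Bal

open Vale.Agent.P022.H346 Vale.Agent.P022D.Gma Vale.Agent.P022F.Gm

variable {G A : Type} [Group G] [CommRing A]

/-- a family in a noetherian valuation ring has a member which divides all members -/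
theorem ex_min [IsDomain A] [ValuationRing A] [WfDvdMonoid A] {ι : Type} (x : ι → A)
    (h : ∃ i, x i ≠ 0) : ∃ i, x i ≠ 0 ∧ ∀ j, x i ∣ x j := by
  obtain ⟨i0, hi0⟩ := h
  obtain ⟨y, ⟨i, hi, rfl⟩, hm⟩ := (wellFounded_dvdNotUnit (α := A)).has_min
    {y | ∃ i, x i ≠ 0 ∧ x i = y} ⟨_, i0, hi0, rfl⟩
  refine ⟨i, hi, fun j => ?_⟩
  by_contra hn
  have hd : x j ∣ x i := (ValuationRing.dvd_total (x i) (x j)).resolve_left hn
  have hj : x j ≠ 0 := fun h0 => hi (by rw [h0] at hd; exact zero_dvd_iff.1 hd)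
  exact hm _ ⟨j, hj, rfl⟩ (dvdNotUnit_of_dvd_of_not_dvd hd hn)

section red

variable {t : G → A} {g₀ : G} {α β u : A} {F : Type} [CommRing F]

theorem red_ent (red : A →+* F) (χ ψ : G →* F) (ht : ∀ g, red (t g) = χ g + ψ g)
    (hα : red α = χ g₀) (hβ : red β = ψ g₀) (hu : (α - β) * u = 1) (g : G) :
    red (ent t g₀ β u g) = χ g := by
  have h := congrArg red hu
  rw [map_mul, map_sub, map_one, hα, hβ] at h
  rw [ent, map_mul, map_sub, map_mul, ht, ht, hβ, map_mul, map_mul]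
  linear_combination (χ g) * h

theorem red_en2 (red : A →+* F) (χ ψ : G →* F) (ht : ∀ g, red (t g) = χ g + ψ g)
    (hα : red α = χ g₀) (hβ : red β = ψ g₀) (hu : (α - β) * u = 1) (g : G) :
    red (en2 t g₀ β u g) = ψ g := by
  rw [en2, map_sub, red_ent red χ ψ ht hα hβ hu, ht, add_sub_cancel_left]

theorem red_xx (red : A →+* F) (χ ψ : G →* F) (ht : ∀ g, red (t g) = χ g + ψ g)
    (hα : red α = χ g₀) (hβ : red β = ψ g₀) (hu : (α - β) * u = 1) (g h : G) :
    red (xx t g₀ β u g h) = 0 := by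
  rw [xx, map_sub, map_mul, red_ent red χ ψ ht hα hβ hu, red_ent red χ ψ ht hα hβ hu,
    red_ent red χ ψ ht hα hβ hu, map_mul, sub_self]

theorem ent_dvd {c : A} {s s' : G} (h : ∀ y z, c ∣ t (y * s * z) - t (y * s' * z)) (y z : G) :
    c ∣ ent t g₀ β u (y * s * z) - ent t g₀ β u (y * s' * z) := by
  obtain ⟨p, hp⟩ := h y (z * g₀)
  obtain ⟨q, hq⟩ := h y z
  rw [← mul_assoc, ← mul_assoc] at hp
  exact ⟨(p - β * q) * u, by rw [ent, ent]; linear_combination u * hp - β * u * hq⟩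

end red

/-- the off-diagonal products of a generalised matrix algebra factor -/
theorem fac [IsDomain A] [ValuationRing A] [WfDvdMonoid A] {t : G → A} {d : G →* Aˣ}
    {a b : G → A} {x : G → G → A} (h : GM t d a b x) :
    ∃ (c e : A) (p q : G → A) (g₁ h₁ : G), c ≠ 0 ∧ (e = x g₁ h₁) ∧
      (∀ g k, x g k = e * p g * q k) ∧ (∀ g, c * p g = x g h₁) ∧ (∀ k, c * q k = x g₁ k) ∧
      (∀ g k, p (g * k) = a g * p k + b k * p g) ∧ (∀ g k, q (g * k) = a k * q g + b g * q k) := by
  by_cases h0 : ∃ i : G × G, x i.1 i.2 ≠ 0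
  · obtain ⟨⟨g₁, h₁⟩, hne, hd⟩ := ex_min (fun i : G × G => x i.1 i.2) h0
    choose p hp using fun g => hd (g, h₁)
    choose q hq using fun k => hd (g₁, k)
    dsimp only at hne hp hq
    refine ⟨x g₁ h₁, x g₁ h₁, p, q, g₁, h₁, hne, rfl, fun g k => ?_, fun g => (hp g).symm,
      fun k => (hq k).symm, fun g k => ?_, fun g k => ?_⟩
    · apply mul_left_cancel₀ hne
      have := h.sw g k g₁ h₁
      rw [hp g, hq k] at this
      linear_combination this
    · apply mul_left_cancel₀ hne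
      have := h.cl g k h₁
      rw [hp (g * k), hp k, hp g] at this
      linear_combination this
    · apply mul_left_cancel₀ hne
      have := h.cr g₁ g k
      rw [hq (g * k), hq k, hq g] at this
      linear_combination this
  · push Not at h0
    have h1 : ∀ g k, x g k = 0 := fun g k => h0 (g, k)
    exact ⟨1, x 1 1, fun _ => 0, fun _ => 0, 1, 1, one_ne_zero, rfl, fun g k => by simp [h1],
      fun g => by simp [h1], fun g => by simp [h1], fun g k => by simp, fun g k => by simp⟩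

/-- **balanced lattice** -/
theorem bal [IsDomain A] [ValuationRing A] [WfDvdMonoid A] {t : G → A} {d : G →* Aˣ}
    (T : TF t d) (g₀ : G) {α β u : A} (hs : α + β = t g₀) (hp : α * β = d g₀)
    (hu : (α - β) * u = 1) (ϖ : A) (hx : ∀ g h, ϖ ∣ xx t g₀ β u g h)
    {A2 : Type} [CommRing A2] (f : A →+* A2) (s : A2) (hs2 : s ^ 2 = f ϖ) :
    ∃ (ρ : G →* M2 A2) (c : A), c ≠ 0 ∧ ρ g₀ = !![f α, 0; 0, f β] ∧
      (∀ g, (ρ g).trace = f (t g)) ∧ (∀ g, (ρ g).det = f (d g)) ∧
      (∀ g, ρ g 0 0 = f (ent t g₀ β u g) ∧ ρ g 1 1 = f (en2 t g₀ β u g) ∧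
        s ∣ ρ g 0 1 ∧ s ∣ ρ g 1 0) ∧
      (∀ g h, ρ g 0 1 * ρ h 1 0 = f (xx t g₀ β u g h)) ∧
      ∀ (q : A) (g g' : G), (∀ y z, c * q ∣ t (y * g * z) - t (y * g' * z)) →
        ∀ i j, f q ∣ ρ g i j - ρ g' i j := by
  obtain ⟨H, a0, b0, xl, xr⟩ := gm T g₀ hs hp hu
  obtain ⟨c, e, p, q, g₁, h₁, hc, he, hxe, hcp, hcq, mp, mq⟩ := fac H
  obtain ⟨w, hw⟩ := hx g₁ h₁
  rw [← he] at hw
  have hss : s * (s * f w) = f e := by rw [hw, map_mul, ← hs2]; ring
  have p1 : p 1 = 0 := by
    apply mul_left_cancel₀ hc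
    rw [hcp, (H.x1 h₁).1, mul_zero]
  have q1 : q 1 = 0 := by
    apply mul_left_cancel₀ hc
    rw [hcq, (H.x1 g₁).2, mul_zero]
  have p0 : p g₀ = 0 := by
    apply mul_left_cancel₀ hc
    rw [hcp, xl, mul_zero]
  have q0 : q g₀ = 0 := by
    apply mul_left_cancel₀ hc
    rw [hcq, xr, mul_zero]
  have fx : ∀ g k, s * f (p g) * (s * f w * f (q k)) = f (xx t g₀ β u g k) := fun g k => by
    rw [hxe, map_mul, map_mul, ← hss]; ring
  let ρ : G →* M2 A2 :=
    { toFun := fun g => !![f (ent t g₀ β u g), s * f (p g); s * f w * f (q g), f (en2 t g₀ β u g)]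
      map_one' := by
        rw [H.a1, H.b1, p1, q1, map_one, map_zero, mul_zero, mul_zero, Matrix.one_fin_two]
      map_mul' := fun g k => by
        rw [Matrix.mul_fin_two, fx, mul_comm (s * f w * f (q g)) (s * f (p k)), fx, H.am, H.bm, mp,
          mq]
        simp only [map_add, map_mul]
        ext i j
        fin_cases i <;> fin_cases j <;> simp <;> ring }
  have hρ : ∀ g, ρ g =
      !![f (ent t g₀ β u g), s * f (p g); s * f w * f (q g), f (en2 t g₀ β u g)] := fun _ => rfl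
  refine ⟨ρ, c, hc, ?_, fun g => ?_, fun g => ?_, fun g => ?_, fun g k => ?_,
    fun r g g' hg i j => ?_⟩
  · rw [hρ, a0, b0, p0, q0, map_zero, mul_zero, mul_zero]
  · rw [hρ, Matrix.trace_fin_two_of, ← map_add, H.sum]
  · rw [hρ, Matrix.det_fin_two_of, fx, ← map_mul, ← map_sub, H.det]
  · rw [hρ]
    exact ⟨rfl, rfl, Dvd.intro _ rfl, ⟨f w * f (q g), by simp [mul_assoc]⟩⟩
  · rw [hρ, hρ]
    exact fx g k
  · have e1 := ent_dvd (g₀ := g₀) (β := β) (u := u) hg 1 1
    have e2 := ent_dvd (g₀ := g₀) (β := β) (u := u) hg 1 h₁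
    have e3 := ent_dvd (g₀ := g₀) (β := β) (u := u) hg g₁ 1
    have e4 := hg 1 1
    simp only [one_mul, mul_one] at e1 e2 e3 e4
    obtain ⟨k1, hk1⟩ := e1
    obtain ⟨k2, hk2⟩ := e2
    obtain ⟨k3, hk3⟩ := e3
    obtain ⟨k4, hk4⟩ := e4
    have d1 : ent t g₀ β u g - ent t g₀ β u g' = r * (c * k1) := by linear_combination hk1
    have d2 : p g - p g' = r * (k2 - k1 * ent t g₀ β u h₁) := by
      apply mul_left_cancel₀ hc
      rw [mul_sub, hcp, hcp, xx, xx]
      linear_combination hk2 - ent t g₀ β u h₁ * hk1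
    have d3 : q g - q g' = r * (k3 - k1 * ent t g₀ β u g₁) := by
      apply mul_left_cancel₀ hc
      rw [mul_sub, hcq, hcq, xx, xx]
      linear_combination hk3 - ent t g₀ β u g₁ * hk1
    have d4 : en2 t g₀ β u g - en2 t g₀ β u g' = r * (c * (k4 - k1)) := by
      rw [en2, en2]
      linear_combination hk4 - hk1
    have m1 := congrArg f d1
    have m2 := congrArg f d2
    have m3 := congrArg f d3
    have m4 := congrArg f d4
    rw [map_sub, map_mul] at m1 m2 m3 m4
    rw [hρ, hρ]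
    fin_cases i <;> fin_cases j
    · exact ⟨_, m1⟩
    · exact ⟨s * f (k2 - k1 * ent t g₀ β u h₁), by
        show s * f (p g) - s * f (p g') = _
        linear_combination s * m2⟩
    · exact ⟨s * f w * f (k3 - k1 * ent t g₀ β u g₁), by
        show s * f w * f (q g) - s * f w * f (q g') = _
        linear_combination s * f w * m3⟩
    · exact ⟨_, m4⟩

end Vale.Agent.P022G.Bal
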