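import Mathlib

/-! Carayol's lemma with bounded loss, for cocycles with values in matrices. -/

namespace Vale.Agent.P022G.Car

open Matrix

variable {A : Type*} [CommRing A] {n : Type*} [Fintype n] [DecidableEq n] {G : Type*} [Group G]

/-- `rho + eps f` is multiplicative. -/
def Coc (rho : G →* Matrix n n A) (f : G → Matrix n n A) : Prop :=
  ∀ g h, f (g * h) = f g * rho h + rho g * f h

/-- `rho H` spans `del` times the matrix algebra. -/
def Sp (rho : G →* Matrix n n A) (H : Subgroup G) (del : A) : Prop :=
  ∀ Z : Matrix n n A, del • Z ∈ Submodule.span A (Set.range fun h : H => rho h)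

theorem mul_sgl (Z : Matrix n n A) (i o : n) :
    Z * single i o (1 : A) = ∑ j, Z j i • single j o (1 : A) := by
  ext a b
  simp only [Matrix.sum_apply, Matrix.smul_apply, Matrix.mul_apply, Matrix.single_apply, smul_eq_mul]
  rw [Finset.sum_eq_single i, Finset.sum_eq_single a] <;> simp +contextual [eq_comm]

theorem sgl_mul (Z : Matrix n n A) (j o : n) :
    single o j (1 : A) * Z = ∑ i, Z j i • single o i (1 : A) := by
  ext a b
  simp only [Matrix.sum_apply, Matrix.smul_apply, Matrix.mul_apply, Matrix.single_apply, smul_eq_mul]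
  rw [Finset.sum_eq_single j, Finset.sum_eq_single b] <;> simp +contextual [eq_comm]

theorem sum_sgl (o : n) :
    ∑ i, (single i o (1 : A) : Matrix n n A) * (single o i (1 : A) : Matrix n n A) = 1 := by
  simp only [Matrix.single_mul_single_same, mul_one]
  ext a b
  simp only [Matrix.sum_apply, Matrix.single_apply, Matrix.one_apply]
  rw [Finset.sum_eq_single a] <;> simp +contextual [eq_comm]

/-- linear derivations of a matrix algebra are inner -/
theorem inner (D : Matrix n n A →ₗ[A] Matrix n n A)
    (hD : ∀ Z W, D (Z * W) = D Z * W + Z * D W) : ∃ M, ∀ Z, D Z = M * Z - Z * M := by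
  rcases isEmpty_or_nonempty n with h | ⟨⟨o⟩⟩
  · exact ⟨0, fun Z => Subsingleton.elim _ _⟩
  refine ⟨∑ i, D (single i o 1) * single o i 1, fun Z => ?_⟩
  have h1 : Z * ∑ i, D (single i o 1) * single o i (1 : A)
      = ∑ i, D (Z * single i o 1) * single o i 1 - D Z := by
    rw [Finset.mul_sum, eq_sub_iff_add_eq]
    conv_lhs => rw [← mul_one (D Z), ← sum_sgl o, Finset.mul_sum, ← Finset.sum_add_distrib]
    refine Finset.sum_congr rfl fun i _ => ?_
    rw [hD]; noncomm_ring
  have h2 : (∑ i, D (single i o 1) * single o i (1 : A)) * Z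
      = ∑ i, D (Z * single i o 1) * single o i 1 := by
    have a1 : ∀ i, D (single i o 1) * single o i (1 : A) * Z
        = ∑ j, Z i j • (D (single i o 1) * single o j (1 : A)) := by
      intro i
      rw [mul_assoc, sgl_mul, Finset.mul_sum]
      simp only [mul_smul_comm]
    have a2 : ∀ j, D (Z * single j o 1) * single o j (1 : A)
        = ∑ i, Z i j • (D (single i o 1) * single o j (1 : A)) := by
      intro j
      rw [mul_sgl Z, map_sum, Finset.sum_mul]
      simp only [map_smul, smul_mul_assoc]
    rw [Finset.sum_mul]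
    simp only [a1, a2]
    exact Finset.sum_comm
  rw [h1, h2]; abel

theorem eq_zero_of_tr (W : Matrix n n A) (h : ∀ Z, (W * Z).trace = 0) : W = 0 := by
  ext i j
  have := h (single j i 1)
  rw [mul_sgl] at this
  simp only [trace_sum, trace_smul, smul_eq_mul] at this
  rw [Finset.sum_eq_single i] at this
  · simpa using this
  · intro b _ hb
    simp [trace_single_eq_of_ne _ _ _ hb]
  · simp

theorem rho_inv (rho : G →* Matrix n n A) (g : G) : rho g⁻¹ * rho g = 1 := by
  rw [← map_mul, inv_mul_cancel, map_one]

theorem rho_inv' (rho : G →* Matrix n n A) (g : G) : rho g * rho g⁻¹ = 1 := by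
  rw [← map_mul, mul_inv_cancel, map_one]

/-- a vanishing combination of `rho` gives a `del` torsion combination of `f` -/
theorem key {rho : G →* Matrix n n A} {f : G → Matrix n n A} (hf : Coc rho f) {H : Subgroup G}
    {del : A} (hs : Sp rho H del) (s : G) (ht : ∀ g ∈ H, (f (s * g)).trace = 0) (u : H →₀ A)
    (hu : Finsupp.linearCombination A (fun h : H => rho h) u = 0) :
    del • Finsupp.linearCombination A (fun h : H => f h) u = 0 := by
  have h1 : ∀ (h : H) (v : H →₀ A),
      (Finsupp.linearCombination A (fun h : H => f h) v * (rho h * rho s)).trace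
        = - (Finsupp.linearCombination A (fun h : H => rho h) v
            * (f h * rho s + rho h * f s)).trace := by
    intro h v
    induction v using Finsupp.induction_linear with
    | zero => simp
    | add a b ha hb => simp only [map_add, add_mul, trace_add, ha, hb]; ring
    | single g c =>
      have e := ht (g * h) (H.mul_mem g.2 h.2)
      rw [hf, hf, map_mul, trace_add, trace_mul_comm (f s), trace_mul_comm (rho s)] at e
      simp only [Finsupp.linearCombination_single, smul_mul_assoc, trace_smul, smul_eq_mul]
      simp only [add_mul, mul_add, trace_add, mul_assoc] at e ⊢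
      linear_combination c * e
  apply eq_zero_of_tr
  intro Z
  have h2 : ∀ Y ∈ Submodule.span A (Set.range fun h : H => rho h),
      (Finsupp.linearCombination A (fun h : H => f h) u * (Y * rho s)).trace = 0 := by
    intro Y hY
    induction hY using Submodule.span_induction with
    | mem x hx => obtain ⟨h, rfl⟩ := hx; rw [h1, hu]; simp
    | zero => simp
    | add x y _ _ hx hy => simp only [add_mul, mul_add, trace_add, hx, hy, add_zero]
    | smul a x _ hx => simp only [smul_mul_assoc, mul_smul_comm, trace_smul, hx, smul_zero]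
  have h3 := h2 _ (hs (Z * rho s⁻¹))
  rw [smul_mul_assoc, mul_assoc, rho_inv, mul_one] at h3
  rw [smul_mul_assoc, ← mul_smul_comm, h3]

/-- **Carayol, coset form**: the trace of `f` vanishes on `s H`. -/
theorem car {rho : G →* Matrix n n A} {f : G → Matrix n n A} (hf : Coc rho f) {H : Subgroup G}
    {del : A} (hs : Sp rho H del) (s : G) (ht : ∀ g ∈ H, (f (s * g)).trace = 0) :
    ∃ M, ∀ g ∈ H, del ^ 4 • f g = M * rho g - rho g * M := by
  have hu : ∀ i j : n, ∃ u : H →₀ A,
      Finsupp.linearCombination A (fun h : H => rho h) u = del • single i j 1 := fun i j =>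
    Finsupp.mem_span_range_iff_exists_finsupp.1 (hs _)
  choose u hu using hu
  let U : Matrix n n A →ₗ[A] (H →₀ A) :=
    { toFun := fun Z => ∑ i, ∑ j, Z i j • u i j
      map_add' := fun Z W => by simp [add_smul, Finset.sum_add_distrib]
      map_smul' := fun c Z => by simp [Finset.smul_sum, mul_smul] }
  have hU : ∀ Z, Finsupp.linearCombination A (fun h : H => rho h) (U Z) = del • Z := by
    intro Z
    simp only [U, LinearMap.coe_mk, AddHom.coe_mk, map_sum, map_smul, hu]
    conv_rhs => rw [matrix_eq_sum_single Z]
    simp only [Finset.smul_sum, smul_single, smul_eq_mul, mul_one, mul_comm]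
  let D : Matrix n n A →ₗ[A] Matrix n n A :=
    del • (Finsupp.linearCombination A (fun h : H => f h)).comp U
  have hD : ∀ g ∈ H, D (rho g) = del ^ 2 • f g := by
    intro g hg
    have := key hf hs s ht (U (rho g) - del • Finsupp.single ⟨g, hg⟩ 1) (by
      rw [map_sub, hU, map_smul, Finsupp.linearCombination_single, one_smul, sub_self])
    rw [map_sub, map_smul, Finsupp.linearCombination_single, one_smul, smul_sub, sub_eq_zero,
      smul_smul, ← sq] at this
    exact this
  have h1 : ∀ Z ∈ Submodule.span A (Set.range fun h : H => rho h),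
      ∀ W ∈ Submodule.span A (Set.range fun h : H => rho h), D (Z * W) = D Z * W + Z * D W := by
    intro Z hZ W hW
    induction hZ using Submodule.span_induction with
    | mem x hx =>
      obtain ⟨g, rfl⟩ := hx
      induction hW using Submodule.span_induction with
      | mem y hy =>
        obtain ⟨h, rfl⟩ := hy
        simp only []
        rw [← map_mul, hD _ (H.mul_mem g.2 h.2), hD _ g.2, hD _ h.2, hf, smul_add, smul_mul_assoc,
          mul_smul_comm]
      | zero => simp
      | add x y _ _ hx hy => simp only [mul_add, map_add, hx, hy]; abel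
      | smul a x _ hx => simp only [mul_smul_comm, map_smul, hx, smul_add]
    | zero => simp
    | add x y _ _ hx hy => simp only [add_mul, map_add, hx, hy]; abel
    | smul a x _ hx => simp only [smul_mul_assoc, map_smul, hx, smul_add]
  obtain ⟨M, hM⟩ := inner (del ^ 2 • D) (by
    intro Z W
    have := h1 _ (hs Z) _ (hs W)
    simp only [smul_mul_assoc, mul_smul_comm, map_smul, smul_smul, ← sq] at this
    simp only [LinearMap.smul_apply, smul_mul_assoc, mul_smul_comm, this])
  refine ⟨M, fun g hg => ?_⟩
  rw [← hM, LinearMap.smul_apply, hD g hg, smul_smul, ← pow_add]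

/-- a cocycle vanishing on a normal subgroup is scalar up to `del` -/
theorem scal [Nonempty n] {rho : G →* Matrix n n A} {f : G → Matrix n n A} (hf : Coc rho f)
    {H : Subgroup G} [hH : H.Normal] {del : A} (hs : Sp rho H del) (h0 : ∀ g ∈ H, f g = 0) :
    ∃ c : G → A, (∀ g h, c (g * h) = c g + c h) ∧ (∀ g ∈ H, c g = 0) ∧
      ∀ g, del • f g = c g • rho g := by
  obtain ⟨o⟩ := ‹Nonempty n›
  have h1 : ∀ g, ∃ c : A, del • f g = c • rho g := by
    intro g
    have h2 : ∀ Y ∈ Submodule.span A (Set.range fun h : H => rho h),
        rho g⁻¹ * f g * Y = Y * (rho g⁻¹ * f g) := by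
      intro Y hY
      induction hY using Submodule.span_induction with
      | mem x hx =>
        obtain ⟨h, rfl⟩ := hx
        have e1 := hf g h
        have e2 := hf (g * h * g⁻¹) g
        rw [h0 _ h.2, mul_zero, add_zero] at e1
        rw [h0 _ (hH.conj_mem _ h.2 g), zero_mul, zero_add, inv_mul_cancel_right, e1, map_mul,
          map_mul] at e2
        simp only []
        rw [mul_assoc, e2, ← mul_assoc, ← mul_assoc, ← mul_assoc, rho_inv, one_mul, mul_assoc]
      | zero => simp
      | add x y _ _ hx hy => rw [mul_add, add_mul, hx, hy]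
      | smul a x _ hx => rw [mul_smul_comm, smul_mul_assoc, hx]
    have h3 : ∀ Z, (del • (rho g⁻¹ * f g)) * Z = Z * (del • (rho g⁻¹ * f g)) := by
      intro Z
      have := h2 _ (hs Z)
      rw [mul_smul_comm, smul_mul_assoc] at this
      rw [smul_mul_assoc, mul_smul_comm, this]
    obtain ⟨c, hc⟩ := (mem_range_scalar_iff_commute_single' (M := del • (rho g⁻¹ * f g))).2
      (fun i j => (h3 (single i j 1)).symm)
    refine ⟨c, ?_⟩
    have := congrArg (fun X => rho g * X) hc
    simp only [mul_smul_comm, ← mul_assoc, rho_inv', one_mul] at this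
    rw [← this, scalar_apply, ← smul_one_eq_diagonal, mul_smul_comm, mul_one]
  choose c hc using h1
  have h4 : ∀ (a b : A) (g : G), a • rho g = b • rho g → a = b := by
    intro a b g h
    have := congrArg (fun X => (X * rho g⁻¹) o o) h
    simpa [smul_mul_assoc, rho_inv'] using this
  refine ⟨c, fun g h => h4 _ _ (g * h) ?_, fun g hg => h4 _ _ g ?_, hc⟩
  · rw [← hc, hf, smul_add, ← smul_mul_assoc, ← mul_smul_comm, hc, hc, map_mul, add_smul,
      smul_mul_assoc, mul_smul_comm]
  · rw [← hc, h0 g hg, smul_zero, zero_smul]

/-- **Carayol on a normal subgroup**, conclusion on the whole group. -/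
theorem car_normal [Nonempty n] {rho : G →* Matrix n n A} {f : G → Matrix n n A} (hf : Coc rho f)
    {H : Subgroup G} [H.Normal] {del : A} (hs : Sp rho H del) (s : G)
    (ht : ∀ g ∈ H, (f (s * g)).trace = 0) :
    ∃ (M : Matrix n n A) (c : G → A), (∀ g h, c (g * h) = c g + c h) ∧ (∀ g ∈ H, c g = 0) ∧
      ∀ g, del ^ 5 • f g = M * rho g - rho g * M + c g • rho g := by
  obtain ⟨M, hM⟩ := car hf hs s ht
  obtain ⟨c, h1, h2, h3⟩ := scal (rho := rho)
    (f := fun g => del ^ 4 • f g - (M * rho g - rho g * M)) (by
      intro g h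
      simp only []
      rw [hf, map_mul]
      simp only [smul_add, sub_mul, mul_sub, smul_mul_assoc, mul_smul_comm, mul_assoc]
      abel) hs (fun g hg => by rw [hM g hg, sub_self])
  refine ⟨del • M, c, h1, h2, fun g => ?_⟩
  rw [← h3, smul_sub, smul_sub, smul_smul, ← pow_succ', smul_mul_assoc, mul_smul_comm]
  abel

end Vale.Agent.P022G.Car
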