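import Mathlib
import Vale.Agent.P022D.CA.Jac
import Vale.Agent.P022D.CA.Dep

/-! Cutting a prime of a regular local ring inside a given prime. -/

universe u

namespace P022G.Cat

open IsLocalRing RingTheory.Sequence Vale.Agent.P177 Vale.Agent.P022D

section Gen

variable {A : Type u} [CommRing A] [IsNoetherianRing A]

/-- The saturation of `I + (a)` outside `P`. -/
def sat (P : Ideal A) [hP : P.IsPrime] (I : Ideal A) (a : A) : Ideal A where
  carrier := {z | ∃ s, s ∉ P ∧ ∃ b, s * z - b * a ∈ I}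
  zero_mem' := ⟨1, fun h => hP.ne_top ((Ideal.eq_top_iff_one _).2 h), 0, by simp⟩
  add_mem' := by
    rintro z w ⟨s, hs, b, h⟩ ⟨s', hs', b', h'⟩
    refine ⟨s * s', fun hm => (hP.mem_or_mem hm).elim hs hs', s' * b + s * b', ?_⟩
    have e : s * s' * (z + w) - (s' * b + s * b') * a =
        s' * (s * z - b * a) + s * (s' * w - b' * a) := by ring
    rw [e]
    exact I.add_mem (I.mul_mem_left _ h) (I.mul_mem_left _ h')
  smul_mem' := by
    rintro c z ⟨s, hs, b, h⟩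
    refine ⟨s, hs, c * b, ?_⟩
    have e : s * (c • z) - c * b * a = c * (s * z - b * a) := by
      rw [smul_eq_mul]
      ring
    rw [e]
    exact I.mul_mem_left _ h

theorem exists_el {I Q P : Ideal A} [hP : P.IsPrime] {a y : A} (hy : y ∈ P)
    (hreg : ∀ z, y * z ∈ I → z ∈ I) (h1 : ∀ q ∈ Q, q * a ∈ I) (h2 : ∀ g, g * a ∈ I → g ∈ P) :
    ∃ a', (∀ q ∈ Q, q * a' ∈ I) ∧ ∀ g, g * a' ∈ I ⊔ Ideal.span {y} → g ∈ P := by
  obtain ⟨_, ⟨a', ⟨h3, h4⟩, rfl⟩, hmax⟩ := set_has_maximal_iff_noetherian.2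
    (inferInstance : IsNoetherian A A)
    ((fun a => sat P I a) '' {a | (∀ q ∈ Q, q * a ∈ I) ∧ ∀ g, g * a ∈ I → g ∈ P})
    ⟨_, a, ⟨h1, h2⟩, rfl⟩
  refine ⟨a', h3, fun g hg => ?_⟩
  by_contra hgP
  obtain ⟨i, hi, w, hw, he⟩ := Submodule.mem_sup.1 hg
  obtain ⟨c, rfl⟩ := Ideal.mem_span_singleton'.1 hw
  have hc : g * a' - y * c ∈ I := by
    have e : g * a' - y * c = i := by rw [← he]; ring
    rwa [e]
  have h5 : ∀ q ∈ Q, q * c ∈ I := by
    intro q hq
    apply hreg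
    have e : y * (q * c) = g * (q * a') - q * (g * a' - y * c) := by ring
    rw [e]
    exact I.sub_mem (I.mul_mem_left _ (h3 q hq)) (I.mul_mem_left _ hc)
  have h6 : ∀ t, t * c ∈ I → t ∈ P := by
    intro t ht
    have h7 : (t * g) * a' ∈ I := by
      have e : (t * g) * a' = t * (g * a' - y * c) + y * (t * c) := by ring
      rw [e]
      exact I.add_mem (I.mul_mem_left _ hc) (I.mul_mem_left _ ht)
    exact (hP.mem_or_mem (h4 _ h7)).resolve_right hgP
  have hle : sat P I a' ≤ sat P I c := by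
    rintro z ⟨s, hs, b, h⟩
    refine ⟨g * s, fun hm => (hP.mem_or_mem hm).elim hgP hs, b * y, ?_⟩
    have e : g * s * z - b * y * c = g * (s * z - b * a') + b * (g * a' - y * c) := by ring
    rw [e]
    exact I.add_mem (I.mul_mem_left _ h) (I.mul_mem_left _ hc)
  have heq : sat P I a' = sat P I c :=
    hle.eq_or_lt.resolve_right (hmax _ ⟨c, ⟨h5, h6⟩, rfl⟩)
  have hcc : c ∈ sat P I a' := by
    rw [heq]
    exact ⟨1, fun h => hP.ne_top ((Ideal.eq_top_iff_one _).2 h), 1, by simp⟩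
  obtain ⟨s, hs, b, h⟩ := hcc
  have h8 : (g * s - b * y) * c ∈ I := by
    have e : (g * s - b * y) * c = g * (s * c - b * a') + b * (g * a' - y * c) := by ring
    rw [e]
    exact I.add_mem (I.mul_mem_left _ h) (I.mul_mem_left _ hc)
  have h9 : g * s ∈ P := by
    have := P.add_mem (h6 _ h8) (P.mul_mem_left b hy)
    rwa [sub_add_cancel] at this
  exact (hP.mem_or_mem h9).elim hgP hs

/-- An associated prime moves to an associated prime of the quotient by a regular element. -/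
theorem ass_between {I Q P : Ideal A} [hP : P.IsPrime] {y : A} (hy : y ∈ P) (hQP : Q ≤ P)
    (hreg : ∀ z, y * z ∈ I → z ∈ I) (hQ : IsAssociatedPrime Q (A ⧸ I)) :
    ∃ P', IsAssociatedPrime P' (A ⧸ (I ⊔ Ideal.span {y})) ∧ Q ≤ P' ∧ P' ≤ P := by
  obtain ⟨-, a, ha⟩ := isAssociatedPrime_iff.1 hQ
  obtain ⟨a, rfl⟩ := Ideal.Quotient.mk_surjective a
  have h0 : ∀ g, g ∈ Q ↔ g * a ∈ I := by
    intro g
    rw [ha, Submodule.mem_colon_singleton, Submodule.mem_bot]
    exact Ideal.Quotient.eq_zero_iff_mem (a := g * a)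
  obtain ⟨a', h1, h2⟩ := exists_el (Q := Q) hy hreg (fun q hq => (h0 q).1 hq)
    (fun g hg => hQP ((h0 g).2 hg))
  have h3 : ∀ g, g ∈ (⊥ : Submodule A (A ⧸ (I ⊔ Ideal.span {y}))).colon
      {Ideal.Quotient.mk (I ⊔ Ideal.span {y}) a'} ↔ g * a' ∈ I ⊔ Ideal.span {y} := by
    intro g
    rw [Submodule.mem_colon_singleton, Submodule.mem_bot]
    exact Ideal.Quotient.eq_zero_iff_mem (a := g * a')
  obtain ⟨P', hP', hle⟩ := Ideal.exists_minimalPrimes_le (J := P)
    (I := (⊥ : Submodule A (A ⧸ (I ⊔ Ideal.span {y}))).colon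
      {Ideal.Quotient.mk (I ⊔ Ideal.span {y}) a'}) (fun g hg => h2 g ((h3 g).1 hg))
  refine ⟨P', isAssociatedPrime_iff.2 ⟨hP'.1.1, Submodule.exists_eq_colon_of_mem_minimalPrimes hP'⟩,
    fun q hq => hP'.1.2 ((h3 q).2 (Ideal.mem_sup_left (h1 q hq))), hle⟩

/-- No prime lies strictly between `Q` and a minimal prime of `Q + (x)`. -/
theorem eq_of_between {Q P P' : Ideal A} {x : A} (hQ : Q.IsPrime) (hP' : P'.IsPrime)
    (hP : P ∈ (Q ⊔ Ideal.span {x}).minimalPrimes) (h1 : Q < P') (h2 : P' ≤ P) : P' = P := by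
  by_contra hne
  have hPp : P.IsPrime := hP.1.1
  have h3 := Ideal.map_height_le_one_of_mem_minimalPrimes hP
  have hs : Function.Surjective (Ideal.Quotient.mk Q) := Ideal.Quotient.mk_surjective
  have k1 : RingHom.ker (Ideal.Quotient.mk Q) ≤ P' := Q.mk_ker.trans_le h1.le
  have k2 : RingHom.ker (Ideal.Quotient.mk Q) ≤ P := k1.trans h2
  have p1 : (P'.map (Ideal.Quotient.mk Q)).IsPrime := Ideal.map_isPrime_of_surjective hs k1
  have p2 : (P.map (Ideal.Quotient.mk Q)).IsPrime := Ideal.map_isPrime_of_surjective hs k2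
  have c1 : (P'.map (Ideal.Quotient.mk Q)).comap (Ideal.Quotient.mk Q) = P' := by
    rw [Ideal.comap_map_of_surjective _ hs]
    exact sup_eq_left.2 k1
  have c2 : (P.map (Ideal.Quotient.mk Q)).comap (Ideal.Quotient.mk Q) = P := by
    rw [Ideal.comap_map_of_surjective _ hs]
    exact sup_eq_left.2 k2
  have l1 : (⊥ : Ideal (A ⧸ Q)) < P'.map (Ideal.Quotient.mk Q) := by
    refine bot_lt_iff_ne_bot.2 fun h => h1.ne' ?_
    rw [← c1, h]
    exact Q.mk_ker
  have l2 : P'.map (Ideal.Quotient.mk Q) < P.map (Ideal.Quotient.mk Q) := by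
    refine lt_of_le_of_ne (Ideal.map_mono h2) fun h => hne ?_
    rw [← c1, h, c2]
  have p0 : (⊥ : Ideal (A ⧸ Q)).IsPrime := Ideal.isPrime_bot
  have g1 := Ideal.height_add_one_le_of_lt_of_isPrime l1
  have g2 := Ideal.height_add_one_le_of_lt_of_isPrime l2
  have g3 : (1 : ℕ∞) + 1 ≤ 1 :=
    (add_le_add_left (le_add_self.trans g1) 1).trans (g2.trans h3)
  exact absurd g3 (by decide)

end Gen

section Reg

variable {T : Type u} [CommRing T] [IsRegularLocalRing T]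

theorem exists_dim (T : Type u) [CommRing T] [IsRegularLocalRing T] :
    ∃ t : ℕ, ringKrullDim T = t :=
  ⟨_, (IsRegularLocalRing.spanFinrank_maximalIdeal (R := T)).symm⟩

theorem ci_ass {t : ℕ} (ht : ringKrullDim T = t) (L : List T) (hreg : IsWeaklyRegular T L)
    (hl : L.length ≤ t) {I : Ideal T} (hI : I = Ideal.ofList L) {P : Ideal T}
    (hP : IsAssociatedPrime P (T ⧸ I)) :
    ((t - L.length : ℕ) : WithBot ℕ∞) ≤ ringKrullDim (T ⧸ P) := by
  have e : I = (Ideal.ofList L • ⊤ : Submodule T T) := by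
    rw [hI, smul_eq_mul, Ideal.mul_top]
  subst e
  obtain ⟨ws, hws, hwm, hwr⟩ := exists_regular_ext_list ht T L hreg 0
    (tor_self_residue_subsingleton T) (t - L.length) (by omega)
  have h5 := length_le_supportDim_of_isAssociatedPrime ws hwm _
    ((isWeaklyRegular_append_iff _ _ _).1 hwr).2 P hP
  rwa [hws, Module.supportDim_quotient_eq_ringKrullDim] at h5

/-- A minimal prime of `Q + (x)` loses at most one dimension. -/
theorem cat_min {Q P : Ideal T} {x : T} (hQ : Q.IsPrime)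
    (hP : P ∈ (Q ⊔ Ideal.span {x}).minimalPrimes) {k : ℕ}
    (hk : ((k + 1 : ℕ) : WithBot ℕ∞) ≤ ringKrullDim (T ⧸ Q)) :
    (k : WithBot ℕ∞) ≤ ringKrullDim (T ⧸ P) := by
  have hPp : P.IsPrime := hP.1.1
  have hQP : Q ≤ P := le_sup_left.trans hP.1.2
  rcases hQP.eq_or_lt with heq | hlt
  · rw [← heq]
    exact le_trans (by exact_mod_cast Nat.le_succ k) hk
  obtain ⟨t, ht⟩ := exists_dim T
  obtain ⟨zs, hmem, hreg, hlen, -, hd, hass⟩ := exists_ci ht Q
  rw [Module.supportDim_quotient_eq_ringKrullDim] at hd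
  have e : (Ideal.ofList zs • ⊤ : Submodule T T) = Ideal.ofList zs := by
    rw [smul_eq_mul, Ideal.mul_top]
  have hk' : k + 1 ≤ t - zs.length := by
    rw [hd] at hk
    exact_mod_cast hk
  have hy : ∃ y ∈ P, IsSMulRegular (T ⧸ (Ideal.ofList zs • ⊤ : Submodule T T)) y := by
    by_contra hcon
    have hfin := associatedPrimes.finite T (T ⧸ (Ideal.ofList zs • ⊤ : Submodule T T))
    have hsub : (P : Set T) ⊆ ⋃ I ∈ associatedPrimes T
        (T ⧸ (Ideal.ofList zs • ⊤ : Submodule T T)), (I : Set T) := by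
      intro z hz
      rw [biUnion_associatedPrimes_eq_compl_regular]
      exact fun h => hcon ⟨z, hz, h⟩
    obtain ⟨P', hP', hle⟩ := (Ideal.subset_union_prime_finite hfin (f := id) ⊥ ⊥ (by
      intro I hI _ _
      exact hI.isPrime)).1 hsub
    change P ≤ P' at hle
    have h1 := ci_ass ht zs hreg hlen e hP'
    have h2 := CA.dimGE_succ hQ (hlt.trans_le hle) h1
    rw [hd] at h2
    have h3 : t - zs.length + 1 ≤ t - zs.length := by exact_mod_cast h2
    omega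
  obtain ⟨y, hyP, hyr⟩ := hy
  have hr2 : IsWeaklyRegular T (zs ++ [y]) := by
    rw [isWeaklyRegular_append_iff]
    exact ⟨hreg, (isWeaklyRegular_singleton_iff _ _).2 hyr⟩
  have hyr' := (CA.smulRegular_iff (I := (Ideal.ofList zs • ⊤ : Submodule T T))).1 hyr
  obtain ⟨P', h1, h2, h3⟩ := ass_between hyP hQP hyr' hass
  have hyQ : y ∉ Q := by
    intro h
    obtain ⟨-, a, ha⟩ := isAssociatedPrime_iff.1 hass
    rw [ha, Submodule.mem_colon_singleton, Submodule.mem_bot] at h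
    have h4 : a = 0 := hyr (h.trans (smul_zero y).symm)
    apply hQ.ne_top
    rw [ha, h4, eq_top_iff]
    intro g _
    rw [Submodule.mem_colon_singleton, smul_zero]
    exact Submodule.zero_mem _
  have hy' : y ∈ P' := CA.le_of_ass h1 (Ideal.mem_sup_right (Ideal.mem_span_singleton_self y))
  have h5 : P' = P :=
    eq_of_between hQ h1.isPrime hP (lt_of_le_of_ne h2 fun h => hyQ (h ▸ hy')) h3
  have h6 := ci_ass ht (zs ++ [y]) hr2 (by simp; omega)
    (by rw [Ideal.ofList_append, Ideal.ofList_singleton, e]) h1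
  rw [h5] at h6
  refine le_trans ?_ h6
  have h7 : k ≤ t - (zs ++ [y]).length := by simp; omega
  exact_mod_cast h7

/-- Cutting by one element inside `p`. -/
theorem cat_one {Q p : Ideal T} (hQ : Q.IsPrime) (hp : p.IsPrime) (hQp : Q ≤ p) {x : T}
    (hx : x ∈ p) {k : ℕ} (hk : ((k + 1 : ℕ) : WithBot ℕ∞) ≤ ringKrullDim (T ⧸ Q)) :
    ∃ P : Ideal T, P.IsPrime ∧ Q ≤ P ∧ x ∈ P ∧ P ≤ p ∧
      (k : WithBot ℕ∞) ≤ ringKrullDim (T ⧸ P) := by
  obtain ⟨P, hP, hle⟩ := Ideal.exists_minimalPrimes_le (I := Q ⊔ Ideal.span {x}) (J := p)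
    (sup_le hQp ((Ideal.span_singleton_le_iff_mem _).2 hx))
  exact ⟨P, hP.1.1, le_sup_left.trans hP.1.2,
    hP.1.2 (Ideal.mem_sup_right (Ideal.mem_span_singleton_self x)), hle, cat_min hQ hP hk⟩

/-- Cutting by a list inside `p`. -/
theorem cat_list (fs : List T) : ∀ {Q p : Ideal T}, Q.IsPrime → p.IsPrime → Q ≤ p →
    (∀ f ∈ fs, f ∈ p) → ∀ {k : ℕ},
    ((k + fs.length : ℕ) : WithBot ℕ∞) ≤ ringKrullDim (T ⧸ Q) →
    ∃ P : Ideal T, P.IsPrime ∧ Q ≤ P ∧ (∀ f ∈ fs, f ∈ P) ∧ P ≤ p ∧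
      (k : WithBot ℕ∞) ≤ ringKrullDim (T ⧸ P) := by
  induction fs with
  | nil =>
    intro Q p hQ _ hQp _ k hk
    exact ⟨Q, hQ, le_rfl, by simp, hQp, hk⟩
  | cons f fs ih =>
    intro Q p hQ hp hQp hf k hk
    obtain ⟨P, h1, h2, h3, h4, h5⟩ := cat_one hQ hp hQp (hf f List.mem_cons_self)
      (k := k + fs.length) hk
    obtain ⟨P', g1, g2, g3, g4, g5⟩ := ih h1 hp h4
      (fun g hg => hf g (List.mem_cons_of_mem _ hg)) h5
    refine ⟨P', g1, h2.trans g2, fun g hg => ?_, g4, g5⟩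
    rcases List.mem_cons.1 hg with rfl | hg
    · exact g2 h3
    · exact g3 g hg

/-- Cutting by a finite family inside `p`. -/
theorem cat {ι : Type*} [Fintype ι] (f : ι → T) {Q p : Ideal T} (hQ : Q.IsPrime) (hp : p.IsPrime)
    (hQp : Q ≤ p) (hf : ∀ i, f i ∈ p) {k : ℕ}
    (hk : ((k + Fintype.card ι : ℕ) : WithBot ℕ∞) ≤ ringKrullDim (T ⧸ Q)) :
    ∃ P : Ideal T, P.IsPrime ∧ Q ≤ P ∧ (∀ i, f i ∈ P) ∧ P ≤ p ∧
      (k : WithBot ℕ∞) ≤ ringKrullDim (T ⧸ P) := by
  obtain ⟨P, h1, h2, h3, h4, h5⟩ := cat_list ((Finset.univ : Finset ι).toList.map f) hQ hp hQp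
    (fun g hg => by
      obtain ⟨i, -, rfl⟩ := List.mem_map.1 hg
      exact hf i) (k := k) (by
      rw [List.length_map, Finset.length_toList, Finset.card_univ]
      exact hk)
  exact ⟨P, h1, h2, fun i => h3 _ (List.mem_map.2 ⟨i, by simp, rfl⟩), h4, h5⟩

end Reg

end P022G.Cat
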