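import Vale.Agent.P022G.Chain

/-!
# P022G: curves are dense
-/

set_option linter.all false

open IsLocalRing

namespace Vale.Agent.P022G.Chain

open Vale.Agent.P022D.CA

variable {A : Type} [CommRing A] [IsNoetherianRing A] [IsLocalRing A]

/-- a prime of positive dimension is the intersection of the curves which contain it -/
theorem exists_cv_not {E : Ideal A} (hE : E.IsPrime)
    (h : ((1 : ℕ) : WithBot ℕ∞) ≤ ringKrullDim (A ⧸ E)) {f : A} (hf : f ∉ E) :
    ∃ p, Cv p ∧ E ≤ p ∧ f ∉ p := by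
  obtain ⟨p, ⟨hp, hfp⟩, hmax⟩ := set_has_maximal_iff_noetherian.2 (inferInstance : IsNoetherian A A)
    {p : Ideal A | Pd E 1 p ∧ f ∉ p} ⟨E, ⟨hE, le_rfl, h⟩, hf⟩
  refine ⟨p, ⟨hp.1, le_antisymm ?_ (by exact_mod_cast hp.2.2)⟩, hp.2.1, hfp⟩
  refine (dim_le_of_not (k := 1) fun h2 => ?_).trans (by simp)
  by_cases hu : f ∈ maximalIdeal A
  · have hfin : (Ideal.minimalPrimes (p ⊔ Ideal.span {f})).Finite :=
      Ideal.finite_minimalPrimes_of_isNoetherianRing A _
    have hd := dimGE_sup (k := 1) hu h2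
    have hx : ∃ x ∈ maximalIdeal A, ∀ q ∈ Ideal.minimalPrimes (p ⊔ Ideal.span {f}), x ∉ q := by
      by_contra hc
      push Not at hc
      have hsub : ((maximalIdeal A : Ideal A) : Set A) ⊆ ⋃ q ∈ (↑hfin.toFinset : Set (Ideal A)),
          ((id q : Ideal A) : Set A) := fun x hx => by
        obtain ⟨q, hq, hxq⟩ := hc x hx
        exact Set.mem_biUnion (by simpa using hq) hxq
      obtain ⟨q, hq, hle⟩ := (Ideal.subset_union_prime ⊤ ⊤ fun q hq _ _ =>
        (hfin.mem_toFinset.1 hq).1.1).1 hsub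
      have hq' := hfin.mem_toFinset.1 hq
      have hqm : q = maximalIdeal A :=
        le_antisymm (le_maximalIdeal hq'.1.1.ne_top) hle
      obtain ⟨P, hP, hPle, hPd⟩ := dimGE_prime hd
      have hmP : q ≤ P := hq'.2 ⟨hP, hPle⟩ (hqm ▸ le_maximalIdeal hP.ne_top)
      have hPm : P = maximalIdeal A := le_antisymm (le_maximalIdeal hP.ne_top) (hqm ▸ hmP)
      rw [hPm] at hPd
      letI := Ideal.Quotient.field (maximalIdeal A)
      rw [ringKrullDim_eq_zero_of_field] at hPd
      exact absurd hPd (by norm_num)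
    obtain ⟨x, hxm, hx⟩ := hx
    haveI : Nontrivial (A ⧸ p) := Ideal.Quotient.nontrivial_iff.2 hp.1.ne_top
    haveI : IsLocalRing (A ⧸ p) :=
      IsLocalRing.of_surjective' (Ideal.Quotient.mk p) Ideal.Quotient.mk_surjective
    obtain ⟨d, hdd⟩ : ∃ d : ℕ, ringKrullDim (A ⧸ p) = d := by
      obtain ⟨n, hn⟩ := WithBot.ne_bot_iff_exists.1 (ringKrullDim_ne_bot (R := A ⧸ p))
      obtain ⟨d, hd⟩ := ENat.ne_top_iff_exists.1 (show n ≠ ⊤ from fun h =>
        ringKrullDim_ne_top (R := A ⧸ p) (by rw [← hn, h]; rfl))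
      exact ⟨d, by rw [← hn, ← hd]; rfl⟩
    have h2d : 2 ≤ d := by rw [hdd] at h2; exact_mod_cast h2
    obtain ⟨e, rfl⟩ : ∃ e, d = e + 1 := ⟨d - 1, by omega⟩
    obtain ⟨r, hr, hrle, hrd⟩ := dimGE_prime (dimGE_sup (k := e) hxm hdd.ge)
    have hxr : x ∈ r := hrle (Ideal.mem_sup_right (Ideal.mem_span_singleton_self x))
    have hpr : p ≤ r := le_sup_left.trans hrle
    by_cases hfr : f ∈ r
    · obtain ⟨q, hq, hqr⟩ := Ideal.exists_minimalPrimes_le (I := p ⊔ Ideal.span {f}) (J := r)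
        (sup_le hpr ((Ideal.span_singleton_le_iff_mem _).2 hfr))
      have l1 : q < r := lt_of_le_of_ne hqr fun h => hx q hq (h ▸ hxr)
      have l2 : p < q := lt_of_le_of_ne (le_sup_left.trans hq.1.2) fun h =>
        hfp (h ▸ hq.1.2 (Ideal.mem_sup_right (Ideal.mem_span_singleton_self f)))
      have := dimGE_succ hp.1 l2 (dimGE_succ hq.1.1 l1 hrd)
      rw [hdd] at this
      have : e + 1 + 1 ≤ e + 1 := by exact_mod_cast this
      omega
    · obtain ⟨q, hq, hq0⟩ := Ideal.exists_minimalPrimes_le (I := p ⊔ Ideal.span {f})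
        (J := maximalIdeal A) (sup_le (le_maximalIdeal hp.1.ne_top)
          ((Ideal.span_singleton_le_iff_mem _).2 hu))
      refine hmax r ⟨⟨hr, hp.2.1.trans hpr, le_trans (by exact_mod_cast (by omega : 1 ≤ e)) hrd⟩,
        hfr⟩ (lt_of_le_of_ne hpr fun h => hx q hq ?_)
      exact (le_sup_left.trans hq.1.2) (h ▸ hxr)
  · obtain ⟨q, hq, hle⟩ := exists_cv hp.2.2
    have : p = q := by
      by_contra hne
      refine hmax q ⟨⟨hq.1, hp.2.1.trans hle, by rw [hq.2]; simp⟩, fun hfq => hu ?_⟩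
        (lt_of_le_of_ne hle hne)
      exact le_maximalIdeal hq.1.ne_top hfq
    rw [this, hq.2] at h2
    exact absurd h2 (by norm_num)

/-- an ideal which lies in all the curves through a prime of positive dimension lies in it -/
theorem le_of_cv {E K : Ideal A} (hE : E.IsPrime)
    (h : ((1 : ℕ) : WithBot ℕ∞) ≤ ringKrullDim (A ⧸ E)) (hK : ∀ p, Cv p → E ≤ p → K ≤ p) :
    K ≤ E := fun f hf => by
  by_contra hn
  obtain ⟨p, hp, hle, hfp⟩ := exists_cv_not hE h hn
  exact hfp (hK p hp hle hf)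

/-- the same for all primes, when the ideal is proper -/
theorem le_of_cv' {I K : Ideal A} (hK : K ≠ ⊤) (h : ∀ p, Cv p → I ≤ p → K ≤ p) {E : Ideal A}
    (hE : E.IsPrime) (hI : I ≤ E) : K ≤ E := by
  by_cases hm : E = maximalIdeal A
  · exact hm ▸ le_maximalIdeal hK
  · refine le_of_cv hE ?_ fun p hp hle => h p hp (hI.trans hle)
    haveI : Nontrivial (A ⧸ maximalIdeal A) :=
      Ideal.Quotient.nontrivial_iff.2 (maximalIdeal.isMaximal A).ne_top
    exact dimGE_succ (k := 0) hE (lt_of_le_of_ne (le_maximalIdeal hE.ne_top) hm) (by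
      simpa using ringKrullDim_nonneg_of_nontrivial)

end Vale.Agent.P022G.Chain
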