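import Vale.Agent.P022G.Flat4
import Vale.Agent.P022G.Defs

/-!
# P022G: the colon property of the framed ring over the ring of symbols
-/

set_option linter.all false

noncomputable section

namespace Vale.Agent.P022G

open MvPowerSeries _root_.P022G.Sum Vale.Agent.P022G.R Vale.Agent.P022G.Loc Vale.Agent.P022G.Flat
open Vale.Agent.P022D.Sel (M2)
open Vale.Agent.P022D.Core (PS io)
open Vale.Agent.P022E.Loc (Pl)

section mem

variable {B : Type} [CommRing B] (A : Subring B)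

/-- all entries lie in `A` -/
def MemM (Z : M2 B) : Prop := ∀ a b, Z a b ∈ A

variable {A}

theorem MemM.mul {Z W : M2 B} (h : MemM A Z) (h' : MemM A W) : MemM A (Z * W) := fun a b => by
  rw [Matrix.mul_apply]
  exact A.sum_mem fun c _ => A.mul_mem (h a c) (h' c b)

theorem MemM.inv (hA : ∀ w ∈ A, IsUnit w → ∃ w' ∈ A, w * w' = 1) {Z : M2 B} (h : MemM A Z) :
    MemM A Z⁻¹ := fun a b => by
  have hd : Z.det ∈ A := by
    rw [Matrix.det_fin_two]
    exact A.sub_mem (A.mul_mem (h _ _) (h _ _)) (A.mul_mem (h _ _) (h _ _))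
  have hi : Ring.inverse Z.det ∈ A := by
    by_cases hu : IsUnit Z.det
    · obtain ⟨w, h1, h2⟩ := hA _ hd hu
      have : Ring.inverse Z.det = w := by
        rw [← mul_one (Ring.inverse Z.det), ← h2, ← mul_assoc, Ring.inverse_mul_cancel _ hu, one_mul]
      rwa [this]
    · rw [Ring.inverse_non_unit _ hu]
      exact A.zero_mem
  rw [Matrix.inv_def, Matrix.smul_apply, smul_eq_mul, Matrix.adjugate_fin_two]
  refine A.mul_mem hi ?_
  fin_cases a <;> fin_cases b
  exacts [h 1 1, A.neg_mem (h 0 1), A.neg_mem (h 1 0), h 0 0]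

end mem

variable {O F : Type} [CommRing O] [Field F]

/-- the rank one relations and the vanishing of the symbols of the diagonal generator -/
def rk0 {ι : Type} (rc : ι → M2 O) {σ : Type} (e : Sy ι → σ) (i0 : ι) : Ideal (PS O σ) :=
  rk1 rc e ⊔ Ideal.span (Set.range (fun k => xS rc e i0 k) ∪ Set.range fun k => xS rc e k i0)

variable {S : Dat O F} {L : Pl O} {β : Type} {τ ι' : β → Type} (K : Kx O β τ ι' L.C) {ι : Type}
  (G : Gs S L K.g ι) (r : ℕ)

variable (O S L τ ι) in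
/-- the symbols and the roots inside the framed ring with roots -/
def psiS : PS O (Sy (ι ⊕ Fin r) ⊕ Fin r) →+* PS O (V0 τ L ι S.T r ⊕ Fin r) :=
  (rename (R := O) ((e0 (S := S) (L := L) (τ := τ) (ι := ι) r).sumMap
    (Function.Embedding.refl (Fin r)))).toRingHom

theorem psiS_C (o : O) : psiS O S L τ ι r (C o) = C o := rename_C _ o

theorem psiS_inl (s : Sy (ι ⊕ Fin r)) :
    psiS O S L τ ι r (X (Sum.inl s)) = X (Sum.inl (e0 r s)) := rename_X _ _

theorem psiS_inr (i : Fin r) : psiS O S L τ ι r (X (Sum.inr i)) = X (Sum.inr i) := rename_X _ _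

theorem io_C' (σ : Type) (o : O) : io O σ r (C o) = C o := rename_C _ o

theorem io_X' (σ : Type) (s : σ) : io O σ r (X s) = X (Sum.inl s) := rename_X _ s

theorem psiS_x (rc : ι ⊕ Fin r → M2 O) (i k : ι ⊕ Fin r) :
    psiS O S L τ ι r (xS rc Sum.inl i k) = io O _ r (xS rc (e0 r) i k) := by
  rw [xS, xS, map_add, map_add, psiS_C, psiS_inl, io_C', io_X']

theorem psiS_a (rc : ι ⊕ Fin r → M2 O) (i : ι ⊕ Fin r) :
    psiS O S L τ ι r (aS rc Sum.inl i) = io O _ r (aS rc (e0 r) i) := by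
  rw [aS, aS, map_add, map_add, psiS_C, psiS_inl, io_C', io_X']

theorem psiS_d (rc : ι ⊕ Fin r → M2 O) (i : ι ⊕ Fin r) :
    psiS O S L τ ι r (dS rc Sum.inl i) = io O _ r (dS rc (e0 r) i) := by
  rw [dS, dS, map_add, map_add, psiS_C, psiS_inl, io_C', io_X']

variable (S L τ ι) in
/-- the names of the variables which are not symbols or roots -/
def gz : (((ι ⊕ Fin r) ⊕ (ι ⊕ Fin r)) ⊕ (S.T × Fin 2 × Fin 2)) ⊕ Ix τ L →
    V0 τ L ι S.T r ⊕ Fin r :=
  Sum.elim (fun v => Sum.inl (Sum.inr (Sum.inr v))) fun i => Sum.inl (Sum.inl i)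

theorem ext_psiS : Ext (psiS O S L τ ι r) fun w => X (gz S L τ ι r w) := by
  refine ext_rename _ _
    { toFun := Sum.elim (Sum.elim (fun s => Sum.inl (Sum.inr (Sum.inl s))) Sum.inr) (gz S L τ ι r)
      invFun := Sum.elim (Sum.elim (fun i => Sum.inr (Sum.inr i))
        (Sum.elim (fun s => Sum.inl (Sum.inl s)) fun v => Sum.inr (Sum.inl v)))
        fun i => Sum.inl (Sum.inr i)
      left_inv := ?_
      right_inv := ?_ } ?_ fun _ => rfl
  · rintro ((s | i) | (v | i)) <;> rfl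
  · rintro ((i | s | v) | i) <;> rfl
  · rintro (s | i) <;> rfl

theorem kap_mem (A : Subring (PS O (V0 τ L ι S.T r))) (hC : ∀ o, C o ∈ A)
    (hX : ∀ v, X (Sum.inr v) ∈ A) (hA : ∀ w ∈ A, IsUnit w → ∃ w' ∈ A, w * w' = 1)
    (i : Ix τ L) : κS K G r i ∈ A := by
  have ha : ∀ l, MemM A (αS τ L ι S.T r l) := fun l a b => by
    have h1 : (1 : M2 (PS O (V0 τ L ι S.T r))) a b ∈ A := by
      rw [Matrix.one_apply]
      split_ifs
      exacts [A.one_mem, A.zero_mem]
    unfold αS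
    split_ifs
    exacts [A.add_mem h1 (hX _), h1]
  have hZ : ∀ i, MemM A (ZS K G r i) := fun i a b => by
    fin_cases a <;> fin_cases b <;> exact A.add_mem (hC _) (hX _)
  have hl : ∀ l i, MemM A (lS K G r l i) := fun l i => (((ha l).inv hA).mul (hZ _)).mul (ha l)
  have hm : ∀ (γ : L.C) (Z : M2 (PS O (V0 τ L ι S.T r))), MemM A Z →
      MemM A ((K.u γ).map C * Z * (K.v γ).map C) := fun γ Z h =>
    (MemM.mul (fun a b => hC _) h).mul fun a b => hC _
  rcases i with t | ⟨γ, n⟩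
  · exact A.sub_mem (hl _ _ _ _) (hC _)
  · have h1 := hm γ _ (hl γ (G.iφ γ))
    have h2 := hm γ _ (hl γ (G.iτ γ))
    fin_cases n
    exacts [A.sub_mem (h1 0 0) (hC _), A.sub_mem (h1 0 1) (hC _), h1 1 0,
      A.sub_mem (h1 1 1) (hC _), A.sub_mem (h2 0 0) A.one_mem, A.sub_mem (h2 0 1) (hC _), h2 1 0,
      A.sub_mem (h2 1 1) A.one_mem]

theorem alS_diag (a : Fin 2) : αS (O := O) τ L ι S.T r S.l0 a a - 1 =
    X (Sum.inr (Sum.inr (Sum.inr (⟨S.l0, S.hl0⟩, a, a)))) := by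
  rw [αS, dif_pos S.hl0, Matrix.add_apply, Matrix.one_apply_eq, add_sub_cancel_left]
  rfl

/-- **the colon property** -/
theorem col0 [IsNoetherianRing O] [Fintype ι] [Fintype β] [∀ b, Fintype (τ b)]
    (k j : ι ⊕ Fin r) :
    Col (psiS O S L τ ι r) (rk0 (G.rcr r) Sum.inl (Sum.inl G.i0)) ((t0 K G r).map (io O _ r))
      (psiS O S L τ ι r (xS (G.rcr r) Sum.inl k j) * io O _ r (ZS K G r k 0 1)) := by
  have h := col_chart0 (ext_psiS (O := O) (S := S) (L := L) (τ := τ) (ι := ι) r)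
    (fun i => C (G.rcr r i 0 1)) (fun i => C (G.rcr r i 1 0)) (xS (G.rcr r) Sum.inl)
    (fun i => io O _ r (ZS K G r i 0 1)) (fun i => io O _ r (ZS K G r i 1 0))
    (fun i => by
      rw [psiS_C]
      exact (map_add _ _ _).trans (by rw [io_C', io_X']; rfl))
    (fun i => by
      rw [psiS_C]
      exact (map_add _ _ _).trans (by rw [io_C', io_X']; rfl)) k j
    (rk0 (G.rcr r) Sum.inl (Sum.inl G.i0))
    (fun i i' => Ideal.mem_sup_left (Ideal.subset_span ⟨k, j, i, i', by ring⟩))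
    (fun w => w.1.1 = S.l0 ∧ w.2.1 = w.2.2) (fun _ => 1) (fun i => io O _ r (κS K G r i))
    (fun A h1 h2 h3 m => ⟨A.one_mem, kap_mem K G r (A.comap (io O _ r)) (fun o => by
      show io O _ r (C o) ∈ A
      rw [io_C', ← psiS_C]
      exact h1 _) (fun v => by
      show io O _ r (X _) ∈ A
      rw [io_X']
      rcases v with s | v
      · exact (psiS_inl (O := O) (S := S) (L := L) (τ := τ) r s) ▸ h1 _
      · exact h2 v) (fun w hw hu => by
      obtain ⟨w', e⟩ := hu.exists_right_inv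
      obtain ⟨v, e1, e2⟩ := h3 _ hw (hu.map _)
      refine ⟨w', ?_, e⟩
      show io O _ r w' ∈ A
      rwa [← mul_one (io O _ r w'), ← e2, ← mul_assoc, ← map_mul, mul_comm w', e, map_one,
        one_mul]) m⟩)
  rw [Finset.prod_const_one, mul_one] at h
  have m0 : ∀ w ∈ t0 K G r, io O _ r w ∈ sat ((rk0 (G.rcr r) Sum.inl (Sum.inl G.i0)).map
      (psiS O S L τ ι r) ⊔ (t0 K G r).map (io O _ r))
      (psiS O S L τ ι r (xS (G.rcr r) Sum.inl k j) * io O _ r (ZS K G r k 0 1)) := fun w hw =>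
    le_sat _ _ (Ideal.mem_sup_right (Ideal.mem_map_of_mem _ hw))
  refine h.chg (sup_le (sup_le (Ideal.span_le.2 ?_) (Ideal.span_le.2 ?_)) (Ideal.span_le.2 ?_))
    (Ideal.map_le_iff_le_comap.2 (Ideal.span_le.2 ?_))
  · rintro _ ⟨p, rfl⟩
    have := neg_mem (m0 _ (Ideal.subset_span (Or.inl (Or.inl ⟨p, rfl⟩))))
    rwa [map_sub, map_mul, neg_sub, ← psiS_x] at this
  · rintro _ ⟨⟨⟨⟨l, hl⟩, a, b⟩, h1, h2⟩, rfl⟩
    obtain rfl : l = S.l0 := h1
    obtain rfl : a = b := h2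
    have : αS (O := O) τ L ι S.T r S.l0 a a - 1 ∈ t0 K G r := by
      refine Ideal.subset_span (Or.inr ?_)
      fin_cases a
      exacts [Or.inr (Or.inr (Or.inl rfl)), Or.inr (Or.inr (Or.inr rfl))]
    have := m0 _ this
    rwa [alS_diag, io_X'] at this
  · rintro _ ⟨i, rfl⟩
    have := m0 _ (Ideal.subset_span (Or.inl (Or.inr ⟨i, rfl⟩)))
    rwa [map_sub, io_X', ← one_mul (X _)] at this
  · set N := _ ⊔ Ideal.span (Set.range fun m : Ix τ L =>
      1 * X (gz S L τ ι r (Sum.inr m)) - io O _ r (κS K G r m)) with hN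
    set c := (rk0 (G.rcr r) Sum.inl (Sum.inl G.i0)).map (psiS O S L τ ι r) with hc
    have n1 : ∀ i i', io O _ r (ZS K G r i 0 1) * io O _ r (ZS K G r i' 1 0) -
        psiS O S L τ ι r (xS (G.rcr r) Sum.inl i i') ∈ c ⊔ N := fun i i' =>
      Ideal.mem_sup_right (Ideal.mem_sup_left (Ideal.mem_sup_left
        (Ideal.subset_span ⟨(i, i'), rfl⟩)))
    have n2 : ∀ a : Fin 2, io O _ r (αS (O := O) τ L ι S.T r S.l0 a a - 1) ∈ c ⊔ N := fun a => by
      rw [alS_diag, io_X']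
      exact Ideal.mem_sup_right (Ideal.mem_sup_left (Ideal.mem_sup_right
        (Ideal.subset_span ⟨⟨(⟨S.l0, S.hl0⟩, a, a), rfl, rfl⟩, rfl⟩)))
    have c1 : psiS O S L τ ι r (xS (G.rcr r) Sum.inl (Sum.inl G.i0) j) ∈ c ⊔ N :=
      Ideal.mem_sup_left (Ideal.mem_map_of_mem _
        (Ideal.mem_sup_right (Ideal.subset_span (Or.inl ⟨j, rfl⟩))))
    have c2 : psiS O S L τ ι r (xS (G.rcr r) Sum.inl k (Sum.inl G.i0)) ∈ c ⊔ N :=
      Ideal.mem_sup_left (Ideal.mem_map_of_mem _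
        (Ideal.mem_sup_right (Ideal.subset_span (Or.inr ⟨k, rfl⟩))))
    rintro _ ((⟨p, rfl⟩ | ⟨i, rfl⟩) | rfl | rfl | rfl | rfl)
    · refine le_sat _ _ ?_
      have := neg_mem (n1 p.1 p.2)
      rwa [neg_sub, psiS_x, ← map_mul, ← map_sub] at this
    · refine le_sat _ _ (Ideal.mem_sup_right (Ideal.mem_sup_right (Ideal.subset_span ⟨i, ?_⟩)))
      beta_reduce
      rw [map_sub, io_X', one_mul]
      rfl
    · refine ⟨1, ?_⟩
      convert Ideal.sub_mem _ (Ideal.mul_mem_left _ (io O _ r (ZS K G r k 0 1) ^ 2)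
        (Ideal.add_mem _ (n1 (Sum.inl G.i0) j) c1)) (Ideal.mul_mem_left _
          (io O _ r (ZS K G r k 0 1) * io O _ r (ZS K G r (Sum.inl G.i0) 0 1)) (n1 k j)) using 1
      ring
    · refine ⟨1, ?_⟩
      convert Ideal.mul_mem_left _ (psiS O S L τ ι r (xS (G.rcr r) Sum.inl k j))
        (Ideal.add_mem _ (n1 k (Sum.inl G.i0)) c2) using 1
      ring
    · exact le_sat _ _ (n2 0)
    · exact le_sat _ _ (n2 1)

/-- the form at a prime -/
theorem col0_pt [IsNoetherianRing O] [Fintype ι] [Fintype β] [∀ b, Fintype (τ b)]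
    (p : Ideal (PS O (V0 τ L ι S.T r ⊕ Fin r))) [hp : p.IsPrime]
    (ht : (t0 K G r).map (io O _ r) ≤ p) (k j : ι ⊕ Fin r)
    (hx : psiS O S L τ ι r (xS (G.rcr r) Sum.inl k j) ∉ p) :
    Pt.Col (psiS O S L τ ι r) (rk0 (G.rcr r) Sum.inl (Sum.inl G.i0)) ((t0 K G r).map (io O _ r))
      p := by
  refine (col0 K G r k j).pt p fun h => (hp.mem_or_mem h).elim hx fun h1 => hx ?_
  have := ht (Ideal.mem_map_of_mem (io O _ r)
    (Ideal.subset_span (Or.inl (Or.inl ⟨(k, j), rfl⟩)) : _ ∈ t0 K G r))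
  rw [map_sub, map_mul, ← psiS_x] at this
  simpa using p.add_mem this (p.mul_mem_right (io O _ r (ZS K G r j 1 0)) h1)

end Vale.Agent.P022G
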