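import Vale.Agent.P022.H790.L3.CTw
import Vale.Agent.P022.H567.GchF
import Vale.Agent.P022.H601.Frat
import Vale.Agent.P022D.G.Defs
import Vale.Agent.P022D.Sel.Kum
import Vale.Agent.P022D.Sel.Odd

/-! # P022G, block NICE, part 0: finite `2`-quotients of `G_ℚ` unramified outside `2` -/

set_option linter.all false

noncomputable section

namespace Vale.Agent.P022G.Nice

open NumberField Vale.Agent.P022 Vale.Agent.P022.C Vale.Agent.P022.H853 Vale.Agent.P022.H790.CT
open Vale.Agent.P022D.G (Inert)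
open Vale.Agent.P022D.Sel (Ginf)

/-- open, normal, of `2`-power index, unramified outside `2` -/
structure Gd (N : Subgroup GQ) : Prop where
  nor : N.Normal
  op : IsOpen (N : Set GQ)
  two : ∀ g, ∃ k : ℕ, g ^ 2 ^ k ∈ N
  unr : ∀ l : ℕ, l.Prime → l ≠ 2 → ∀ σ, Inert l σ → σ ∈ N

theorem Gd.inf {N N' : Subgroup GQ} (h : Gd N) (h' : Gd N') : Gd (N ⊓ N') where
  nor := by
    have := h.nor
    have := h'.nor
    infer_instance
  op := h.op.inter h'.op
  two g := by
    obtain ⟨k, hk⟩ := h.two g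
    obtain ⟨k', hk'⟩ := h'.two g
    refine ⟨k + k', ?_, ?_⟩
    · rw [pow_add, pow_mul]
      exact N.pow_mem hk _
    · rw [pow_add, mul_comm, pow_mul]
      exact N'.pow_mem hk' _
  unr l hl h2 σ hσ := ⟨h.unr l hl h2 σ hσ, h'.unr l hl h2 σ hσ⟩

theorem sq8 (r : ℕ) (u : ℤ) (hu : (8 : ℤ) ∣ u - 1) :
    ∃ x : ℤ, Odd x ∧ (2 : ℤ) ^ (r + 3) ∣ u - x ^ 2 := by
  induction r with
  | zero => exact ⟨1, odd_one, by simpa using hu⟩
  | succ r ih =>
    obtain ⟨x, ⟨y, rfl⟩, t, ht⟩ := ih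
    refine ⟨2 * y + 1 + 2 ^ (r + 2) * t, ⟨y + 2 ^ (r + 1) * t, by ring⟩,
      -(t * y) - 2 ^ r * t ^ 2, ?_⟩
    linear_combination ht

theorem root_one {R : Type} [CommRing R] [IsDomain R] (P : Ideal R) (h2 : (2 : R) ∉ P) (n : ℕ)
    {z : R} (hz : z ^ 2 ^ n = 1) (hP : z - 1 ∈ P) : z = 1 := by
  induction n with
  | zero => simpa using hz
  | succ n ih =>
    rw [pow_succ, pow_mul, sq, mul_self_eq_one_iff] at hz
    rcases hz with h | h
    · exact ih h
    · exfalso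
      apply h2
      have h3 := Ideal.mem_of_dvd P (sub_one_dvd_pow_sub_one z (2 ^ n)) hP
      rw [h] at h3
      have := P.neg_mem h3
      rwa [show -((-1 : R) - 1) = 2 by ring] at this

/-- inertia at odd primes lies in `Ginf` -/
theorem inert_inf {l : ℕ} (hl : l.Prime) (h2 : l ≠ 2) {σ : GQ} (hσ : Inert l σ) : σ ∈ Ginf := by
  obtain ⟨P, hP, hlP, hx⟩ := hσ
  have h2P : (2 : 𝓞 Qb) ∉ P := fun h => by
    have := H20.dvd_of_mem hl hP hlP (d := (2 : ℤ)) (by exact_mod_cast h)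
    exact h2 ((Nat.prime_dvd_prime_iff_eq hl Nat.prime_two).1 (by exact_mod_cast this))
  intro n x hn
  have hi : ∀ y : Qb, (y ^ 2 ^ n = 1 ∨ y ^ 2 ^ n = 2) → IsIntegral ℤ y := fun y hy => by
    refine IsIntegral.of_pow (n := 2 ^ n) (by positivity) ?_
    rcases hy with h | h
    · rw [h]; exact isIntegral_one
    · rw [h]; exact_mod_cast isIntegral_natCast (R := ℤ) (B := Qb) 2
  have x0 : x ≠ 0 := by
    rintro rfl
    rw [zero_pow (by positivity)] at hn
    rcases hn with h | h <;> norm_num at h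
  have hz : (σ x / x) ^ 2 ^ n = 1 := by
    rw [div_pow, ← map_pow]
    rcases hn with h | h
    · rw [h, map_one, div_one]
    · rw [h, map_ofNat, div_self (by norm_num)]
  let X : 𝓞 Qb := ⟨x, hi x hn⟩
  let Z : 𝓞 Qb := ⟨σ x / x, hi _ (Or.inl hz)⟩
  have hXP : X ∉ P := fun h => by
    have h3 := P.pow_mem_of_mem h (2 ^ n) (by positivity)
    rcases hn with e | e
    · have : X ^ 2 ^ n = 1 := RingOfIntegers.ext e
      rw [this] at h3
      exact hP.ne_top ((Ideal.eq_top_iff_one _).2 h3)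
    · have : X ^ 2 ^ n = 2 := RingOfIntegers.ext e
      rw [this] at h3
      exact h2P h3
  have h4 : σ • X - X = X * (Z - 1) := RingOfIntegers.ext (by
    show σ x - x = x * (σ x / x - 1)
    field_simp)
  have h5 := hx X
  rw [h4] at h5
  have h6 := root_one P h2P n (z := Z) (RingOfIntegers.ext hz)
    ((hP.mem_or_mem h5).resolve_left hXP)
  have h7 : σ x / x = 1 := congrArg (fun w : 𝓞 Qb => (w : Qb)) h6
  exact (div_eq_one_iff_eq x0).1 h7

/-- quadratic characters unramified outside `2` have conductor dividing `8` -/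
theorem quad8 (χ : GQ →* Multiplicative (ZMod 2)) (ho : IsOpen (χ.ker : Set GQ))
    (hu : ∀ l : ℕ, l.Prime → l ≠ 2 → ∀ σ, Inert l σ → χ σ = 1) {h : GQ} (h8 : cyc 8 h = 1) :
    χ h = 1 := by
  classical
  have c2 : ∀ a : Multiplicative (ZMod 2), a = 1 ∨ a = Multiplicative.ofAdd 1 := by decide
  have n1 : (Multiplicative.ofAdd 1 : Multiplicative (ZMod 2)) ≠ 1 := by decide
  have s1 : ∀ a : Multiplicative (ZMod 2), a * a = 1 := by decide
  let ψ : GQ →* ℚ_[2]ˣ :=
    { toFun := fun g => if χ g = 1 then 1 else -1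
      map_one' := by rw [map_one, if_pos rfl]
      map_mul' := fun g k => by
        rw [map_mul]
        rcases c2 (χ g) with a | a <;> rcases c2 (χ k) with b | b <;> rw [a, b]
        · rw [mul_one, if_pos rfl, mul_one]
        · rw [one_mul, if_pos rfl, one_mul]
        · rw [mul_one, if_pos rfl, mul_one]
        · rw [s1, if_pos rfl, if_neg n1]; simp }
  have p1 : ∀ g, χ g = 1 → ψ g = 1 := fun g hg => if_pos hg
  have hc : Continuous ψ := by
    refine continuous_of_continuousAt_one ψ ?_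
    refine (continuousAt_const (y := (1 : ℚ_[2]ˣ))).congr ?_
    filter_upwards [ho.mem_nhds (one_mem _)] with g hg
    exact (p1 g hg).symm
  have hun : ∀ p : ℕ, p.Prime → p ≠ 2 → ∀ P : Ideal (𝓞 Qb), P.IsPrime → (p : 𝓞 Qb) ∈ P →
      ∀ g : GQ, (∀ x : 𝓞 Qb, g • x - x ∈ P) → ψ g = 1 :=
    fun p hp h2 P hP hpP g hg => p1 g (hu p hp h2 g ⟨P, hP, hpP, hg⟩)
  obtain ⟨m, hm, hram, hl⟩ := kw GCHF ψ hc {2} (fun p hp hp2 => hun p hp (by simpa using hp2))
  have hm1 : m = 1 := by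
    by_contra hne
    obtain ⟨p, hp, hpm⟩ := Nat.exists_prime_and_dvd hne
    obtain ⟨P, hP, hpP, g, hg, hne⟩ := hram p hp hpm
    refine hne (hun p hp ?_ P hP hpP g hg)
    rintro rfl
    exact (Nat.not_even_iff_odd.2 hm) (even_iff_two_dvd.2 hpm)
  obtain ⟨r, hr⟩ := hl 2⁻¹ (by norm_num)
  have k1 : ∀ g, cyc (2 ^ (r + 3)) g = 1 → χ g = 1 := fun g hg => by
    by_contra hne
    have h1 := hr (2 ^ r) (by rw [hm1, mul_one]) g
      (cyc_of_dvd (pow_dvd_pow 2 (Nat.le_add_right r 3)) hg)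
    have h2 : ψ g = -1 := if_neg hne
    rw [h2, Units.val_neg, Units.val_one, show (-1 : ℚ_[2]) - 1 = -2 by ring, norm_neg] at h1
    have h3 := Padic.norm_p (p := 2)
    have h4 : ‖(2 : ℚ_[2])‖ = 2⁻¹ := by exact_mod_cast h3
    rw [h4] at h1
    exact lt_irrefl _ h1
  have e1 := (cyc_mod (2 ^ (r + 3)) (m' := 8) ⟨2 ^ r, by ring⟩ h).trans (val_of_one h8)
  obtain ⟨x, hx, hd⟩ := sq8 r ((cyc (2 ^ (r + 3)) h : ZMod (2 ^ (r + 3))).val : ℤ)
    (by exact_mod_cast (Nat.modEq_iff_dvd.1 e1.symm))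
  have e2 : (cyc (2 ^ (r + 3)) h : ZMod (2 ^ (r + 3))) = (x : ZMod (2 ^ (r + 3))) ^ 2 := by
    have := (ZMod.intCast_zmod_eq_zero_iff_dvd _ (2 ^ (r + 3))).2 (by exact_mod_cast hd)
    push_cast at this
    rw [ZMod.natCast_zmod_val] at this
    exact sub_eq_zero.1 this
  have hxu : IsUnit (x : ZMod (2 ^ (r + 3))) := by
    have : IsUnit ((x : ZMod (2 ^ (r + 3))) ^ 2) := by rw [← e2]; exact Units.isUnit _
    exact (isUnit_pow_iff (by norm_num)).1 this
  obtain ⟨v, hv⟩ := hxu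
  obtain ⟨s, hs⟩ := cyc_surj (2 ^ (r + 3)) v
  have e3 := k1 ((s * s)⁻¹ * h) (by
    rw [map_mul, map_inv, map_mul, hs, inv_mul_eq_one]
    apply Units.ext
    rw [Units.val_mul, hv, e2, sq])
  rwa [map_mul, map_inv, map_mul, s1, inv_one, one_mul] at e3

/-- `c` and `γ` generate modulo the eighth cyclotomic field -/
theorem cls8 {c γ : GQ} (hc : IsConj c) (hγ : (cyc 8 γ : ZMod 8) = 5) (g : GQ) :
    cyc 8 g = 1 ∨ cyc 8 (c * g) = 1 ∨ cyc 8 (γ * g) = 1 ∨ cyc 8 (c * γ * g) = 1 := by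
  have h1 : (cyc 8 c : ZMod 8) = -1 := cyc_conj hc
  have key : ∀ a b u : (ZMod 8)ˣ, (a : ZMod 8) = -1 → (b : ZMod 8) = 5 →
      u = 1 ∨ a * u = 1 ∨ b * u = 1 ∨ a * b * u = 1 := by decide
  simpa only [map_mul] using key _ _ (cyc 8 g) h1 hγ

/-- **generation** by a complex conjugation and one more element -/
theorem gen {N : Subgroup GQ} [N.Normal] (hN : Gd N) {c γ : GQ} (hc : IsConj c)
    (hγ : (cyc 8 γ : ZMod 8) = 5) :
    Subgroup.closure {QuotientGroup.mk' N c, QuotientGroup.mk' N γ} = ⊤ := by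
  have := Vale.Agent.P022D.Sel.OddP.compact_GQ
  have : Finite (GQ ⧸ N) := Subgroup.quotient_finite_of_isOpen N hN.op
  have hp : IsPGroup 2 (GQ ⧸ N) := by
    intro x
    obtain ⟨g, rfl⟩ := QuotientGroup.mk'_surjective N x
    obtain ⟨k, hk⟩ := hN.two g
    exact ⟨k, by rw [← map_pow]; exact (QuotientGroup.eq_one_iff _).2 hk⟩
  refine H601.gen_of_chars hp _ fun χ hχ => ?_
  have a1 := hχ _ (Set.mem_insert _ _)
  have a2 := hχ _ (Set.mem_insert_of_mem _ rfl)
  have k : ∀ g ∈ N, (χ.comp (QuotientGroup.mk' N)) g = 1 := fun g hg => by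
    rw [MonoidHom.comp_apply, QuotientGroup.mk'_apply, (QuotientGroup.eq_one_iff _).2 hg, map_one]
  have q := fun h => quad8 (χ.comp (QuotientGroup.mk' N))
    (Subgroup.isOpen_mono (H₁ := N) k hN.op)
    (fun l hl h2 σ hσ => k σ (hN.unr l hl h2 σ hσ)) (h := h)
  refine MonoidHom.ext fun x => ?_
  obtain ⟨g, rfl⟩ := QuotientGroup.mk'_surjective N x
  rw [MonoidHom.one_apply]
  rcases cls8 hc hγ g with h | h | h | h <;> have := q _ h
  · exact this
  · rwa [MonoidHom.comp_apply, map_mul, map_mul, a1, one_mul] at this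
  · rwa [MonoidHom.comp_apply, map_mul, map_mul, a2, one_mul] at this
  · rwa [MonoidHom.comp_apply, map_mul, map_mul, map_mul, map_mul, a1, a2, one_mul, one_mul] at this

theorem dih0 {Γ : Type} [Group Γ] {p q : Γ} (hp : p * p = 1) (hq : p * q * (p * q) = 1 ∨ p = 1)
    (h : Subgroup.closure {p, q} = ⊤) (x : Γ) : ∃ n : ℤ, x = q ^ n ∨ x = p * q ^ n := by
  have hx : x ∈ Subgroup.closure {p, q} := by rw [h]; trivial
  rcases hq with hq | rfl
  · have e : ∀ n : ℤ, q ^ n * p = p * q ^ (-n) := fun n => by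
      have e1 : p * q * p⁻¹ = q⁻¹ := by
        rw [inv_eq_of_mul_eq_one_right hp]
        exact eq_inv_of_mul_eq_one_left (by rw [← hq]; group)
      have e2 : p * q ^ (-n) * p⁻¹ = q ^ n := by
        rw [← conj_zpow, e1]; simp
      rw [← e2]; group
    induction hx using Subgroup.closure_induction with
    | mem x hx =>
      rcases hx with rfl | rfl
      · exact ⟨0, Or.inr (by simp)⟩
      · exact ⟨1, Or.inl (by simp)⟩
    | one => exact ⟨0, Or.inl (by simp)⟩
    | mul x y _ _ hx hy =>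
      obtain ⟨a, rfl | rfl⟩ := hx <;> obtain ⟨b, rfl | rfl⟩ := hy
      · exact ⟨a + b, Or.inl (zpow_add _ _ _).symm⟩
      · exact ⟨-a + b, Or.inr (by rw [← mul_assoc, e, mul_assoc, zpow_add])⟩
      · exact ⟨a + b, Or.inr (by rw [mul_assoc, zpow_add])⟩
      · exact ⟨-a + b, Or.inl (by
          rw [mul_assoc, ← mul_assoc (q ^ a), e, ← mul_assoc, ← mul_assoc, hp, one_mul, zpow_add])⟩
    | inv x _ hx =>
      obtain ⟨a, rfl | rfl⟩ := hx
      · exact ⟨-a, Or.inl (zpow_neg _ _).symm⟩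
      · exact ⟨a, Or.inr (by
          rw [mul_inv_rev, inv_eq_of_mul_eq_one_right hp, ← zpow_neg, e, neg_neg])⟩
  · have : x ∈ Subgroup.zpowers q := by
      refine (Subgroup.closure_le _).2 ?_ hx
      rintro y (rfl | rfl)
      · exact one_mem _
      · exact Subgroup.mem_zpowers _
    obtain ⟨n, hn⟩ := this
    exact ⟨n, Or.inl hn.symm⟩

/-- the dihedral (or cyclic) shape: every element is `q ^ n` or `p * q ^ n` modulo `N` -/
theorem dih {N : Subgroup GQ} (hN : Gd N) {c γ p q : GQ} (hc : IsConj c)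
    (hγ : (cyc 8 γ : ZMod 8) = 5) (hcq : c = p ∨ c = q) (hγq : γ = p ∨ γ = q ∨ γ = p * q)
    (hp : p * p ∈ N) (hq : p * q * (p * q) ∈ N ∨ p ∈ N) (x : GQ) :
    ∃ n : ℕ, x⁻¹ * q ^ n ∈ N ∨ x⁻¹ * (p * q ^ n) ∈ N := by
  have := hN.nor
  have := Vale.Agent.P022D.Sel.OddP.compact_GQ
  have : Finite (GQ ⧸ N) := Subgroup.quotient_finite_of_isOpen N hN.op
  let π := QuotientGroup.mk' N
  have o : ∀ g, π g = 1 ↔ g ∈ N := fun g => QuotientGroup.eq_one_iff g
  have h1 : Subgroup.closure {π p, π q} = ⊤ := by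
    rw [eq_top_iff, ← gen hN hc hγ, Subgroup.closure_le]
    have mp : π p ∈ Subgroup.closure {π p, π q} := Subgroup.subset_closure (Set.mem_insert _ _)
    have mq : π q ∈ Subgroup.closure {π p, π q} :=
      Subgroup.subset_closure (Set.mem_insert_of_mem _ rfl)
    rintro y (rfl | rfl)
    · rcases hcq with rfl | rfl
      · exact mp
      · exact mq
    · rcases hγq with rfl | rfl | rfl
      · exact mp
      · exact mq
      · rw [map_mul]; exact mul_mem mp mq
  obtain ⟨n, hn⟩ := dih0 (p := π p) (q := π q) (by rw [← map_mul, o]; exact hp)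
    (hq.imp (fun h => by rw [← map_mul, ← map_mul, o]; exact h) fun h => (o p).2 h) h1 (π x)
  obtain ⟨k, hk⟩ := mem_powers_iff_mem_zpowers.2 (Subgroup.zpow_mem_zpowers (π q) n)
  have hk' : π q ^ k = π q ^ n := hk
  refine ⟨k, hn.imp (fun h => ?_) fun h => ?_⟩
  · rw [← o, map_mul, map_inv, map_pow, hk', h, inv_mul_cancel]
  · rw [← o, map_mul, map_inv, map_mul, map_pow, hk', h, inv_mul_cancel]

end Vale.Agent.P022G.Nice
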