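import Vale.Agent.P022G.Conn.Dim

/-!
P022G: a complete local domain of dimension one and characteristic two with finite residue field
embeds into a complete discrete valuation ring with finite residue field.
-/

set_option linter.all false

noncomputable section

namespace Vale.Agent.P022G.Curve

open IsLocalRing

theorem prec_fin {R B : Type} [CommRing R] [AddCommGroup B] [Module R B] [Module.Finite R B]
    (I : Ideal R) [IsPrecomplete I R] : IsPrecomplete I B := by
  obtain ⟨n, p, hp⟩ := Module.Finite.exists_fin' R B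
  have := Conn.isPrecomplete_pi I (Fin n)
  rw [← AdicCompletion.of_surjective_iff]
  intro z
  obtain ⟨y, rfl⟩ := AdicCompletion.map_surjective I hp z
  obtain ⟨w, rfl⟩ := AdicCompletion.of_surjective I (Fin n → R) y
  exact ⟨p w, (AdicCompletion.map_of ..).symm⟩

theorem idem_pow {M : Type} [Monoid M] [Finite M] (x : M) :
    ∃ n : ℕ, 0 < n ∧ x ^ n * x ^ n = x ^ n := by
  obtain ⟨a, b, hab, h⟩ := Finite.exists_ne_map_eq_of_infinite (fun n : ℕ => x ^ n)
  wlog hlt : a < b generalizing a b
  · exact this b a hab.symm h.symm (by omega)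
  obtain ⟨d, rfl⟩ := Nat.exists_eq_add_of_lt hlt
  have h1 : ∀ k m, a ≤ m → x ^ (m + k * (d + 1)) = x ^ m := by
    intro k m hm
    induction k with
    | zero => rw [zero_mul, add_zero]
    | succ k ih =>
      obtain ⟨c, rfl⟩ := Nat.exists_eq_add_of_le hm
      rw [show a + c + (k + 1) * (d + 1) = a + d + 1 + (c + k * (d + 1)) by ring, pow_add, ← h,
        ← pow_add, ← add_assoc, ih]
  refine ⟨(a + 1) * (d + 1), by positivity, ?_⟩
  rw [← pow_add, h1 _ _ (by nlinarith)]

section fin

variable {R B : Type} [CommRing R] [IsLocalRing R] [IsNoetherianRing R]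
  [IsAdicComplete (maximalIdeal R) R] [Finite (ResidueField R)] [CommRing B] [Algebra R B]
  [Module.Finite R B]

theorem cpl_map : IsAdicComplete ((maximalIdeal R).map (algebraMap R B)) B := by
  have h1 : IsPrecomplete (maximalIdeal R) B := prec_fin _
  have h2 : IsHausdorff (maximalIdeal R) B := inferInstance
  have h3 : IsAdicComplete (maximalIdeal R) B := { h1, h2 with }
  exact (IsAdicComplete.map_algebraMap_iff _ _).2 h3

theorem fin_map : Finite (B ⧸ (maximalIdeal R).map (algebraMap R B)) := by
  have : Finite (R ⧸ maximalIdeal R) := ‹Finite (ResidueField R)›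
  have : Module.Finite (R ⧸ maximalIdeal R) (B ⧸ (maximalIdeal R).map (algebraMap R B)) :=
    Module.Finite.of_restrictScalars_finite R _ _
  exact Module.finite_of_finite (R ⧸ maximalIdeal R)

/-- a finite domain over a complete local ring: units and topologically nilpotent elements -/
theorem dich [IsDomain B] (b : B) :
    IsUnit b ∨ ∃ n : ℕ, 0 < n ∧ b ^ n ∈ (maximalIdeal R).map (algebraMap R B) := by
  have hc := cpl_map (R := R) (B := B)
  have := fin_map (R := R) (B := B)
  set I := (maximalIdeal R).map (algebraMap R B)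
  obtain ⟨n, hn, h⟩ := idem_pow (Ideal.Quotient.mk I b)
  rw [← map_pow, ← map_mul, Ideal.Quotient.eq] at h
  have hj : I ≤ (⊥ : Ideal B).jacobson := IsAdicComplete.le_jacobson_bot I
  obtain ⟨e, he, h1⟩ := HenselianRing.is_henselian (I := I)
    (Polynomial.X ^ 2 - Polynomial.X : Polynomial B)
    (Polynomial.Monic.sub_of_left (Polynomial.monic_X_pow 2) (by
      rw [Polynomial.degree_X, Polynomial.degree_X_pow]; norm_num)) (b ^ n)
    (by simpa [sq] using h) (by
      refine IsUnit.of_mul_eq_one (Ideal.Quotient.mk I (2 * b ^ n - 1)) ?_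
      rw [← map_mul, ← map_one (Ideal.Quotient.mk I), Ideal.Quotient.eq]
      have h4 := I.mul_mem_left 4 h
      have e : Polynomial.eval (b ^ n) (Polynomial.derivative
          (Polynomial.X ^ 2 - Polynomial.X : Polynomial B)) = 2 * b ^ n - 1 := by
        simp
        exact Or.inl one_add_one_eq_two
      rw [e, show (2 * b ^ n - 1) * (2 * b ^ n - 1) - 1 = 4 * (b ^ n * b ^ n - b ^ n) by ring]
      exact h4)
  have h2 : e * (e - 1) = 0 := by
    have := he.eq_zero
    simp only [Polynomial.eval_sub, Polynomial.eval_pow, Polynomial.eval_X] at this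
    linear_combination this
  rcases mul_eq_zero.1 h2 with h3 | h3
  · right
    rw [h3, zero_sub, neg_mem_iff] at h1
    exact ⟨n, hn, h1⟩
  · left
    rw [sub_eq_zero.1 h3] at h1
    have := Ideal.mem_jacobson_bot.1 (hj h1) (-1)
    rw [show (1 - b ^ n) * -1 + 1 = b ^ n by ring] at this
    exact (isUnit_pow_iff hn.ne').1 this

theorem map_ne_top [Nontrivial B] : (maximalIdeal R).map (algebraMap R B) ≠ ⊤ := fun h => by
  have hc := cpl_map (R := R) (B := B)
  rw [h] at hc
  exact not_subsingleton B hc.subsingleton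

include R in
theorem loc [IsDomain B] : IsLocalRing B := by
  refine IsLocalRing.of_nonunits_add fun a b ha hb hab => ?_
  obtain ⟨n, -, hn⟩ := (dich (R := R) a).resolve_left ha
  obtain ⟨m, -, hm⟩ := (dich (R := R) b).resolve_left hb
  have : a + b ∈ ((maximalIdeal R).map (algebraMap R B)).radical :=
    Ideal.add_mem _ ⟨n, hn⟩ ⟨m, hm⟩
  exact map_ne_top (R := R) (B := B) (Ideal.radical_eq_top.1 (Ideal.eq_top_of_isUnit_mem _ this hab))

theorem map_le [IsLocalRing B] : (maximalIdeal R).map (algebraMap R B) ≤ maximalIdeal B :=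
  le_maximalIdeal map_ne_top

include R in
theorem fin_res [IsLocalRing B] : Finite (ResidueField B) := by
  have := fin_map (R := R) (B := B)
  exact Finite.of_surjective (Ideal.Quotient.factor (map_le (R := R) (B := B)))
    (Ideal.Quotient.factor_surjective _)

include R in
theorem cpl_max [IsDomain B] [IsLocalRing B] : IsAdicComplete (maximalIdeal B) B := by
  have hN : IsNoetherianRing B := IsNoetherianRing.of_finite R B
  have hc := cpl_map (R := R) (B := B)
  set I := (maximalIdeal R).map (algebraMap R B)
  obtain ⟨k, hk⟩ := Ideal.exists_pow_le_of_le_radical_of_fg (I := maximalIdeal B) (J := I)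
    (fun b hb => by
      obtain ⟨n, -, hn⟩ := (dich (R := R) b).resolve_left hb
      exact ⟨n, hn⟩) (IsNoetherian.noetherian _)
  have hI : I ≤ maximalIdeal B := map_le
  have hk' : maximalIdeal B ^ (k + 1) ≤ I := (Ideal.pow_le_pow_right k.le_succ).trans hk
  refine { prec' := fun f hf => ?_ }
  simp only [SModEq.sub_mem, smul_eq_mul, Ideal.mul_top] at hf ⊢
  obtain ⟨L, hL⟩ := IsPrecomplete.prec (I := I) (M := B) inferInstance
    (f := fun m => f ((k + 1) * m)) fun {m n} hmn => by
      rw [SModEq.sub_mem, smul_eq_mul, Ideal.mul_top]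
      have := hf (Nat.mul_le_mul_left (k + 1) hmn)
      rw [pow_mul] at this
      exact Ideal.pow_right_mono hk' m this
  refine ⟨L, fun n => ?_⟩
  have h1 := hL n
  rw [SModEq.sub_mem, smul_eq_mul, Ideal.mul_top] at h1
  have h2 := Ideal.add_mem _ (hf (show n ≤ (k + 1) * n by nlinarith))
    (Ideal.pow_right_mono hI n h1)
  rwa [sub_add_sub_cancel] at h2

end fin

theorem nrm0 {R B : Type} (K L : Type) [CommRing R] [IsDomain R] [IsDiscreteValuationRing R]
    [CharP R 2] [IsAdicComplete (maximalIdeal R) R] [Finite (ResidueField R)] [CommRing B]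
    [Algebra R B] [Module.Finite R B] [Field K] [Field L] [Algebra R K] [IsFractionRing R K]
    [Algebra K L] [FiniteDimensional K L] [Algebra R L] [IsScalarTower R K L] [Algebra B L]
    [IsScalarTower R B L] (hBL : Function.Injective (algebraMap B L)) :
    ∃ (A : Type) (_ : CommRing A) (_ : IsDomain A) (_ : IsDiscreteValuationRing A)
      (_ : Algebra R A) (e : ℕ), Module.Finite R A ∧ Function.Injective (algebraMap R A) ∧
      ∀ n, e ≤ n → ∃ j : B →+* A, Function.Injective j ∧
        ∀ r, j (algebraMap R B r) = algebraMap R A (r ^ 2 ^ n) := by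
  have : CharP K 2 := charP_of_injective_algebraMap (IsFractionRing.injective R K) 2
  have : Fact (Nat.Prime 2) := ⟨Nat.prime_two⟩
  let S := separableClosure K L
  have : CharP S 2 := charP_of_injective_algebraMap (algebraMap K S).injective 2
  have : ExpChar S 2 := ExpChar.prime Nat.prime_two
  have : IsScalarTower R S L := IsScalarTower.of_algebraMap_eq fun r => by
    rw [IsScalarTower.algebraMap_apply R K S, ← IsScalarTower.algebraMap_apply K S L,
      ← IsScalarTower.algebraMap_apply R K L]
  let A := integralClosure R S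
  have hD : IsDedekindDomain A := integralClosure.isDedekindDomain R K S
  have hF : Module.Finite R A := IsIntegralClosure.finite R K S A
  have hRS : Function.Injective (algebraMap R S) := by
    rw [IsScalarTower.algebraMap_eq R K S]
    exact (algebraMap K S).injective.comp (IsFractionRing.injective R K)
  have hRA : Function.Injective (algebraMap R A) := fun x y h =>
    hRS (congrArg (fun z : A => (z : S)) h)
  have hL : IsLocalRing A := loc (R := R)
  have hnf : ¬ IsField A := fun h =>
    IsDiscreteValuationRing.not_isField R ((Algebra.IsIntegral.isField_iff_isField hRA).2 h)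
  have hV : IsDiscreteValuationRing A := ((IsDiscreteValuationRing.TFAE A hnf).out 2 0).1 hD
  refine ⟨A, inferInstance, inferInstance, hV, inferInstance, IsPurelyInseparable.exponent S L, hF,
    hRA, fun n hn => ?_⟩
  let φ : B →+* S := (IsPurelyInseparable.iterateFrobenius S L 2 hn).comp (algebraMap B L)
  have hφ : ∀ b, algebraMap S L (φ b) = algebraMap B L b ^ 2 ^ n := fun b =>
    IsPurelyInseparable.algebraMap_iterateFrobenius S 2 hn _
  have hint : ∀ b, φ b ∈ A := fun b => by
    have h1 : IsIntegral R (algebraMap S L (φ b)) := by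
      rw [hφ]
      exact ((Algebra.IsIntegral.isIntegral (R := R) b).algebraMap).pow _
    exact (isIntegral_algebraMap_iff (algebraMap S L).injective).1 h1
  refine ⟨φ.codRestrict A.toSubring hint, fun x y h => ?_, fun r => ?_⟩
  · have h1 : φ x = φ y := congrArg (fun z : A => (z : S)) h
    exact hBL
      ((IsPurelyInseparable.iterateFrobenius S L 2 hn).injective h1)
  · apply Subtype.ext
    apply (algebraMap S L).injective
    show algebraMap S L (φ _) = algebraMap S L (algebraMap R S _)
    rw [hφ, ← IsScalarTower.algebraMap_apply, ← IsScalarTower.algebraMap_apply, map_pow]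

attribute [local instance] FractionRing.liftAlgebra in
/-- normalisation after a power of the Frobenius map -/
theorem nrm {R B : Type} [CommRing R] [IsDomain R] [IsDiscreteValuationRing R] [CharP R 2]
    [IsAdicComplete (maximalIdeal R) R] [Finite (ResidueField R)] [CommRing B] [IsDomain B]
    [Algebra R B] [Module.Finite R B] (hi : Function.Injective (algebraMap R B)) :
    ∃ (A : Type) (_ : CommRing A) (_ : IsDomain A) (_ : IsDiscreteValuationRing A)
      (_ : Algebra R A) (e : ℕ), Module.Finite R A ∧ Function.Injective (algebraMap R A) ∧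
      ∀ n, e ≤ n → ∃ j : B →+* A, Function.Injective j ∧
        ∀ r, j (algebraMap R B r) = algebraMap R A (r ^ 2 ^ n) := by
  have : FaithfulSMul R B := (faithfulSMul_iff_algebraMap_injective R B).2 hi
  exact nrm0 (FractionRing R) (FractionRing B) (IsFractionRing.injective B _)

/-- **a curve has a point in a complete discrete valuation ring** -/
theorem curve {F B : Type} [Field F] [Finite F] [CharP F 2] [CommRing B] [IsDomain B]
    [IsLocalRing B] [IsNoetherianRing B] [IsAdicComplete (maximalIdeal B) B] (σ : F →+* B)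
    (hσ : ∀ b, ∃ c, b - σ c ∈ maximalIdeal B) (hd : ringKrullDim B = 1) :
    ∃ (A : Type) (_ : CommRing A) (_ : IsDomain A) (_ : IsDiscreteValuationRing A) (_ : CharP A 2)
      (j : B →+* A), Function.Injective j ∧ (∀ b ∈ maximalIdeal B, j b ∈ maximalIdeal A) ∧
      IsAdicComplete (maximalIdeal A) A ∧ Finite (ResidueField A) := by
  have hK : Ring.KrullDimLE 1 B := Ring.krullDimLE_iff.2 (by rw [hd]; rfl)
  have hm : maximalIdeal B ≠ ⊥ := fun h => by
    have := ringKrullDim_eq_zero_of_isField (IsLocalRing.isField_iff_maximalIdeal_eq.2 h)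
    rw [hd] at this
    exact one_ne_zero this
  obtain ⟨f, hf, hf0⟩ := Submodule.exists_mem_ne_zero_of_ne_bot hm
  obtain ⟨φ, hC, hX⟩ := Conn.exists_ev (ι := Unit) (O := F) (maximalIdeal B) σ (fun _ => f)
    fun _ => hf
  have hfin : φ.Finite := Conn.finite_ev φ (fun b => by simpa only [hC] using hσ b)
    (fun i => by rw [hX]; exact hf) (by
      rw [Ideal.radical_eq_sInf]
      refine le_sInf fun P hP => ?_
      have hfP : f ∈ P := hP.1 (Ideal.subset_span ⟨(), hX ()⟩)
      exact (eq_maximalIdeal (hP.2.isMaximal_of_ne_bot fun h0 => hf0 (by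
        rw [h0] at hfP; exact hfP))).ge)
  let ψ : PowerSeries F →+* B := φ
  have hψ : ψ PowerSeries.X = f := hX ()
  have hinj : Function.Injective ψ := by
    rw [RingHom.injective_iff_ker_eq_bot]
    by_contra h0
    have h1 := eq_maximalIdeal ((RingHom.ker_isPrime ψ).isMaximal h0)
    have h2 : PowerSeries.X ∈ RingHom.ker ψ := by
      rw [h1, PowerSeries.maximalIdeal_eq_span_X]
      exact Ideal.mem_span_singleton_self _
    exact hf0 (hψ ▸ h2)
  let _ := ψ.toAlgebra
  have : Module.Finite (PowerSeries F) B := hfin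
  have : IsAdicComplete (maximalIdeal (PowerSeries F)) (PowerSeries F) := by
    rw [PowerSeries.maximalIdeal_eq_span_X]
    infer_instance
  have : Finite (ResidueField (PowerSeries F)) :=
    Finite.of_equiv F (PowerSeries.residueFieldOfPowerSeries (k := F)).symm.toEquiv
  have : CharP (PowerSeries F) 2 := charP_of_injective_algebraMap
    (algebraMap F (PowerSeries F)).injective 2
  obtain ⟨A, _, _, _, _, e, hF, hi, h⟩ := nrm (R := PowerSeries F) (B := B) hinj
  obtain ⟨j, hj, hr⟩ := h e le_rfl
  refine ⟨A, inferInstance, inferInstance, inferInstance, charP_of_injective_algebraMap hi 2, j, hj,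
    fun b hb => ?_, cpl_max (R := PowerSeries F), fin_res (R := PowerSeries F)⟩
  obtain ⟨n, hn, h1⟩ := (dich (R := PowerSeries F) b).resolve_left hb
  have h2 : (maximalIdeal (PowerSeries F)).map (algebraMap (PowerSeries F) B) ≤
      (maximalIdeal A).comap j := by
    rw [Ideal.map_le_iff_le_comap]
    intro r hr'
    rw [Ideal.mem_comap, Ideal.mem_comap, hr]
    exact map_le (R := PowerSeries F) (Ideal.mem_map_of_mem _
      (Ideal.pow_mem_of_mem _ hr' _ (by positivity)))
  have h3 := h2 h1
  rw [Ideal.mem_comap, map_pow] at h3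
  exact (maximalIdeal.isMaximal A).isPrime.mem_of_pow_mem _ h3

/-- a coefficient field -/
theorem coef {B : Type} [CommRing B] [IsLocalRing B] [IsAdicComplete (maximalIdeal B) B]
    [Finite (ResidueField B)] (h2 : (2 : B) = 0) :
    ∃ σ : ResidueField B →+* B, ∀ c, residue B (σ c) = c := by
  have : Fact (Nat.Prime 2) := ⟨Nat.prime_two⟩
  have : CharP B 2 := (CharP.charP_iff_prime_eq_zero Nat.prime_two).2 h2
  let _ : Algebra (ZMod 2) B := ZMod.algebra B 2
  have : Finite (B ⧸ maximalIdeal B) := ‹Finite (ResidueField B)›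
  let _ : Field (B ⧸ maximalIdeal B) := Ideal.Quotient.field _
  have : Module.Finite (ZMod 2) (B ⧸ maximalIdeal B) := Module.Finite.of_finite
  have h := Algebra.FormallyEtale.of_isSeparable (ZMod 2) (B ⧸ maximalIdeal B)
  have h1 := (Algebra.FormallyEtale.iff_formallyUnramified_and_formallySmooth.1 h).2
  obtain ⟨g, hg⟩ := Algebra.FormallySmooth.exists_mkₐ_comp_eq_of_isAdicComplete
    (R := ZMod 2) (A := B ⧸ maximalIdeal B) (I := maximalIdeal B) (AlgHom.id _ _)
  exact ⟨g.toRingHom, fun c => DFunLike.congr_fun hg c⟩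

/-- **a curve in a complete local ring is the kernel of a point** -/
theorem curveP {P : Type} [CommRing P] [IsLocalRing P] [IsNoetherianRing P]
    [IsAdicComplete (maximalIdeal P) P] [Finite (ResidueField P)] (p : Ideal P) (hp : p.IsPrime)
    (h2 : (2 : P) ∈ p) (hd : ringKrullDim (P ⧸ p) = 1) :
    ∃ (A : Type) (_ : CommRing A) (_ : IsDomain A) (_ : IsDiscreteValuationRing A) (_ : CharP A 2)
      (j : P →+* A), RingHom.ker j = p ∧ (∀ b, j b ∈ maximalIdeal A ↔ b ∈ maximalIdeal P) ∧
      IsAdicComplete (maximalIdeal A) A ∧ Finite (ResidueField A) := by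
  have : Nontrivial (P ⧸ p) := Ideal.Quotient.nontrivial_iff.2 hp.ne_top
  have : IsLocalRing (P ⧸ p) := .of_surjective' (Ideal.Quotient.mk p) Ideal.Quotient.mk_surjective
  have : Module.Finite P (P ⧸ p) := inferInstance
  have := cpl_max (R := P) (B := P ⧸ p)
  have := fin_res (R := P) (B := P ⧸ p)
  have h0 : (2 : P ⧸ p) = 0 := by
    rw [← map_ofNat (Ideal.Quotient.mk p) 2, Ideal.Quotient.eq_zero_iff_mem]
    exact h2
  have : CharP (ResidueField (P ⧸ p)) 2 := (CharP.charP_iff_prime_eq_zero Nat.prime_two).2 (by
    rw [Nat.cast_ofNat, ← map_ofNat (residue (P ⧸ p)) 2, h0, map_zero])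
  obtain ⟨σ, hσ⟩ := coef h0
  obtain ⟨A, _, _, _, _, j, hj, hm, hc, hf⟩ := curve σ (fun b => ⟨residue _ b, by
    rw [← residue_eq_zero_iff, map_sub, hσ, sub_self]⟩) hd
  refine ⟨A, inferInstance, inferInstance, inferInstance, inferInstance,
    j.comp (Ideal.Quotient.mk p), ?_, fun b => ⟨fun hb => ?_, fun hb => ?_⟩, hc, hf⟩
  · ext x
    rw [RingHom.mem_ker, RingHom.comp_apply, map_eq_zero_iff j hj, Ideal.Quotient.eq_zero_iff_mem]
  · exact fun hu => hb (hu.map _)
  · exact hm _ (map_le (R := P) (Ideal.mem_map_of_mem _ hb))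

end Vale.Agent.P022G.Curve
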