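import Mathlib

/-!
P022G: adjoining a square root of the uniformiser to a discrete valuation ring.
-/

set_option linter.all false

noncomputable section

namespace Vale.Agent.P022G.Ramq

open IsLocalRing QuadraticAlgebra

variable {A : Type} [CommRing A]

/-- the ring with the square root -/
abbrev Rq (ϖ : A) : Type := QuadraticAlgebra A ϖ 0

/-- the square root -/
def rt (ϖ : A) : Rq ϖ := QuadraticAlgebra.omega

theorem rt_sq (ϖ : A) : rt ϖ ^ 2 = algebraMap A (Rq ϖ) ϖ := by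
  rw [rt, sq, omega_mul_omega_eq_mk, algebraMap_eq]

theorem rt_mul (ϖ x y : A) : rt ϖ * ⟨x, y⟩ = ⟨ϖ * y, x⟩ := by
  rw [rt, omega_mul_mk, zero_mul, add_zero]

theorem rt_dvd {ϖ : A} {z : Rq ϖ} : rt ϖ ∣ z ↔ ϖ ∣ z.re := by
  constructor
  · rintro ⟨⟨x, y⟩, rfl⟩
    rw [rt_mul]
    exact Dvd.intro _ rfl
  · rintro ⟨y, hy⟩
    exact ⟨⟨z.im, y⟩, by rw [rt_mul, ← hy]⟩

theorem nm {ϖ : A} (z : Rq ϖ) : QuadraticAlgebra.norm z = z.re * z.re - ϖ * (z.im * z.im) := by
  rw [norm_def]; ring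

theorem sub_re {ϖ : A} (z : Rq ϖ) : rt ϖ ∣ z - algebraMap A (Rq ϖ) z.re := by
  rw [rt_dvd]
  simp [algebraMap_eq]

/-- a map which kills `ϖ` extends -/
def red {F : Type} [CommRing F] (ϖ : A) (r : A →+* F) (h : r ϖ = 0) : Rq ϖ →+* F where
  toFun z := r z.re
  map_one' := by simp
  map_mul' z w := by simp [h]
  map_zero' := by simp
  map_add' z w := by simp

theorem red_apply {F : Type} [CommRing F] (ϖ : A) (r : A →+* F) (h : r ϖ = 0) (z : Rq ϖ) :
    red ϖ r h z = r z.re := rfl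

theorem red_alg {F : Type} [CommRing F] (ϖ : A) (r : A →+* F) (h : r ϖ = 0) (a : A) :
    red ϖ r h (algebraMap A (Rq ϖ) a) = r a := rfl

theorem red_rt {F : Type} [CommRing F] (ϖ : A) (r : A →+* F) (h : r ϖ = 0) :
    red ϖ r h (rt ϖ) = 0 := map_zero r

section dvr

variable [IsDomain A] [IsDiscreteValuationRing A] {ϖ : A}

theorem unit_iff_dvd (h : Irreducible ϖ) {a : A} : IsUnit a ↔ ¬ ϖ ∣ a := by
  rw [← Ideal.mem_span_singleton, ← h.maximalIdeal_eq, mem_maximalIdeal, mem_nonunits_iff,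
    not_not]

theorem unit_iff (h : Irreducible ϖ) {z : Rq ϖ} : IsUnit z ↔ ¬ rt ϖ ∣ z := by
  rw [isUnit_iff_norm_isUnit, unit_iff_dvd h, rt_dvd, nm,
    dvd_sub_left (Dvd.intro _ rfl), h.prime.dvd_mul, or_self]

theorem nm_ne (h : Irreducible ϖ) {z : Rq ϖ} (hz : z ≠ 0) : QuadraticAlgebra.norm z ≠ 0 := by
  intro h0
  rw [nm, sub_eq_zero] at h0
  by_cases hi : z.im = 0
  · rw [hi, mul_zero, mul_zero, mul_self_eq_zero] at h0
    exact hz (QuadraticAlgebra.ext h0 hi)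
  · have hr : z.re ≠ 0 := fun hr => by
      rw [hr, mul_zero] at h0
      exact mul_ne_zero h.ne_zero (mul_ne_zero hi hi) h0.symm
    obtain ⟨n, u, hu⟩ := IsDiscreteValuationRing.eq_unit_mul_pow_irreducible hi h
    obtain ⟨m, v, hv⟩ := IsDiscreteValuationRing.eq_unit_mul_pow_irreducible hr h
    have := IsDiscreteValuationRing.unit_mul_pow_congr_pow h h (v * v) (u * u) (2 * m) (2 * n + 1)
      (by rw [hu, hv] at h0; push_cast; linear_combination h0)
    omega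

theorem dom (h : Irreducible ϖ) : IsDomain (Rq ϖ) := by
  have : NoZeroDivisors (Rq ϖ) := ⟨fun {z w} hzw => by
    by_contra hn
    push Not at hn
    have := congrArg QuadraticAlgebra.norm hzw
    rw [map_mul, QuadraticAlgebra.norm_zero] at this
    exact mul_ne_zero (nm_ne h hn.1) (nm_ne h hn.2) this⟩
  exact NoZeroDivisors.to_isDomain _

theorem rt_ne (ϖ : A) : rt ϖ ≠ 0 := fun h => one_ne_zero (α := A) (congrArg QuadraticAlgebra.im h)

theorem rt_irr (h : Irreducible ϖ) : Irreducible (rt ϖ) := by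
  have := dom h
  have hn : ¬ IsUnit (rt ϖ) := by rw [unit_iff h, not_not]
  refine ⟨hn, fun x y hxy => ?_⟩
  by_contra hc
  push Not at hc
  obtain ⟨a, ha⟩ := not_not.1 ((unit_iff h).not.1 hc.1)
  obtain ⟨b, hb⟩ := not_not.1 ((unit_iff h).not.1 hc.2)
  refine hn (IsUnit.of_mul_eq_one (a * b) (mul_left_cancel₀ (rt_ne ϖ) ?_))
  rw [ha, hb] at hxy
  linear_combination -hxy

theorem fact (h : Irreducible ϖ) (k : ℕ) : ∀ z : Rq ϖ, ¬ ϖ ^ k ∣ QuadraticAlgebra.norm z →
    ∃ n : ℕ, Associated (rt ϖ ^ n) z := by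
  induction k with
  | zero => intro z hz; exact absurd (by rw [pow_zero]; exact one_dvd _) hz
  | succ k ih =>
    intro z hz
    by_cases hu : IsUnit z
    · exact ⟨0, by rw [pow_zero]; exact (associated_one_iff_isUnit.2 hu).symm⟩
    · obtain ⟨w, rfl⟩ := not_not.1 ((unit_iff h).not.1 hu)
      have hn : QuadraticAlgebra.norm (rt ϖ) = -ϖ := by
        rw [nm]; simp [rt]
      obtain ⟨n, hn'⟩ := ih w fun hd => hz (by
        rw [map_mul, hn, neg_mul, dvd_neg, pow_succ']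
        exact mul_dvd_mul_left _ hd)
      exact ⟨n + 1, by rw [pow_succ']; exact hn'.mul_left _⟩

theorem dvr (h : Irreducible ϖ) : @IsDiscreteValuationRing (Rq ϖ) _ (dom h) := by
  have := dom h
  refine IsDiscreteValuationRing.ofHasUnitMulPowIrreducibleFactorization
    ⟨rt ϖ, rt_irr h, fun {z} hz => ?_⟩
  obtain ⟨n, u, hu⟩ := IsDiscreteValuationRing.eq_unit_mul_pow_irreducible (nm_ne h hz) h
  refine fact h (n + 1) z fun hd => ?_
  rw [hu, pow_succ, mul_comm (u : A)] at hd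
  exact h.not_isUnit (isUnit_of_dvd_unit
    ((mul_dvd_mul_iff_left (pow_ne_zero n h.ne_zero)).1 hd) u.isUnit)

theorem smod {B : Type} [CommRing B] [IsDomain B] [IsDiscreteValuationRing B] {p : B}
    (h : Irreducible p) (n : ℕ) (x y : B) :
    x ≡ y [SMOD (maximalIdeal B ^ n • ⊤ : Submodule B B)] ↔ p ^ n ∣ x - y := by
  rw [SModEq.sub_mem, smul_eq_mul, Ideal.mul_top, h.maximalIdeal_eq, Ideal.span_singleton_pow,
    Ideal.mem_span_singleton]

theorem cpl (h : Irreducible ϖ) [IsAdicComplete (maximalIdeal A) A] [IsDomain (Rq ϖ)]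
    [IsDiscreteValuationRing (Rq ϖ)] : IsAdicComplete (maximalIdeal (Rq ϖ)) (Rq ϖ) := by
  refine { prec' := fun f hf => ?_ }
  have h1 : ∀ {m n : ℕ}, m ≤ n → rt ϖ ^ m ∣ f m - f n := fun hmn =>
    (smod (rt_irr h) _ _ _).1 (hf hmn)
  have pw : ∀ m : ℕ, rt ϖ ^ (2 * m) = algebraMap A (Rq ϖ) (ϖ ^ m) := fun m => by
    rw [pow_mul, rt_sq, map_pow]
  have h2 : ∀ {m n : ℕ}, m ≤ n → ϖ ^ m ∣ (f (2 * m) - f (2 * n)).re ∧
      ϖ ^ m ∣ (f (2 * m) - f (2 * n)).im := fun {m n} hmn => by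
    have := h1 (Nat.mul_le_mul_left 2 hmn)
    rwa [pw, algebraMap_dvd_iff] at this
  obtain ⟨a, ha⟩ := IsPrecomplete.prec (I := maximalIdeal A) inferInstance
    (f := fun m => (f (2 * m)).re) fun hmn => (smod h _ _ _).2 (h2 hmn).1
  obtain ⟨b, hb⟩ := IsPrecomplete.prec (I := maximalIdeal A) inferInstance
    (f := fun m => (f (2 * m)).im) fun hmn => (smod h _ _ _).2 (h2 hmn).2
  refine ⟨⟨a, b⟩, fun n => (smod (rt_irr h) _ _ _).2 ?_⟩
  have h3 : rt ϖ ^ (2 * n) ∣ f (2 * n) - ⟨a, b⟩ := by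
    rw [pw, algebraMap_dvd_iff]
    exact ⟨(smod h _ _ _).1 (ha n), (smod h _ _ _).1 (hb n)⟩
  have := dvd_add (h1 (show n ≤ 2 * n by omega)) ((pow_dvd_pow _ (show n ≤ 2 * n by omega)).trans h3)
  rwa [sub_add_sub_cancel] at this

theorem res_surj (h : Irreducible ϖ) [IsDomain (Rq ϖ)] [IsDiscreteValuationRing (Rq ϖ)]
    (z : Rq ϖ) : z - algebraMap A (Rq ϖ) z.re ∈ maximalIdeal (Rq ϖ) := by
  rw [(rt_irr h).maximalIdeal_eq, Ideal.mem_span_singleton]
  exact sub_re z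

theorem mem_max (h : Irreducible ϖ) [IsDomain (Rq ϖ)] [IsDiscreteValuationRing (Rq ϖ)]
    (z : Rq ϖ) : z ∈ maximalIdeal (Rq ϖ) ↔ z.re ∈ maximalIdeal A := by
  rw [(rt_irr h).maximalIdeal_eq, Ideal.mem_span_singleton, h.maximalIdeal_eq,
    Ideal.mem_span_singleton, rt_dvd]

theorem fin (h : Irreducible ϖ) [Finite (ResidueField A)] [IsDomain (Rq ϖ)]
    [IsDiscreteValuationRing (Rq ϖ)] : Finite (ResidueField (Rq ϖ)) := by
  refine Finite.of_surjective (fun a : ResidueField A => residue (Rq ϖ)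
    (algebraMap A (Rq ϖ) (Function.surjInv (residue_surjective (R := A)) a))) fun y => ?_
  obtain ⟨z, rfl⟩ := residue_surjective y
  refine ⟨residue A z.re, ?_⟩
  have e := Function.surjInv_eq (residue_surjective (R := A)) (residue A z.re)
  rw [← sub_eq_zero, ← map_sub, residue_eq_zero_iff] at e ⊢
  rw [mem_max h]
  exact e

end dvr

/-- **the ramified quadratic extension** -/
theorem ramq [IsDomain A] [IsDiscreteValuationRing A] {ϖ : A} (h : Irreducible ϖ) :
    ∃ (A2 : Type) (_ : CommRing A2) (_ : IsDomain A2) (_ : IsDiscreteValuationRing A2)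
      (_ : Algebra A A2) (s : A2), Irreducible s ∧ s ^ 2 = algebraMap A A2 ϖ ∧
      Function.Injective (algebraMap A A2) ∧ Module.Finite A A2 ∧ Module.Free A A2 ∧
      (∀ z : A2, ∃ a : A, s ∣ z - algebraMap A A2 a) ∧
      (IsAdicComplete (maximalIdeal A) A → IsAdicComplete (maximalIdeal A2) A2) ∧
      (Finite (ResidueField A) → Finite (ResidueField A2)) ∧
      ∀ (F : Type) [CommRing F] (r : A →+* F), r ϖ = 0 →
        ∃ r2 : A2 →+* F, r2 s = 0 ∧ ∀ a, r2 (algebraMap A A2 a) = r a := by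
  have := dom h
  have := dvr h
  exact ⟨Rq ϖ, inferInstance, dom h, dvr h, inferInstance, rt ϖ, rt_irr h, rt_sq ϖ,
    algebraMap_injective, inferInstance, inferInstance, fun z => ⟨z.re, sub_re z⟩,
    fun _ => cpl h, fun _ => fin h, fun F _ r hr => ⟨red ϖ r hr, red_rt ϖ r hr, red_alg ϖ r hr⟩⟩

end Vale.Agent.P022G.Ramq
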