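import Vale.Agent.P022G.Bal
import Vale.Agent.P022G.Ramq
import Vale.Agent.P022G.Curve

/-!
P022G: the framed point over a curve in a ring of traces.
-/

set_option linter.all false

noncomputable section

namespace Vale.Agent.P022G.Po

open IsLocalRing Vale.Agent.P022.H346 Vale.Agent.P022D.Gma Vale.Agent.P022F.Gm

variable {G : Type} [Group G]

theorem tf_map {A B : Type} [CommRing A] [CommRing B] {t : G → A} {d : G →* Aˣ} (T : TF t d)
    (j : A →+* B) : TF (fun g => j (t g)) ((Units.map (j : A →* B)).comp d) where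
  one := by rw [T.one, map_ofNat]
  comm g h := by rw [T.comm]
  mul g h := by
    have := congrArg j (T.mul g h)
    rw [map_mul, map_add, map_mul] at this
    exact this

theorem mat_dvd {B : Type} [CommRing B] {t : G → B} (g₀ s₀ : G) (β u b b' v q : B) {g g' : G}
    (h : ∀ y z, q ∣ t (y * g * z) - t (y * g' * z)) (i k : Fin 2) :
    q ∣ mat t g₀ s₀ β u b b' v g i k - mat t g₀ s₀ β u b b' v g' i k := by
  rw [← Ideal.mem_span_singleton, ← Ideal.Quotient.eq]
  have h1 := mat_map (Ideal.Quotient.mk (Ideal.span {q})) t g₀ s₀ β u b b' v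
  have h2 := (h1 g).trans ((mat_congr (t := fun g => Ideal.Quotient.mk (Ideal.span {q}) (t g))
    _ _ _ _ _ _ _ (fun y z => Ideal.Quotient.eq.2 (Ideal.mem_span_singleton.2 (h y z)))).trans
    (h1 g').symm)
  exact congrFun (congrFun h2 i) k

/-- a model over a complete discrete valuation ring -/
theorem model {A k : Type} [CommRing A] [IsDomain A] [IsDiscreteValuationRing A]
    [IsAdicComplete (maximalIdeal A) A] [Finite (ResidueField A)] [Field k] (ι : k →+* ResidueField A)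
    {t : G → A} {d : G →* Aˣ} (T : TF t d) (rb : G →* M2 k)
    (ht : ∀ g, residue A (t g) = ι (rb g).trace) (hd : ∀ g, residue A (d g) = ι (rb g).det)
    (g₀ : G) (h0 : rb g₀ 0 1 = 0 ∧ rb g₀ 1 0 = 0) (hne : rb g₀ 0 0 ≠ rb g₀ 1 1)
    (hsh : (∀ g, rb g 0 1 = 0 ∧ rb g 1 0 = 0) ∨ ∃ s, rb s 0 1 ≠ 0 ∧ rb s 1 0 ≠ 0) :
    ∃ (A2 : Type) (_ : CommRing A2) (_ : IsDomain A2) (_ : IsDiscreteValuationRing A2)
      (f : A →+* A2) (ι2 : ResidueField A →+* ResidueField A2) (ρ : G →* M2 A2) (c : A),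
      Function.Injective f ∧ IsAdicComplete (maximalIdeal A2) A2 ∧ Finite (ResidueField A2) ∧
      (∀ a, residue A2 (f a) = ι2 (residue A a)) ∧
      (∀ g, (ρ g).trace = f (t g)) ∧ (∀ g, (ρ g).det = f (d g)) ∧
      (∀ g i j, residue A2 (ρ g i j) = ι2 (ι (rb g i j))) ∧ (ρ g₀ 0 1 = 0 ∧ ρ g₀ 1 0 = 0) ∧
      c ≠ 0 ∧ ∀ (q : A) (g g' : G), (∀ y z, c * q ∣ t (y * g * z) - t (y * g' * z)) →
        ∀ i j, f q ∣ ρ g i j - ρ g' i j := by
  have hH : HenselianRing A (RingHom.ker (residue A)) := by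
    rw [ker_residue]; infer_instance
  have hun : ∀ x, residue A x ≠ 0 → IsUnit x := fun x hx => by
    rwa [Ne, residue_eq_zero_iff, notMem_maximalIdeal] at hx
  let rb' : G →* M2 (ResidueField A) := (RingHom.mapMatrix ι).toMonoidHom.comp rb
  have hrb : ∀ g i j, rb' g i j = ι (rb g i j) := fun _ _ _ => rfl
  have ht' : ∀ g, residue A (t g) = (rb' g).trace := fun g => by
    rw [ht, Matrix.trace_fin_two, Matrix.trace_fin_two, map_add, hrb, hrb]
  have hd' : ∀ g, residue A (d g) = (rb' g).det := fun g => by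
    rw [hd, Matrix.det_fin_two, Matrix.det_fin_two, map_sub, map_mul, map_mul, hrb, hrb, hrb, hrb]
  have h0' : rb' g₀ = !![ι (rb g₀ 0 0), 0; 0, ι (rb g₀ 1 1)] := by
    ext i j
    fin_cases i <;> fin_cases j <;> simp [hrb, h0.1, h0.2]
  have hne' : ι (rb g₀ 0 0) ≠ ι (rb g₀ 1 1) := fun h => hne (ι.injective h)
  rcases hsh with hs | ⟨s, h01, h10⟩
  · obtain ⟨a₀, ha₀⟩ := residue_surjective (ι (rb g₀ 0 0))
    have e1 : residue A (t g₀) = ι (rb g₀ 0 0) + ι (rb g₀ 1 1) := by
      rw [ht', h0', Matrix.trace_fin_two_of]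
    have e2 : residue A (d g₀) = ι (rb g₀ 0 0) * ι (rb g₀ 1 1) := by
      rw [hd', h0', Matrix.det_fin_two_of]; ring
    obtain ⟨α, β, hs', hp, hα⟩ := hensel (RingHom.ker (residue A)) (t g₀) (d g₀) a₀
      (by rw [RingHom.mem_ker]; simp only [map_add, map_sub, map_mul, map_pow, ha₀, e1, e2]; ring)
      ((hun _ (by
        simp only [map_sub, map_mul, map_ofNat, ha₀, e1]
        intro h
        exact hne' (by linear_combination h))).map _)
    have hα' : residue A α = ι (rb g₀ 0 0) := by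
      rw [RingHom.mem_ker, map_sub, ha₀] at hα
      exact sub_eq_zero.1 hα
    have hβ' : residue A β = ι (rb g₀ 1 1) := by
      have := congrArg (residue A) hs'
      rw [map_add, hα', e1] at this
      exact add_left_cancel this
    obtain ⟨u, hu⟩ := (hun (α - β) (by
      rw [map_sub, hα', hβ']; exact sub_ne_zero.2 hne')).exists_right_inv
    let χ : G →* ResidueField A :=
      { toFun := fun g => ι (rb g 0 0)
        map_one' := by simp
        map_mul' := fun g h => by
          rw [map_mul, Matrix.mul_apply, Fin.sum_univ_two, (hs g).1, zero_mul, add_zero, map_mul] }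
    let ψ : G →* ResidueField A :=
      { toFun := fun g => ι (rb g 1 1)
        map_one' := by simp
        map_mul' := fun g h => by
          rw [map_mul, Matrix.mul_apply, Fin.sum_univ_two, (hs g).2, zero_mul, zero_add, map_mul] }
    have hχ : ∀ g, residue A (t g) = χ g + ψ g := fun g => by
      rw [ht, Matrix.trace_fin_two, map_add]; rfl
    obtain ⟨ϖ, hϖ⟩ := IsDiscreteValuationRing.exists_irreducible A
    obtain ⟨A2, _, _, _, _, s, hirr, hsq, hinj, -, -, -, hc, hf, -⟩ := Ramq.ramq hϖ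
    have hsm : s ∈ maximalIdeal A2 := by
      rw [hirr.maximalIdeal_eq]; exact Ideal.mem_span_singleton_self _
    have hloc : ∀ a ∈ maximalIdeal A, ((residue A2).comp (algebraMap A A2)) a = 0 := fun a ha => by
      rw [hϖ.maximalIdeal_eq, Ideal.mem_span_singleton] at ha
      obtain ⟨b, rfl⟩ := ha
      rw [RingHom.comp_apply, residue_eq_zero_iff, map_mul, ← hsq, sq, mul_assoc]
      exact Ideal.mul_mem_right _ _ hsm
    let ι2 : ResidueField A →+* ResidueField A2 := Ideal.Quotient.lift _ _ hloc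
    have hι2 : ∀ a, residue A2 (algebraMap A A2 a) = ι2 (residue A a) := fun _ => rfl
    obtain ⟨ρ, c, hc0, r0, r1, r2, r3, -, r5⟩ := Bal.bal T g₀ hs' hp hu ϖ (fun g h => by
      rw [← Ideal.mem_span_singleton, ← hϖ.maximalIdeal_eq, ← residue_eq_zero_iff]
      exact Bal.red_xx (residue A) χ ψ hχ hα' hβ' hu g h) (algebraMap A A2) s hsq
    have hz : ∀ x : A2, s ∣ x → residue A2 x = 0 := fun x ⟨y, hy⟩ => by
      rw [residue_eq_zero_iff, hy]; exact Ideal.mul_mem_right _ _ hsm
    refine ⟨A2, inferInstance, inferInstance, inferInstance, algebraMap A A2, ι2, ρ, c, hinj,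
      hc inferInstance, hf inferInstance, hι2, r1, r2, fun g i j => ?_,
      by rw [r0]; exact ⟨rfl, rfl⟩, hc0, r5⟩
    obtain ⟨q0, q1, q2, q3⟩ := r3 g
    fin_cases i <;> fin_cases j
    · show residue A2 (ρ g 0 0) = ι2 (ι (rb g 0 0))
      rw [q0, hι2, Bal.red_ent (residue A) χ ψ hχ hα' hβ' hu]; rfl
    · show residue A2 (ρ g 0 1) = ι2 (ι (rb g 0 1))
      rw [hz _ q2, (hs g).1, map_zero, map_zero]
    · show residue A2 (ρ g 1 0) = ι2 (ι (rb g 1 0))
      rw [hz _ q3, (hs g).2, map_zero, map_zero]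
    · show residue A2 (ρ g 1 1) = ι2 (ι (rb g 1 1))
      rw [q1, hι2, Bal.red_en2 (residue A) χ ψ hχ hα' hβ' hu]; rfl
  · obtain ⟨b, hb⟩ := residue_surjective (rb' s 0 1)
    obtain ⟨ρ, α, β, u, b', v, r1, r2, r3, r4, -, -, -, -, -, -, r5, -⟩ :=
      exists_lift (residue A) residue_surjective hun T rb' ht' hd' g₀ s h0' hne'
        (by rw [hrb]; exact (map_ne_zero ι).2 h10) b hb (by rw [hrb]; exact (map_ne_zero ι).2 h01)
    refine ⟨A, inferInstance, inferInstance, inferInstance, RingHom.id A, RingHom.id _, ρ, 1,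
      Function.injective_id, inferInstance, inferInstance, fun _ => rfl, r1, r2, fun g i j => ?_,
      by rw [r4]; exact ⟨rfl, rfl⟩, one_ne_zero, fun q g g' h i j => ?_⟩
    · exact congrFun (congrFun (r3 g) i) j
    · rw [r5, r5]
      exact mat_dvd _ _ _ _ _ _ _ _ (fun y z => by have := h y z; rwa [one_mul] at this) i j

/-- **the framed point over a curve** -/
theorem point {P F : Type} [CommRing P] [IsLocalRing P] [IsNoetherianRing P]
    [IsAdicComplete (maximalIdeal P) P] [Field F] [Finite F] (red : P →+* F)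
    (hs : Function.Surjective red) {t : G → P} {d : G →* Pˣ} (T : TF t d) (rb : G →* M2 F)
    (ht : ∀ g, red (t g) = (rb g).trace) (hd : ∀ g, red (d g) = (rb g).det)
    (g₀ : G) (h0 : rb g₀ 0 1 = 0 ∧ rb g₀ 1 0 = 0) (hne : rb g₀ 0 0 ≠ rb g₀ 1 1)
    (hsh : (∀ g, rb g 0 1 = 0 ∧ rb g 1 0 = 0) ∨ ∃ s, rb s 0 1 ≠ 0 ∧ rb s 1 0 ≠ 0)
    (p : Ideal P) (hp : p.IsPrime) (h2 : (2 : P) ∈ p) (hdim : ringKrullDim (P ⧸ p) = 1) :
    ∃ (A : Type) (_ : CommRing A) (_ : IsDomain A) (_ : IsDiscreteValuationRing A) (_ : CharP A 2)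
      (j : P →+* A) (ι : F →+* ResidueField A) (ρ : G →* M2 A),
      RingHom.ker j = p ∧ IsAdicComplete (maximalIdeal A) A ∧ Finite (ResidueField A) ∧
      (∀ x, residue A (j x) = ι (red x)) ∧
      (∀ g, (ρ g).trace = j (t g)) ∧ (∀ g, (ρ g).det = j (d g)) ∧
      (∀ g i k, residue A (ρ g i k) = ι (rb g i k)) ∧ (ρ g₀ 0 1 = 0 ∧ ρ g₀ 1 0 = 0) ∧
      (∀ g g', (∀ y z, t (y * g * z) - t (y * g' * z) ∈ p) → ρ g = ρ g') ∧
      ∀ N : ℕ, ∃ N' : ℕ, ∀ g g', (∀ y z, t (y * g * z) - t (y * g' * z) ∈ p ⊔ maximalIdeal P ^ N') →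
        ∀ i k, ρ g i k - ρ g' i k ∈ maximalIdeal A ^ N := by
  have hk : RingHom.ker red = maximalIdeal P := ker_eq_maximalIdeal red hs
  let e : ResidueField P ≃+* F :=
    (Ideal.quotEquivOfEq hk.symm).trans (RingHom.quotientKerEquivOfSurjective hs)
  have he : ∀ x, e (residue P x) = red x := fun _ => rfl
  have : Finite (ResidueField P) := Finite.of_equiv F e.symm.toEquiv
  obtain ⟨A, _, _, _, _, j, hj, hm, hc, hf⟩ := Curve.curveP p hp h2 hdim
  let ι0 : ResidueField P →+* ResidueField A := Ideal.Quotient.lift _ ((residue A).comp j)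
    fun a ha => (residue_eq_zero_iff _).2 ((hm a).2 ha)
  let ι : F →+* ResidueField A := ι0.comp e.symm.toRingHom
  have hι : ∀ x, residue A (j x) = ι (red x) := fun x => by
    rw [← he]
    show _ = ι0 (e.symm (e _))
    rw [e.symm_apply_apply]
    rfl
  obtain ⟨A2, _, _, _, f, ι2, ρ, c, hinj, hc2, hf2, r0, r1, r2, r3, r4, hc0, r5⟩ :=
    model ι (tf_map T j) rb (fun g => by rw [hι, ht]) (fun g => by rw [← hd, ← hι]; rfl) g₀ h0 hne
      hsh
  have hfm : ∀ a ∈ maximalIdeal A, f a ∈ maximalIdeal A2 := fun a ha => by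
    rw [← residue_eq_zero_iff, r0, (residue_eq_zero_iff a).2 ha, map_zero]
  refine ⟨A2, inferInstance, inferInstance, inferInstance, charP_of_injective_ringHom hinj 2,
    f.comp j, ι2.comp ι, ρ, ?_, hc2, hf2, fun x => ?_, r1, r2, r3, r4, fun g g' h => ?_,
    fun N => ?_⟩
  · ext x
    rw [← hj, RingHom.mem_ker, RingHom.mem_ker, RingHom.comp_apply, map_eq_zero_iff f hinj]
  · rw [RingHom.comp_apply, r0, hι]
    rfl
  · ext i k
    have := r5 0 g g' (fun y z => by
      have h1 := h y z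
      rw [← hj, RingHom.mem_ker, map_sub] at h1
      rw [h1]
      exact dvd_zero _) i k
    rwa [map_zero, zero_dvd_iff, sub_eq_zero] at this
  · obtain ⟨ϖ, hϖ⟩ := IsDiscreteValuationRing.exists_irreducible A
    obtain ⟨n, u, hu⟩ := IsDiscreteValuationRing.eq_unit_mul_pow_irreducible hc0 hϖ
    refine ⟨n + N, fun g g' h i k => ?_⟩
    have hle : p ⊔ maximalIdeal P ^ (n + N) ≤ (maximalIdeal A ^ (n + N)).comap j := by
      refine sup_le (fun x hx => ?_) ?_
      · rw [← hj, RingHom.mem_ker] at hx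
        rw [Ideal.mem_comap, hx]
        exact zero_mem _
      · rw [← Ideal.map_le_iff_le_comap, Ideal.map_pow]
        exact Ideal.pow_right_mono (Ideal.map_le_iff_le_comap.2 fun x hx =>
          Ideal.mem_comap.2 ((hm x).2 hx)) _
    obtain ⟨w, hw⟩ := r5 (ϖ ^ N) g g' (fun y z => by
      have h1 := hle (h y z)
      rw [Ideal.mem_comap, map_sub, hϖ.maximalIdeal_eq, Ideal.span_singleton_pow,
        Ideal.mem_span_singleton] at h1
      rw [hu, mul_assoc, ← pow_add, Units.mul_left_dvd]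
      exact h1) i k
    rw [hw, map_pow]
    refine Ideal.mul_mem_right _ _ (Ideal.pow_mem_pow (hfm _ ?_) N)
    rw [hϖ.maximalIdeal_eq]
    exact Ideal.mem_span_singleton_self _

end Vale.Agent.P022G.Po
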