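import Mathlib

/-! THETA: a two by two matrix is determined, up to the factor det (X Y - Y X), by its traces
against 1, X, Y, X Y, with explicit integral formulas. -/

namespace P022G.Th

open Matrix

variable {R : Type*} [CommRing R]

/-- the discriminant, a = tr X, b = tr Y, c = tr XY, p = det X, q = det Y -/
def dl (a b c p q : R) : R := 4 * p * q + a * b * c - q * a ^ 2 - p * b ^ 2 - c ^ 2

def h0 (a b c p q t0 t1 t2 t3 : R) : R :=
  (c - a * b) * t3 + a * q * t1 + p * b * t2
    - (q * a ^ 2 + p * b ^ 2 + c ^ 2 - a * b * c - 2 * p * q) * t0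

def h1 (a b c q t0 t1 t2 t3 : R) : R := b * t3 - 2 * q * t1 - c * t2 + a * q * t0

def h2 (a b c p t0 t1 t2 t3 : R) : R := a * t3 - c * t1 - 2 * p * t2 + b * p * t0

def h3 (a b c t0 t1 t2 t3 : R) : R := -2 * t3 + b * t1 + a * t2 + (c - a * b) * t0

/-- the quadratic form with del * det Z = qf (traces of Z) -/
def qf (a b c p q t0 t1 t2 t3 : R) : R :=
  p * q * t0 ^ 2 + q * t1 ^ 2 + p * t2 ^ 2 + t3 ^ 2 - a * q * t0 * t1 - p * b * t0 * t2
    - (c - a * b) * t0 * t3 + c * t1 * t2 - b * t1 * t3 - a * t2 * t3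

abbrev M2 (R : Type*) := Matrix (Fin 2) (Fin 2) R

/-- del X Y = det (X Y - Y X) -/
def del (X Y : M2 R) : R := (X * Y - Y * X).det

/-- the matrix with prescribed traces (times del) -/
def th (X Y : M2 R) (t0 t1 t2 t3 : R) : M2 R :=
  h0 X.trace Y.trace (X * Y).trace X.det Y.det t0 t1 t2 t3 • (1 : M2 R)
    + h1 X.trace Y.trace (X * Y).trace Y.det t0 t1 t2 t3 • X
    + h2 X.trace Y.trace (X * Y).trace X.det t0 t1 t2 t3 • Y
    + h3 X.trace Y.trace (X * Y).trace t0 t1 t2 t3 • (X * Y)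

theorem del_eq (X Y : M2 R) :
    del X Y = dl X.trace Y.trace (X * Y).trace X.det Y.det := by
  simp only [del, dl, det_fin_two, trace_fin_two, Matrix.sub_apply, mul_apply, Fin.sum_univ_two]
  ring

theorem theta (X Y Z : M2 R) :
    del X Y • Z = th X Y Z.trace (Z * X).trace (Z * Y).trace (Z * (X * Y)).trace := by
  ext i j
  fin_cases i <;> fin_cases j <;>
    simp [del, th, h0, h1, h2, h3, det_fin_two, trace_fin_two, mul_apply, Fin.sum_univ_two] <;>
    ring

theorem th_tr0 (X Y : M2 R) (t0 t1 t2 t3 : R) :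
    (th X Y t0 t1 t2 t3).trace = del X Y * t0 := by
  simp [del, th, h0, h1, h2, h3, det_fin_two, trace_fin_two, mul_apply, Fin.sum_univ_two]
  ring

theorem th_tr1 (X Y : M2 R) (t0 t1 t2 t3 : R) :
    (th X Y t0 t1 t2 t3 * X).trace = del X Y * t1 := by
  simp [del, th, h0, h1, h2, h3, det_fin_two, trace_fin_two, mul_apply, Fin.sum_univ_two,
    one_apply]
  ring

theorem th_tr2 (X Y : M2 R) (t0 t1 t2 t3 : R) :
    (th X Y t0 t1 t2 t3 * Y).trace = del X Y * t2 := by
  simp [del, th, h0, h1, h2, h3, det_fin_two, trace_fin_two, mul_apply, Fin.sum_univ_two,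
    one_apply]
  ring

theorem th_tr3 (X Y : M2 R) (t0 t1 t2 t3 : R) :
    (th X Y t0 t1 t2 t3 * (X * Y)).trace = del X Y * t3 := by
  simp [del, th, h0, h1, h2, h3, det_fin_two, trace_fin_two, mul_apply, Fin.sum_univ_two,
    one_apply]
  ring

theorem th_det (X Y : M2 R) (t0 t1 t2 t3 : R) :
    (th X Y t0 t1 t2 t3).det
      = del X Y * qf X.trace Y.trace (X * Y).trace X.det Y.det t0 t1 t2 t3 := by
  simp [del, th, h0, h1, h2, h3, qf, det_fin_two, trace_fin_two, mul_apply, Fin.sum_univ_two]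
  ring

theorem det_qf (X Y Z : M2 R) :
    del X Y * Z.det = qf X.trace Y.trace (X * Y).trace X.det Y.det
      Z.trace (Z * X).trace (Z * Y).trace (Z * (X * Y)).trace := by
  simp only [del, qf, det_fin_two, trace_fin_two, Matrix.sub_apply, mul_apply, Fin.sum_univ_two]
  ring

/-- the trace form in terms of the four traces -/
theorem tr_mul (X Y Z W : M2 R) :
    del X Y * (Z * W).trace =
      h0 X.trace Y.trace (X * Y).trace X.det Y.det
          Z.trace (Z * X).trace (Z * Y).trace (Z * (X * Y)).trace * W.trace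
      + h1 X.trace Y.trace (X * Y).trace Y.det
          Z.trace (Z * X).trace (Z * Y).trace (Z * (X * Y)).trace * (W * X).trace
      + h2 X.trace Y.trace (X * Y).trace X.det
          Z.trace (Z * X).trace (Z * Y).trace (Z * (X * Y)).trace * (W * Y).trace
      + h3 X.trace Y.trace (X * Y).trace
          Z.trace (Z * X).trace (Z * Y).trace (Z * (X * Y)).trace * (W * (X * Y)).trace := by
  have h := congrArg (fun A : M2 R => (A * W).trace) (theta X Y Z)
  simp only [th, Matrix.add_mul, Matrix.smul_mul, trace_add, trace_smul, smul_eq_mul,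
    Matrix.one_mul] at h
  rw [h, trace_mul_comm X W, trace_mul_comm Y W, trace_mul_comm (X * Y) W]

theorem perp (X Y Z : M2 R) (e0 : Z.trace = 0) (e1 : (Z * X).trace = 0)
    (e2 : (Z * Y).trace = 0) (e3 : (Z * (X * Y)).trace = 0) : del X Y • Z = 0 := by
  rw [theta, e0, e1, e2, e3]
  simp [th, h0, h1, h2, h3]

theorem same (X Y Z W : M2 R) (e0 : Z.trace = W.trace) (e1 : (Z * X).trace = (W * X).trace)
    (e2 : (Z * Y).trace = (W * Y).trace) (e3 : (Z * (X * Y)).trace = (W * (X * Y)).trace) :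
    del X Y • Z = del X Y • W := by
  rw [theta, theta, e0, e1, e2, e3]

/-- if del * Z = th t then the traces of Z are t up to del -/
theorem back (X Y Z : M2 R) (t0 t1 t2 t3 : R) (h : del X Y • Z = th X Y t0 t1 t2 t3) :
    del X Y * (Z.trace - t0) = 0 ∧ del X Y * ((Z * X).trace - t1) = 0 ∧
      del X Y * ((Z * Y).trace - t2) = 0 ∧ del X Y * ((Z * (X * Y)).trace - t3) = 0 := by
  have g0 := th_tr0 X Y t0 t1 t2 t3
  have g1 := th_tr1 X Y t0 t1 t2 t3
  have g2 := th_tr2 X Y t0 t1 t2 t3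
  have g3 := th_tr3 X Y t0 t1 t2 t3
  rw [← h] at g0 g1 g2 g3
  simp only [Matrix.smul_mul, trace_smul, smul_eq_mul] at g0 g1 g2 g3
  refine ⟨?_, ?_, ?_, ?_⟩
  · rw [mul_sub, g0, sub_self]
  · rw [mul_sub, g1, sub_self]
  · rw [mul_sub, g2, sub_self]
  · rw [mul_sub, g3, sub_self]

theorem map_del {S : Type*} [CommRing S] (f : R →+* S) (X Y : M2 R) :
    f (del X Y) = del (X.map f) (Y.map f) := by
  simp [del, det_fin_two, mul_apply, Fin.sum_univ_two]

theorem map_th {S : Type*} [CommRing S] (f : R →+* S) (X Y : M2 R) (t0 t1 t2 t3 : R) :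
    (th X Y t0 t1 t2 t3).map f = th (X.map f) (Y.map f) (f t0) (f t1) (f t2) (f t3) := by
  ext i j
  fin_cases i <;> fin_cases j <;>
    simp [th, h0, h1, h2, h3, det_fin_two, trace_fin_two, mul_apply, Fin.sum_univ_two, map_ofNat]

theorem map_dl {S : Type*} [CommRing S] (f : R →+* S) (a b c p q : R) :
    f (dl a b c p q) = dl (f a) (f b) (f c) (f p) (f q) := by
  simp [dl, map_ofNat]

end P022G.Th
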