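import Vale.Agent.P022F.Gm
import Vale.Agent.P022G.Theta

/-! KDEL with a regular diagonal element: the entries a i, b i, x i k generate, and matrices with
these entries satisfy the relations up to the factor (upper right) * (lower left). -/

namespace P022G.Kd2

open Vale.Agent.P022F.Gm P022G.Th Matrix

variable {G H B C : Type} [Group G] [Group H] [CommRing B] [CommRing C] {ι : Type*}

theorem x_one_left {t : G → B} {d : G →* Bˣ} {a b : G → B} {x : G → G → B} (T : GM t d a b x)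
    (h : G) : x 1 h = 0 := by
  have := T.am 1 h
  rw [one_mul, T.a1, one_mul] at this
  linear_combination -this

theorem x_one_right {t : G → B} {d : G →* Bˣ} {a b : G → B} {x : G → G → B} (T : GM t d a b x)
    (h : G) : x h 1 = 0 := by
  have := T.am h 1
  rw [mul_one, T.a1, mul_one] at this
  linear_combination -this

/-- all entries lie in the ring generated by the entries of the generators -/
theorem mem {t : G → B} {d : G →* Bˣ} {a b : G → B} {x : G → G → B} (T : GM t d a b x)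
    (γ : ι → G) (A : Subring B) (ha : ∀ i, a (γ i) ∈ A) (hb : ∀ i, b (γ i) ∈ A)
    (hx : ∀ i k, x (γ i) (γ k) ∈ A) (hd : ∀ i, (((d (γ i))⁻¹ : Bˣ) : B) ∈ A) :
    (∀ g ∈ Subgroup.closure (Set.range γ), a g ∈ A ∧ b g ∈ A ∧ t g ∈ A ∧ (d g : B) ∈ A) ∧
      ∀ g ∈ Subgroup.closure (Set.range γ), ∀ h ∈ Subgroup.closure (Set.range γ), x g h ∈ A := by
  have key : ∀ g ∈ Subgroup.closure (Set.range γ),
      a g ∈ A ∧ b g ∈ A ∧ (∀ i, x g (γ i) ∈ A) ∧ ∀ i, x (γ i) g ∈ A := by
    intro g hg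
    induction hg using Subgroup.closure_induction_right with
    | one =>
      refine ⟨T.a1 ▸ A.one_mem, T.b1 ▸ A.one_mem, fun i => ?_, fun i => ?_⟩
      · rw [x_one_left T]; exact A.zero_mem
      · rw [x_one_right T]; exact A.zero_mem
    | mul_right w _ y hy ih =>
      obtain ⟨k, rfl⟩ := hy
      obtain ⟨h1, h2, h3, h4⟩ := ih
      refine ⟨?_, ?_, fun i => ?_, fun i => ?_⟩
      · rw [T.am]; exact A.add_mem (A.mul_mem h1 (ha k)) (h3 k)
      · rw [T.bm]; exact A.add_mem (A.mul_mem h2 (hb k)) (h4 k)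
      · rw [T.cl]; exact A.add_mem (A.mul_mem h1 (hx k i)) (A.mul_mem (hb k) (h3 i))
      · rw [T.cr]; exact A.add_mem (A.mul_mem (ha k) (h4 i)) (A.mul_mem h2 (hx i k))
    | mul_inv_cancel w _ y hy ih =>
      obtain ⟨k, rfl⟩ := hy
      obtain ⟨h1, h2, h3, h4⟩ := ih
      obtain ⟨v, hv⟩ : ∃ v, v = w * (γ k)⁻¹ := ⟨_, rfl⟩
      have hw : w = v * γ k := by rw [hv, inv_mul_cancel_right]
      rw [← hv]
      subst hw
      have u : ∀ z : B, (d (γ k) : B) * z ∈ A → z ∈ A := fun z hz => by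
        have := A.mul_mem (hd k) hz
        rwa [← mul_assoc, Units.inv_mul, one_mul] at this
      have e := T.det (γ k)
      have g1 : a v ∈ A := u _ (by
        have : (d (γ k) : B) * a v = a (v * γ k) * b (γ k) - x (v * γ k) (γ k) := by
          rw [T.am, T.cl, ← e]; ring
        rw [this]; exact A.sub_mem (A.mul_mem h1 (hb k)) (h3 k))
      have g2 : b v ∈ A := u _ (by
        have : (d (γ k) : B) * b v = b (v * γ k) * a (γ k) - x (γ k) (v * γ k) := by
          rw [T.bm, T.cr, ← e]; ring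
        rw [this]; exact A.sub_mem (A.mul_mem h2 (ha k)) (h4 k))
      refine ⟨g1, g2, fun i => u _ ?_, fun i => u _ ?_⟩
      · have : (d (γ k) : B) * x v (γ i) =
            a (γ k) * (x (v * γ k) (γ i) - a v * x (γ k) (γ i))
              - x (γ k) (γ i) * (a (v * γ k) - a v * a (γ k)) := by
          rw [T.am, T.cl, ← e]
          linear_combination -T.sw (γ k) (γ k) v (γ i)
        rw [this]
        exact A.sub_mem (A.mul_mem (ha k) (A.sub_mem (h3 i) (A.mul_mem g1 (hx k i))))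
          (A.mul_mem (hx k i) (A.sub_mem h1 (A.mul_mem g1 (ha k))))
      · have : (d (γ k) : B) * x (γ i) v =
            b (γ k) * (x (γ i) (v * γ k) - b v * x (γ i) (γ k))
              - x (γ i) (γ k) * (b (v * γ k) - b v * b (γ k)) := by
          rw [T.bm, T.cr, ← e]
          linear_combination -T.sw (γ k) (γ k) (γ i) v
        rw [this]
        exact A.sub_mem (A.mul_mem (hb k) (A.sub_mem (h4 i) (A.mul_mem g2 (hx i k))))
          (A.mul_mem (hx i k) (A.sub_mem h2 (A.mul_mem g2 (hb k))))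
  have kx : ∀ g ∈ Subgroup.closure (Set.range γ), ∀ h ∈ Subgroup.closure (Set.range γ),
      x g h ∈ A := fun g hg h hh => by
    have : x g h = a (g * h) - a g * a h := by rw [T.am]; ring
    rw [this]
    exact A.sub_mem (key _ (Subgroup.mul_mem _ hg hh)).1 (A.mul_mem (key g hg).1 (key h hh).1)
  refine ⟨fun g hg => ⟨(key g hg).1, (key g hg).2.1, ?_, ?_⟩, kx⟩
  · rw [← T.sum]; exact A.add_mem (key g hg).1 (key g hg).2.1
  · rw [← T.det]; exact A.sub_mem (A.mul_mem (key g hg).1 (key g hg).2.1) (kx g hg g hg)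

/-- two systems of entries which agree on the generators agree -/
theorem agree {t t' : G → B} {d d' : G →* Bˣ} {a b a' b' : G → B} {x x' : G → G → B}
    (T : GM t d a b x) (T' : GM t' d' a' b' x') (γ : ι → G) (ha : ∀ i, a (γ i) = a' (γ i))
    (hb : ∀ i, b (γ i) = b' (γ i)) (hx : ∀ i k, x (γ i) (γ k) = x' (γ i) (γ k)) :
    (∀ g ∈ Subgroup.closure (Set.range γ), a g = a' g ∧ b g = b' g ∧ t g = t' g ∧ d g = d' g) ∧
      ∀ g ∈ Subgroup.closure (Set.range γ), ∀ h ∈ Subgroup.closure (Set.range γ),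
        x g h = x' g h := by
  let D : G →* (B × B)ˣ := (MulEquiv.prodUnits (M := B) (N := B)).symm.toMonoidHom.comp (d.prod d')
  have T2 : GM (fun g => (t g, t' g)) D (fun g => (a g, a' g)) (fun g => (b g, b' g))
      (fun g h => (x g h, x' g h)) :=
    ⟨fun g => Prod.ext (T.sum g) (T'.sum g), Prod.ext T.a1 T'.a1, Prod.ext T.b1 T'.b1,
      fun g h => Prod.ext (T.am g h) (T'.am g h), fun g h => Prod.ext (T.bm g h) (T'.bm g h),
      fun g h k => Prod.ext (T.cl g h k) (T'.cl g h k),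
      fun g h k => Prod.ext (T.cr g h k) (T'.cr g h k),
      fun g => Prod.ext (T.det g) (T'.det g),
      fun g h k l => Prod.ext (T.sw g h k l) (T'.sw g h k l)⟩
  have hd : ∀ i, d (γ i) = d' (γ i) := fun i => Units.ext (by
    rw [← T.det, ← T'.det, ha, hb, hx])
  obtain ⟨h1, h2⟩ := mem T2 γ (RingHom.eqLocus (RingHom.fst B B) (RingHom.snd B B)) ha hb hx
    (fun i => by
      rw [← map_inv]
      change (d (γ i)⁻¹ : B) = d' (γ i)⁻¹
      rw [map_inv, map_inv, hd])
  exact ⟨fun g hg => ⟨(h1 g hg).1, (h1 g hg).2.1, (h1 g hg).2.2.1, Units.ext (h1 g hg).2.2.2⟩, h2⟩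

theorem gm_rep (Z : H →* M2 C) :
    GM (fun w => (Z w).trace) (Matrix.GeneralLinearGroup.det.comp Z.toHomUnits)
      (fun w => Z w 0 0) (fun w => Z w 1 1) (fun w v => Z w 0 1 * Z v 1 0) := by
  refine ⟨fun g => by simp [trace_fin_two], by simp, by simp, fun g h => ?_, fun g h => ?_,
    fun g h k => ?_, fun g h k => ?_, fun g => ?_, fun g h k l => by ring⟩
  · simp [mul_apply, Fin.sum_univ_two]
  · simp only [map_mul, mul_apply, Fin.sum_univ_two]; ring
  · simp only [map_mul, mul_apply, Fin.sum_univ_two]; ring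
  · simp only [map_mul, mul_apply, Fin.sum_univ_two]; ring
  · change _ = (Z g).det
    rw [det_fin_two]

theorem gm_comp {t : G → B} {d : G →* Bˣ} {a b : G → B} {x : G → G → B} (T : GM t d a b x)
    (q : H →* G) (j : B →+* C) :
    GM (fun w => j (t (q w))) ((Units.map j.toMonoidHom).comp (d.comp q)) (fun w => j (a (q w)))
      (fun w => j (b (q w))) (fun w v => j (x (q w) (q v))) := by
  refine ⟨fun g => by rw [← map_add, T.sum], by simp [T.a1], by simp [T.b1], fun g h => ?_,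
    fun g h => ?_, fun g h k => ?_, fun g h k => ?_, fun g => ?_, fun g h k l => ?_⟩
  · rw [map_mul, T.am, map_add, map_mul]
  · rw [map_mul, T.bm, map_add, map_mul]
  · rw [map_mul, T.cl, map_add, map_mul, map_mul]
  · rw [map_mul, T.cr, map_add, map_mul, map_mul]
  · change _ = j (d (q g))
    rw [← T.det, map_sub, map_mul]
  · rw [← map_mul, T.sw, map_mul]

/-- the entries of Z are those of the pseudo character on the whole group -/
theorem ent_eq (y : ι → H) (hy : Subgroup.closure (Set.range y) = ⊤) (q : H →* G)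
    {t : G → B} {d : G →* Bˣ} {a b : G → B} {x : G → G → B} (T : GM t d a b x) (j : B →+* C)
    (Z : H →* M2 C) (ha : ∀ i, Z (y i) 0 0 = j (a (q (y i))))
    (hb : ∀ i, Z (y i) 1 1 = j (b (q (y i))))
    (hx : ∀ i k, Z (y i) 0 1 * Z (y k) 1 0 = j (x (q (y i)) (q (y k)))) :
    (∀ w, Z w 0 0 = j (a (q w)) ∧ Z w 1 1 = j (b (q w)) ∧ (Z w).trace = j (t (q w)) ∧
      (Z w).det = j (d (q w))) ∧ ∀ w v, Z w 0 1 * Z v 1 0 = j (x (q w) (q v)) := by
  obtain ⟨h1, h2⟩ := agree (gm_rep Z) (gm_comp T q j) y ha hb hx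
  have m : ∀ w, w ∈ Subgroup.closure (Set.range y) := fun w => hy ▸ Subgroup.mem_top w
  exact ⟨fun w => ⟨(h1 w (m w)).1, (h1 w (m w)).2.1, (h1 w (m w)).2.2.1,
    congrArg Units.val (h1 w (m w)).2.2.2⟩, fun w v => h2 w (m w) v (m v)⟩

/-- KDEL: relations hold exactly on the diagonal and up to one entry off the diagonal -/
theorem kdel (y : ι → H) (hy : Subgroup.closure (Set.range y) = ⊤) (q : H →* G)
    {t : G → B} {d : G →* Bˣ} {a b : G → B} {x : G → G → B} (T : GM t d a b x) (j : B →+* C)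
    (Z : H →* M2 C) (ha : ∀ i, Z (y i) 0 0 = j (a (q (y i))))
    (hb : ∀ i, Z (y i) 1 1 = j (b (q (y i))))
    (hx : ∀ i k, Z (y i) 0 1 * Z (y k) 1 0 = j (x (q (y i)) (q (y k)))) {w v : H}
    (e : q w = q v) :
    Z w 0 0 = Z v 0 0 ∧ Z w 1 1 = Z v 1 1 ∧ (∀ z, Z z 1 0 * (Z w 0 1 - Z v 0 1) = 0) ∧
      (∀ z, Z z 0 1 * (Z w 1 0 - Z v 1 0) = 0) ∧
      ∀ z u i k, Z z 0 1 * Z u 1 0 * (Z w i k - Z v i k) = 0 := by
  obtain ⟨h1, h2⟩ := ent_eq y hy q T j Z ha hb hx
  have e0 : Z w 0 0 = Z v 0 0 := by rw [(h1 w).1, (h1 v).1, e]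
  have e1 : Z w 1 1 = Z v 1 1 := by rw [(h1 w).2.1, (h1 v).2.1, e]
  have e2 : ∀ z, Z z 1 0 * (Z w 0 1 - Z v 0 1) = 0 := fun z => by
    rw [mul_comm, sub_mul, h2, h2, e, sub_self]
  have e3 : ∀ z, Z z 0 1 * (Z w 1 0 - Z v 1 0) = 0 := fun z => by
    rw [mul_sub, h2, h2, e, sub_self]
  refine ⟨e0, e1, e2, e3, fun z u i k => ?_⟩
  fin_cases i <;> fin_cases k
  · simp [e0]
  · simpa [mul_assoc] using congrArg (Z z 0 1 * ·) (e2 u)
  · have := congrArg (Z u 1 0 * ·) (e3 z)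
    simp only [mul_zero] at this
    simp only [Fin.mk_one, Fin.zero_eta]
    linear_combination this
  · simp [e1]

/-- base change of a matrix representation -/
def red {P Q : Type} [CommRing P] [CommRing Q] (f : P →+* Q) (Z : H →* M2 P) : H →* M2 Q :=
  (f.mapMatrix : M2 P →+* M2 Q).toMonoidHom.comp Z

theorem red_ent {P Q : Type} [CommRing P] [CommRing Q] (f : P →+* Q) (Z : H →* M2 P) (w : H)
    (i k : Fin 2) : red f Z w i k = f (Z w i k) := rfl

/-- ideal form: phi : P0 -> P2, a system of entries over any P0-algebra B (structure map s with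
kernel inside c, onto), pa pb px lifts of the entries of the generators which phi sends to the
entries of Z -/
theorem kdel_ideal {P0 P2 : Type} [CommRing P0] [CommRing P2] (φ : P0 →+* P2) (c : Ideal P0)
    (y : ι → H) (hy : Subgroup.closure (Set.range y) = ⊤) (q : H →* G)
    {t : G → P0 ⧸ c} {d : G →* (P0 ⧸ c)ˣ} {a b : G → P0 ⧸ c} {x : G → G → P0 ⧸ c}
    (T : GM t d a b x) (Z : H →* M2 P2) (pa pb : ι → P0) (px : ι → ι → P0)
    (ha : ∀ i, Ideal.Quotient.mk c (pa i) = a (q (y i)))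
    (hb : ∀ i, Ideal.Quotient.mk c (pb i) = b (q (y i)))
    (hx : ∀ i k, Ideal.Quotient.mk c (px i k) = x (q (y i)) (q (y k)))
    (ha' : ∀ i, φ (pa i) = Z (y i) 0 0) (hb' : ∀ i, φ (pb i) = Z (y i) 1 1)
    (hx' : ∀ i k, φ (px i k) = Z (y i) 0 1 * Z (y k) 1 0) :
    (∀ w u, Ideal.Quotient.mk c u = t (q w) → (Z w).trace - φ u ∈ c.map φ) ∧
    (∀ w u, Ideal.Quotient.mk c u = d (q w) → (Z w).det - φ u ∈ c.map φ) ∧
    (∀ w u, Ideal.Quotient.mk c u = a (q w) → Z w 0 0 - φ u ∈ c.map φ) ∧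
    (∀ w u, Ideal.Quotient.mk c u = b (q w) → Z w 1 1 - φ u ∈ c.map φ) ∧
    (∀ w v u, Ideal.Quotient.mk c u = x (q w) (q v) → Z w 0 1 * Z v 1 0 - φ u ∈ c.map φ) ∧
    ∀ w v, q w = q v → ∀ z u i k, Z z 0 1 * Z u 1 0 * (Z w i k - Z v i k) ∈ c.map φ := by
  let j : P0 ⧸ c →+* P2 ⧸ c.map φ := Ideal.quotientMap (c.map φ) φ Ideal.le_comap_map
  have hj : ∀ u, j (Ideal.Quotient.mk c u) = Ideal.Quotient.mk (c.map φ) (φ u) := fun u =>
    Ideal.quotientMap_mk
  let Z' := red (Ideal.Quotient.mk (c.map φ)) Z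
  have g1 : ∀ i, Z' (y i) 0 0 = j (a (q (y i))) := fun i => by rw [red_ent, ← ha, hj, ha']
  have g2 : ∀ i, Z' (y i) 1 1 = j (b (q (y i))) := fun i => by rw [red_ent, ← hb, hj, hb']
  have g3 : ∀ i k, Z' (y i) 0 1 * Z' (y k) 1 0 = j (x (q (y i)) (q (y k))) := fun i k => by
    rw [red_ent, red_ent, ← hx, hj, hx', map_mul]
  obtain ⟨h1, h2⟩ := ent_eq y hy q T j Z' g1 g2 g3
  refine ⟨fun w u hu => ?_, fun w u hu => ?_, fun w u hu => ?_, fun w u hu => ?_,
    fun w v u hu => ?_, fun w v e z u i k => ?_⟩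
  · rw [← Ideal.Quotient.eq, ← hj, hu, ← (h1 w).2.2.1]
    simp [Z', trace_fin_two, red_ent]
  · rw [← Ideal.Quotient.eq, ← hj, hu, ← (h1 w).2.2.2]
    simp [Z', det_fin_two, red_ent]
  · rw [← Ideal.Quotient.eq, ← hj, hu, ← (h1 w).1, red_ent]
  · rw [← Ideal.Quotient.eq, ← hj, hu, ← (h1 w).2.1, red_ent]
  · rw [← Ideal.Quotient.eq, ← hj, hu, ← h2 w v, red_ent, red_ent, map_mul]
  · rw [← Ideal.Quotient.eq_zero_iff_mem, map_mul, map_mul, map_sub]
    exact (kdel y hy q T j Z' g1 g2 g3 e).2.2.2.2 z u i k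

end P022G.Kd2
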