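import Mathlib

/-!
P022G: the dimension inequality for a local domain which is topologically generated over the image
of `A` by finitely many elements.
-/

set_option linter.all false

noncomputable section

namespace Vale.Agent.P022G.Dim

open IsLocalRing Polynomial

variable {A B : Type} [CommRing A] [IsNoetherianRing A] [CommRing B] [Algebra A B]

theorem cancel {a b : WithBot ℕ∞} (h : a + 1 ≤ b + 1) : a ≤ b := by
  induction a using WithBot.recBotCoe with
  | bot => exact bot_le
  | coe a =>
    induction b using WithBot.recBotCoe with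
    | bot =>
      rw [WithBot.bot_add, le_bot_iff] at h
      exact absurd h (by exact_mod_cast WithBot.coe_ne_bot)
    | coe b =>
      have h' : a + 1 ≤ b + 1 := by exact_mod_cast h
      exact_mod_cast (ENat.add_le_add_iff_right (by simp)).1 h'

theorem noeth (F : Finset B) : IsNoetherianRing (Algebra.adjoin A (F : Set B)) :=
  isNoetherianRing_of_fg (Subalgebra.fg_adjoin_finset F)

/-- evaluation of polynomials over a subalgebra at a new generator -/
def ev (F : Set B) (x : B) : (Algebra.adjoin A F)[X] →+* Algebra.adjoin A (insert x F) :=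
  eval₂RingHom (Subalgebra.inclusion (Algebra.adjoin_mono (Set.subset_insert x F))).toRingHom
    ⟨x, Algebra.subset_adjoin (Set.mem_insert x F)⟩

theorem ev_C (F : Set B) (x : B) (z : Algebra.adjoin A F) : ((ev F x (C z) : _) : B) = z := by
  unfold ev
  rw [coe_eval₂RingHom, eval₂_C]
  exact Subalgebra.coe_inclusion _ z

theorem ev_X (F : Set B) (x : B) : ((ev (A := A) F x X : _) : B) = x := by
  unfold ev
  rw [coe_eval₂RingHom, eval₂_X]

theorem ev_sur (F : Set B) (x : B) : Function.Surjective (ev (A := A) F x) := by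
  rintro ⟨y, hy⟩
  induction hy using Algebra.adjoin_induction with
  | mem z hz =>
    rcases hz with rfl | hz
    · exact ⟨X, Subtype.ext (ev_X _ _)⟩
    · exact ⟨C ⟨z, Algebra.subset_adjoin hz⟩, Subtype.ext (ev_C _ _ _)⟩
  | algebraMap a =>
    exact ⟨C ⟨algebraMap A B a, Subalgebra.algebraMap_mem _ a⟩, Subtype.ext (ev_C _ _ _)⟩
  | add y z hy hz h1 h2 =>
    obtain ⟨p, hp⟩ := h1
    obtain ⟨q, hq⟩ := h2
    exact ⟨p + q, by rw [map_add, hp, hq]; rfl⟩
  | mul y z hy hz h1 h2 =>
    obtain ⟨p, hp⟩ := h1
    obtain ⟨q, hq⟩ := h2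
    exact ⟨p * q, by rw [map_mul, hp, hq]; rfl⟩

open Classical in
theorem step1 (F : Finset B) (x : B) :
    ringKrullDim (Algebra.adjoin A ((insert x F : Finset B) : Set B)) ≤
      ringKrullDim (Algebra.adjoin A (F : Set B)) + 1 := by
  haveI := noeth (A := A) F
  rw [Finset.coe_insert, ← Polynomial.ringKrullDim_of_isNoetherianRing]
  exact ringKrullDim_le_of_surjective _ (ev_sur _ x)

open Classical in
theorem step0 [IsDomain B] (F : Finset B) (x : B)
    (h : ∃ p : (Algebra.adjoin A (F : Set B))[X], p ≠ 0 ∧ aeval x p = 0) :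
    ringKrullDim (Algebra.adjoin A ((insert x F : Finset B) : Set B)) ≤
      ringKrullDim (Algebra.adjoin A (F : Set B)) := by
  haveI := noeth (A := A) F
  obtain ⟨p, h0, hp⟩ := h
  apply cancel
  rw [Finset.coe_insert,
    ← Polynomial.ringKrullDim_of_isNoetherianRing (R := Algebra.adjoin A (F : Set B))]
  refine ringKrullDim_succ_le_of_surjective _ (ev_sur _ x) (mem_nonZeroDivisors_of_ne_zero h0) ?_
  apply Subtype.ext
  have : ((ev (A := A) (F : Set B) x p : Algebra.adjoin A (insert x (F : Set B))) : B) =
      aeval x p := by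
    have := Polynomial.hom_eval₂ p
      (Subalgebra.inclusion (Algebra.adjoin_mono
        (Set.subset_insert x (F : Set B)) : Algebra.adjoin A (F : Set B) ≤ _)).toRingHom
      (Algebra.adjoin A (insert x (F : Set B))).val.toRingHom
      ⟨x, Algebra.subset_adjoin (Set.mem_insert x _)⟩
    exact this
  rw [this, hp]; rfl

theorem adj_le (T : Finset B) :
    ringKrullDim (Algebra.adjoin A (T : Set B)) ≤ ringKrullDim A + (T.card : ℕ) := by
  classical
  induction T using Finset.induction_on with
  | empty =>
    rw [Finset.coe_empty, Finset.card_empty, Nat.cast_zero, add_zero]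
    refine ringKrullDim_le_of_surjective (algebraMap A (Algebra.adjoin A (∅ : Set B))) ?_
    rintro ⟨y, hy⟩
    rw [Algebra.adjoin_empty, Algebra.mem_bot] at hy
    obtain ⟨a, rfl⟩ := hy
    exact ⟨a, rfl⟩
  | insert x T hx ih =>
    refine (step1 T x).trans ?_
    rw [Finset.card_insert_of_notMem hx, Nat.cast_add, Nat.cast_one, ← add_assoc]
    gcongr

open Classical in
theorem adj_le2 [IsDomain B] (T F : Finset B)
    (h : ∀ x ∈ F, ∃ u ∈ Algebra.adjoin A (T : Set B), u ≠ 0 ∧
      u * x ∈ Algebra.adjoin A (T : Set B)) :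
    ringKrullDim (Algebra.adjoin A ((F ∪ T : Finset B) : Set B)) ≤
      ringKrullDim A + (T.card : ℕ) := by
  induction F using Finset.induction_on with
  | empty => rw [Finset.empty_union]; exact adj_le T
  | insert x F hx ih =>
    rw [Finset.insert_union]
    refine (step0 (F ∪ T) x ?_).trans (ih fun y hy => h y (Finset.mem_insert_of_mem hy))
    obtain ⟨u, hu, h0, hv⟩ := h x (Finset.mem_insert_self _ _)
    have hle : Algebra.adjoin A (T : Set B) ≤ Algebra.adjoin A ((F ∪ T : Finset B) : Set B) :=
      Algebra.adjoin_mono (by simp)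
    refine ⟨C ⟨u, hle hu⟩ * X - C ⟨u * x, hle hv⟩, fun e => h0 ?_, ?_⟩
    · have := congrArg (fun p => p.coeff 1) e
      simp only [coeff_sub, coeff_C_mul, coeff_X_one, mul_one, coeff_C_succ, sub_zero,
        coeff_zero] at this
      exact congrArg Subtype.val this
    · simp only [map_sub, map_mul, aeval_C, aeval_X]
      exact sub_self _

/-- a Noetherian subring which is dense modulo the square of the maximal ideal -/
theorem dense_le {S : Type} [CommRing S] [IsNoetherianRing S] [IsNoetherianRing B] [IsLocalRing B]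
    (f : S →+* B) (hd : ∀ b ∈ maximalIdeal B, ∃ p : S, b - f p ∈ maximalIdeal B ^ 2) :
    ringKrullDim B ≤ ringKrullDim S := by
  classical
  set n : Ideal S := (maximalIdeal B).comap f with hn
  have hm : maximalIdeal B ≤ n.map f := by
    refine Submodule.le_of_le_smul_of_le_jacobson_bot (IsNoetherian.noetherian _)
      (IsLocalRing.maximalIdeal_le_jacobson ⊥) (I := maximalIdeal B) fun b hb => ?_
    obtain ⟨p, hp⟩ := hd b hb
    have h1 : f p ∈ maximalIdeal B := by
      have := Ideal.sub_mem _ hb (Ideal.pow_le_self two_ne_zero hp)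
      simpa using this
    have : b = f p + (b - f p) := by ring
    rw [this]
    refine Submodule.add_mem_sup (Ideal.mem_map_of_mem f h1) ?_
    rw [smul_eq_mul, ← pow_two]; exact hp
  obtain ⟨s, hs, hc⟩ := Ideal.exists_finset_card_eq_height_of_isNoetherianRing n
  have hmin : maximalIdeal B ∈ (Ideal.span ((s.image f : Finset B) : Set B)).minimalPrimes := by
    refine ⟨⟨inferInstance, ?_⟩, fun q hq hle => ?_⟩
    · rw [Ideal.span_le]
      intro y hy
      simp only [Finset.coe_image, Set.mem_image, Finset.mem_coe] at hy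
      obtain ⟨z, hz, rfl⟩ := hy
      exact hs.1.2 (Ideal.subset_span hz)
    · haveI := hq.1
      refine hm.trans (Ideal.map_le_iff_le_comap.2 ?_)
      refine hs.2 ⟨Ideal.comap_isPrime f q, ?_⟩ (Ideal.comap_mono hle)
      rw [Ideal.span_le]
      intro z hz
      exact hq.2 (Ideal.subset_span (by
        simp only [Finset.coe_image, Set.mem_image, Finset.mem_coe]; exact ⟨z, hz, rfl⟩))
  have h1 := Ideal.height_le_card_of_mem_minimalPrimes_span_finset hmin
  have h2 : ((s.image f).card : ℕ∞) ≤ n.height := by
    rw [← hc]; exact_mod_cast Finset.card_image_le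
  rw [← IsLocalRing.maximalIdeal_height_eq_ringKrullDim]
  refine le_trans ?_ (Ideal.height_le_ringKrullDim_of_isPrime (I := n))
  exact_mod_cast h1.trans h2

open Classical in
/-- **dimension inequality** -/
theorem dim_le [IsNoetherianRing B] [IsDomain B] [IsLocalRing B] (T F : Finset B)
    (h : ∀ x ∈ F, ∃ u ∈ Algebra.adjoin A (T : Set B), u ≠ 0 ∧
      u * x ∈ Algebra.adjoin A (T : Set B))
    (hd : ∀ b ∈ maximalIdeal B, ∃ p ∈ Algebra.adjoin A ((F : Set B) ∪ T),
      b - p ∈ maximalIdeal B ^ 2) :
    ringKrullDim B ≤ ringKrullDim A + (T.card : ℕ) := by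
  haveI := noeth (A := A) (F ∪ T)
  refine le_trans (dense_le (Algebra.adjoin A ((F ∪ T : Finset B) : Set B)).val.toRingHom
    fun b hb => ?_) (adj_le2 T F h)
  obtain ⟨p, hp, h2⟩ := hd b hb
  exact ⟨⟨p, by rwa [Finset.coe_union]⟩, h2⟩

end Vale.Agent.P022G.Dim
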