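import Vale.Agent.P022R.Sec
import Vale.Agent.P022F.Gm

/-!
# P022G: a generalised matrix algebra embeds in a matrix algebra
-/

set_option linter.all false

noncomputable section

namespace Vale.Agent.P022G.Ext

open MvPolynomial
open Vale.Agent.P022F.Gm (GM)

theorem dich {σ I J A : Type} [CommRing A] (e : I → σ) (e' : J → σ)
    (h : ∀ s, (∃ i, s = e i) ∨ ∃ j, s = e' j) {P : MvPolynomial σ A → Prop}
    (hadd : ∀ p q, P p → P q → P (p + q)) (h1 : ∀ p, P (rename e p))
    (h2 : ∀ j p, P (X (e' j) * p)) (p : MvPolynomial σ A) : P p := by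
  have key : ∀ p : MvPolynomial σ A, ∀ q : MvPolynomial I A, P (rename e q * p) := fun p => by
    induction p using MvPolynomial.induction_on with
    | C a =>
      intro q
      rw [← rename_C e, ← map_mul]
      exact h1 _
    | add p p' a b =>
      intro q
      rw [mul_add]
      exact hadd _ _ (a q) (b q)
    | mul_X p s a =>
      intro q
      obtain ⟨i, rfl⟩ | ⟨j, rfl⟩ := h s
      · rw [← rename_X e, mul_comm p, ← mul_assoc, ← map_mul]
        exact a _
      · rw [← mul_assoc, mul_comm]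
        exact h2 _ _
  have := key p 1
  rwa [map_one, one_mul] at this

variable {G B F : Type} [Group G] [CommRing B] [Field F]

/-- an extension over which the off-diagonal entries exist -/
structure Ex (π : B →+* F) (a b : G → B) (x : G → G → B) (u v : G → F) {B' : Type} [CommRing B']
    (κ : B →+* B') (π' : B' →+* F) (β γ : G → B') : Prop where
  inj : Function.Injective κ
  fin : Finite B'
  loc : ∀ w, π' w ≠ 0 → IsUnit w
  res : ∀ w, π' (κ w) = π w
  mul : ∀ g h, β g * γ h = κ (x g h)
  bm : ∀ g h, β (g * h) = κ (a g) * β h + κ (b h) * β g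
  cm : ∀ g h, γ (g * h) = κ (a h) * γ g + κ (b g) * γ h
  rb : ∀ g, π' (β g) = u g
  rc : ∀ g, π' (γ g) = v g
  b0 : ∀ n, (∀ h, x n h = 0) → β n = 0
  c0 : ∀ n, (∀ h, x h n = 0) → γ n = 0

variable {t : G → B} {d : G →* Bˣ} {a b : G → B} {x : G → G → B} {π : B →+* F} {u v : G → F}

/-- the irreducible case -/
theorem ex1 [Finite B] (T : GM t d a b x) (sur : Function.Surjective π)
    (loc : ∀ w, π w ≠ 0 → IsUnit w) (rx : ∀ g h, π (x g h) = u g * v h) {g1 : G} (h1 : u g1 ≠ 0)
    (h2 : v g1 ≠ 0) : ∃ β γ : G → B, Ex π a b x u v (RingHom.id B) π β γ := by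
  obtain ⟨w, hw⟩ := sur (u g1)
  obtain ⟨w', e1⟩ := (loc w (hw ▸ h1)).exists_right_inv
  obtain ⟨y, e2⟩ := (loc (x g1 g1) (by rw [rx]; exact mul_ne_zero h1 h2)).exists_right_inv
  have e3 := congrArg π e1
  have e4 := congrArg π e2
  rw [map_mul, map_one] at e3 e4
  rw [hw] at e3
  rw [rx] at e4
  refine ⟨fun g => x g g1 * (w * y), fun h => x g1 h * w', Function.injective_id, inferInstance,
    loc, fun _ => rfl, fun g h => ?_, fun g h => ?_, fun g h => ?_, fun g => ?_, fun g => ?_,
    fun n e => by rw [e, zero_mul], fun n e => by rw [e, zero_mul]⟩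
  · have := T.sw g g1 g1 h
    show _ = x g h
    linear_combination (w * y * w') * this + (x g h * x g1 g1 * y) * e1 + x g h * e2
  · simp only [T.cl, RingHom.id_apply]; ring
  · simp only [T.cr, RingHom.id_apply]; ring
  · rw [map_mul, map_mul, rx, hw]
    linear_combination u g * e4
  · rw [map_mul, rx]
    linear_combination v g * e3

/-- the split case -/
theorem ex2 [Finite B] (T : GM t d a b x) (loc : ∀ w, π w ≠ 0 → IsUnit w)
    (nil : ∃ n, RingHom.ker π ^ n = ⊥) (rx : ∀ g h, π (x g h) = 0) (N : Subgroup G)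
    [Finite (G ⧸ N)] (hN : ∀ n ∈ N, ∀ g h, x (g * n) h = x g h ∧ x h (g * n) = x h g) :
    ∃ (B' : Type) (_ : CommRing B') (κ : B →+* B') (π' : B' →+* F) (β γ : G → B'),
      Ex π a b x 0 0 κ π' β γ := by
  obtain ⟨ev, v1, v2, v3, v4⟩ := P022R.sec G G B x fun i k j l => T.sw i j k l
  obtain ⟨n, hn⟩ := nil
  let R : Ideal (MvPolynomial (G ⊕ G) B) :=
    { carrier := {p | ∀ q, ev (p * q) = 0}
      zero_mem' := fun q => by rw [zero_mul, map_zero]
      add_mem' := fun {p p'} h h' q => by rw [add_mul, map_add, h, h', add_zero]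
      smul_mem' := fun c p h q => by rw [smul_eq_mul, mul_comm c, mul_assoc, h] }
  have mR : ∀ {p}, (∀ q, ev (p * q) = 0) → Ideal.Quotient.mk R p = 0 := fun h =>
    Ideal.Quotient.eq_zero_iff_mem.2 h
  have vC : ∀ c p, ev (C c * p) = c * ev p := fun c p => by
    rw [C_mul', map_smul, smul_eq_mul]
  have d1 : ∀ s : G ⊕ G, (∃ i, s = Sum.inl i) ∨ ∃ j, s = Sum.inr j := fun s => by
    rcases s with s | s
    exacts [Or.inl ⟨s, rfl⟩, Or.inr ⟨s, rfl⟩]
  have L1 : ∀ (g1 g2 g3 : G) (c2 c3 : B), (∀ h, x g1 h = c2 * x g2 h + c3 * x g3 h) →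
      Ideal.Quotient.mk R (X (Sum.inl g1)) =
        Ideal.Quotient.mk R (C c2) * Ideal.Quotient.mk R (X (Sum.inl g2)) +
        Ideal.Quotient.mk R (C c3) * Ideal.Quotient.mk R (X (Sum.inl g3)) :=
    fun g1 g2 g3 c2 c3 h => by
      rw [← map_mul, ← map_mul, ← map_add, ← sub_eq_zero, ← map_sub]
      refine mR (dich Sum.inl Sum.inr d1 (fun p q a1 a2 => ?_) (fun p => ?_) fun j p => ?_)
      · rw [mul_add, map_add, a1, a2, add_zero]
      · rw [sub_mul, add_mul, mul_assoc, mul_assoc, map_sub, map_add, vC, vC, v3, v3, v3]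
        ring
      · rw [sub_mul, add_mul, mul_assoc, mul_assoc, map_sub, map_add, vC, vC, ← mul_assoc,
          ← mul_assoc, ← mul_assoc, v2, v2, v2, h]
        ring
  have L2 : ∀ (g1 g2 g3 : G) (c2 c3 : B), (∀ h, x h g1 = c2 * x h g2 + c3 * x h g3) →
      Ideal.Quotient.mk R (X (Sum.inr g1)) =
        Ideal.Quotient.mk R (C c2) * Ideal.Quotient.mk R (X (Sum.inr g2)) +
        Ideal.Quotient.mk R (C c3) * Ideal.Quotient.mk R (X (Sum.inr g3)) :=
    fun g1 g2 g3 c2 c3 h => by
      have v2' : ∀ i j p, ev (X (Sum.inr j) * (X (Sum.inl i) * p)) = x i j * ev p :=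
        fun i j p => by rw [← mul_assoc, mul_comm (X (Sum.inr j)), v2]
      rw [← map_mul, ← map_mul, ← map_add, ← sub_eq_zero, ← map_sub]
      refine mR (dich Sum.inr Sum.inl (fun s => (d1 s).symm) (fun p q a1 a2 => ?_) (fun p => ?_)
        fun j p => ?_)
      · rw [mul_add, map_add, a1, a2, add_zero]
      · rw [sub_mul, add_mul, mul_assoc, mul_assoc, map_sub, map_add, vC, vC, v4, v4, v4]
        ring
      · rw [sub_mul, add_mul, mul_assoc, mul_assoc, map_sub, map_add, vC, vC, v2', v2', v2', h]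
        ring
  have P1 : ∀ s k q, ev (X s ^ k * q) ∈ RingHom.ker π ^ k := fun s k => by
    induction k with
    | zero => intro q; rw [pow_zero (RingHom.ker π), Ideal.one_eq_top]; trivial
    | succ k ih =>
      rcases s with s | s
      · refine dich Sum.inl Sum.inr d1 (fun p q a1 a2 => ?_) (fun p => ?_) fun j p => ?_
        · rw [mul_add, map_add]; exact add_mem a1 a2
        · rw [show X (Sum.inl s) ^ (k + 1) * rename Sum.inl p =
            X (Sum.inl s) * rename Sum.inl (X s ^ k * p) by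
              rw [map_mul, map_pow, rename_X]; ring, v3]
          exact zero_mem _
        · rw [show X (Sum.inl s) ^ (k + 1) * (X (Sum.inr j) * p) =
            X (Sum.inl s) * X (Sum.inr j) * (X (Sum.inl s) ^ k * p) by ring, v2, pow_succ']
          exact Ideal.mul_mem_mul (rx _ _) (ih p)
      · refine dich Sum.inr Sum.inl (fun s => (d1 s).symm) (fun p q a1 a2 => ?_) (fun p => ?_)
          fun j p => ?_
        · rw [mul_add, map_add]; exact add_mem a1 a2
        · rw [show X (Sum.inr s) ^ (k + 1) * rename Sum.inr p =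
            X (Sum.inr s) * rename Sum.inr (X s ^ k * p) by
              rw [map_mul, map_pow, rename_X]; ring, v4]
          exact zero_mem _
        · rw [show X (Sum.inr s) ^ (k + 1) * (X (Sum.inl j) * p) =
            X (Sum.inl j) * X (Sum.inr s) * (X (Sum.inr s) ^ k * p) by ring, v2, pow_succ']
          exact Ideal.mul_mem_mul (rx _ _) (ih p)
  have nl : ∀ s, IsNilpotent (Ideal.Quotient.mk R (X s)) := fun s =>
    ⟨n, by rw [← map_pow]; exact mR fun q => Ideal.mem_bot.1 (hn ▸ P1 s n q)⟩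
  have P2 : ∀ p, π (ev p) = π (constantCoeff p) ∧
      IsNilpotent (Ideal.Quotient.mk R p - Ideal.Quotient.mk R (C (constantCoeff p))) := fun p => by
    induction p using MvPolynomial.induction_on with
    | C c =>
      rw [constantCoeff_C, sub_self, ← mul_one (C c), vC, v1, mul_one]
      exact ⟨rfl, IsNilpotent.zero⟩
    | add p q a1 a2 =>
      simp only [map_add]
      rw [a1.1, a2.1, add_sub_add_comm]
      exact ⟨rfl, (Commute.all _ _).isNilpotent_add a1.2 a2.2⟩
    | mul_X p s _ =>
      have := P1 s 1 p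
      rw [pow_one, pow_one, mul_comm] at this
      rw [map_mul constantCoeff, constantCoeff_X, mul_zero, map_zero, map_zero, map_zero, sub_zero,
        map_mul (Ideal.Quotient.mk R)]
      exact ⟨this, (Commute.all _ _).isNilpotent_mul_left (nl s)⟩
  let π' : MvPolynomial (G ⊕ G) B ⧸ R →+* F := Ideal.Quotient.lift R (π.comp constantCoeff)
    fun p hp => by
      have := hp 1
      rw [mul_one] at this
      rw [RingHom.comp_apply, ← (P2 p).1, this, map_zero]
  have z1 : ∀ g g', (∀ h, x g h = x g' h) →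
      Ideal.Quotient.mk R (X (Sum.inl g)) = Ideal.Quotient.mk R (X (Sum.inl g')) := fun g g' h => by
    rw [L1 g g' g' 1 0 fun k => by rw [h]; ring]; simp
  have z2 : ∀ g g', (∀ h, x h g = x h g') →
      Ideal.Quotient.mk R (X (Sum.inr g)) = Ideal.Quotient.mk R (X (Sum.inr g')) := fun g g' h => by
    rw [L2 g g' g' 1 0 fun k => by rw [h]; ring]; simp
  refine ⟨_, inferInstance, (Ideal.Quotient.mk R).comp C, π',
    fun g => Ideal.Quotient.mk R (X (Sum.inl g)), fun g => Ideal.Quotient.mk R (X (Sum.inr g)),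
    (injective_iff_map_eq_zero _).2 fun c hc => ?_, ?_, fun w hw => ?_, fun w => ?_, fun g h => ?_,
    fun g h => L1 _ _ _ _ _ fun k => T.cl g h k, fun g h => L2 _ _ _ _ _ fun k => T.cr k g h,
    fun g => ?_, fun g => ?_, fun m e => ?_, fun m e => ?_⟩
  · have := (Ideal.Quotient.eq_zero_iff_mem.1 hc) 1
    rwa [vC, v1, mul_one] at this
  · have hf : (Set.range fun s : G ⊕ G => Ideal.Quotient.mk R (X s)).Finite := by
      refine (Set.finite_range fun s : (G ⧸ N) ⊕ (G ⧸ N) =>
        Ideal.Quotient.mk R (X (Sum.map Quotient.out Quotient.out s))).subset ?_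
      rintro _ ⟨g | g, rfl⟩ <;> obtain ⟨m, e⟩ := QuotientGroup.mk_out_eq_mul N g
      · exact ⟨Sum.inl g, z1 _ _ fun h => by rw [e]; exact (hN m m.2 g h).1⟩
      · exact ⟨Sum.inr g, z2 _ _ fun h => by rw [e]; exact (hN m m.2 g h).2⟩
    have h1 := Algebra.finite_adjoin_of_finite_of_isIntegral (R := B) hf (by
      rintro _ ⟨s, rfl⟩
      obtain ⟨k, hk⟩ := nl s
      exact ⟨Polynomial.X ^ k, Polynomial.monic_X_pow k, by
        rw [Polynomial.eval₂_X_pow]; exact hk⟩)
    have h2 : Algebra.adjoin B (Set.range fun s : G ⊕ G => Ideal.Quotient.mk R (X s)) = ⊤ := by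
      have := AlgHom.map_adjoin (Ideal.Quotient.mkₐ B R) (Set.range X)
      rw [adjoin_range_X, Algebra.map_top, ← Set.range_comp,
        (AlgHom.range_eq_top _).2 (Ideal.Quotient.mkₐ_surjective B R)] at this
      exact this.symm
    rw [h2] at h1
    have h3 : Finite (⊤ : Subalgebra B (MvPolynomial (G ⊕ G) B ⧸ R)) := Module.finite_of_finite B
    exact Finite.of_surjective _ (Subalgebra.topEquiv (R := B)).surjective
  · obtain ⟨p, rfl⟩ := Ideal.Quotient.mk_surjective w
    have := (P2 p).2.isUnit_add_right_of_commute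
      ((loc _ hw).map ((Ideal.Quotient.mk R).comp C)) (Commute.all _ _)
    rwa [RingHom.comp_apply, sub_add_cancel] at this
  · exact congrArg π (constantCoeff_C _ w)
  · rw [← map_mul, RingHom.comp_apply, ← sub_eq_zero, ← map_sub]
    exact mR fun q => by rw [sub_mul, map_sub, v2, vC, sub_self]
  · exact (congrArg π (constantCoeff_X B _)).trans (map_zero π)
  · exact (congrArg π (constantCoeff_X B _)).trans (map_zero π)
  · show Ideal.Quotient.mk R _ = 0
    rw [L1 m m m 0 0 fun k => by rw [e]; ring]; simp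
  · show Ideal.Quotient.mk R _ = 0
    rw [L2 m m m 0 0 fun k => by rw [e]; ring]; simp

end Vale.Agent.P022G.Ext
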