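import Vale.Agent.P022G.Defs
import Vale.Agent.P022G.Ps.Defs
import Vale.Agent.P022G.Pt.Defs3
import Vale.Agent.P022G.Obs.Defs
import Vale.Agent.P022G.Lb90.Defs

/-!
# P022G: the statements of the Galois side
-/

set_option linter.all false

noncomputable section

namespace Vale.Agent.P022G

open NumberField IsLocalRing MvPowerSeries Filter
open Vale.Agent.P022 Vale.Agent.P022G.R Vale.Agent.P022G.Loc
open Vale.Agent.P027M.S (Inert mx)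
open Vale.Agent.P022D.Sel (M2 IsDec Ginf)
open Vale.Agent.P022D.Core (PS io y1 Coef)
open Vale.Agent.P022E.Loc (Pl)
open Vale.Agent.P022E.GW (Ov Gn)
open Vale.Agent.P022E.As (Tg cc tt dd yy Gw Out2)
open Vale.Agent.P022G.Chain (Pd Cn)
open Vale.Agent.P022G.Ps (HD3)

section defs
variable {O F : Type} [CommRing O] [Field F]

/-- the fixed data, final form -/
structure Cy [IsLocalRing O] (S : Dat O F) (L : Pl O) (X : Finset ℕ) (as : ℕ) : Prop where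
  cx : Cx S L X as
  odd : ∀ (Γ : Type) [Group Γ] [Finite Γ] (f : GQ →* Γ), IsOpen {g : GQ | f g = 1} →
    ∃ m : ℕ, Odd m ∧ f S.g0 ^ m = 1
  ur : ∀ l ∈ L.C, mx S.rb (L.τ l) = 1
  fx : Obs.FX S.rb.ker S.T
  fx1 : Obs.FX ⊤ S.T

/-- the ideals of the ring of symbols which belong to pseudo objects of level `Q` -/
def Gp (S : Dat O F) (L : Pl O) (Q : Finset ℕ) (r : ℕ) (a : Ideal (Tg O)) : Prop :=
  ∃ Z : PO S (Tg O ⧸ a), Z.Std (Ideal.Quotient.mk a) ∧ Z.Cl L Q ∧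
    (∀ i, Z.π (Ideal.Quotient.mk a (yy i)) = 0) ∧ ∀ i, r ≤ i → yy i ∈ a

/-- the entries as polynomials in the traces -/
def aT (S : Dat O F) (L : Pl O) (g : GQ) : Tg O :=
  P022D.Gma.ent tt S.g0 (cc (L.r S.g0 1 1)) (cc (Ring.inverse (L.r S.g0 0 0 - L.r S.g0 1 1))) g

def dT (S : Dat O F) (L : Pl O) (g : GQ) : Tg O := tt g - aT S L g

def xT (S : Dat O F) (L : Pl O) (g h : GQ) : Tg O := aT S L (g * h) - aT S L g * aT S L h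

/-- the values of the invariant symbols in `Tg` -/
def vT (S : Dat O F) (L : Pl O) {ι : Type} (rc : ι → M2 O) (γ : ι → GQ) : Sy ι → Tg O :=
  gv rc MvPolynomial.C (fun i => aT S L (γ i)) (fun i => dT S L (γ i))
    fun i k => xT S L (γ i) (γ k)

variable {S : Dat O F} {L : Pl O}

/-- the ring which acts on the modules -/
abbrev PP (O ι : Type) (r : ℕ) : Type := PS O (Sy (ι ⊕ Fin r) ⊕ Fin r)

/-- the values of the variables of `PP` in `Tg` -/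
def Gs.vP {κ ι : Type} {gk : κ → GQ} (G : Gs S L gk ι) {r : ℕ} (τ' : Fin r → GQ) :
    Sy (ι ⊕ Fin r) ⊕ Fin r → Tg O :=
  Sum.elim (vT S L (G.rcr r) (Sum.elim G.γ τ')) fun i => yy i

/-- the values of the variables of `PP` in the ring of level zero -/
def Gs.jv {κ ι : Type} {gk : κ → GQ} (G : Gs S L gk ι) (r : ℕ) :
    Sy (ι ⊕ Fin r) ⊕ Fin r → PS O (Sy ι) :=
  Sum.elim (gv (G.rcr r) C (Sum.elim (aS G.rc id) fun _ => 1) (Sum.elim (dS G.rc id) fun _ => 1)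
    fun i k => Sum.elim (fun i' => Sum.elim (fun k' => xS G.rc id i' k') (fun _ => 0) k)
      (fun _ => 0) i) fun _ => 0

variable {β : Type} {τ ι' : β → Type} (K : Kx O β τ ι' L.C) {ι : Type} (G : Gs S L K.g ι)

/-- the framed rings -/
abbrev S0 (O : Type) (τ : β → Type) [CommRing O] (L : Pl O) (ι : Type) (T : Finset ℕ) (r : ℕ) :
    Type := PS O (V0 τ L ι T r)

abbrev S1 (O : Type) (τ : β → Type) [CommRing O] (L : Pl O) (ι : Type) (T : Finset ℕ) (r : ℕ) :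
    Type := PS O (V0 τ L ι T r ⊕ Fin r)

/-- the symbols inside `S0` -/
def ψ0 (S : Dat O F) (L : Pl O) (τ : β → Type) (ι : Type) (r : ℕ) :
    PS O (Sy (ι ⊕ Fin r)) →+* S0 O τ L ι S.T r :=
  (MvPowerSeries.rename (R := O) (e0 r : Sy (ι ⊕ Fin r) ↪ V0 τ L ι S.T r) : _ →ₐ[O] _)

/-- the symbols and the `y` inside `S1` -/
def ψ1 (S : Dat O F) (L : Pl O) (τ : β → Type) (ι : Type) (r : ℕ) :
    PP O ι r →+* S1 O τ L ι S.T r :=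
  (MvPowerSeries.rename (R := O) ((e0 r : Sy (ι ⊕ Fin r) ↪ V0 τ L ι S.T r).sumMap
    (Function.Embedding.refl (Fin r))) : _ →ₐ[O] _)

/-- the data at a curve -/
structure Pc (r s : ℕ) (V : Type) [CommRing V] where
  t : V
  j : O →+* V
  ρ : GQ →* GL (Fin 2) V
  θA : PS O (Sy ι) →+* V
  θ : S1 O τ L ι S.T r →+* V
  jr : PP O ι r →+* PS O (Sy ι)
  U : Ultrafilter ℕ
  q : ℕ → Fin r → ℕ
  τ' : ℕ → Fin r → GQ
  τq : ℕ → Fin r → GQ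
  kn : ℕ → Fin s → S0 O τ L ι S.T r
  k : Fin s → S0 O τ L ι S.T r
  col : Fin s → V0 τ L ι S.T r
  tn : ℕ → Fin r → PS O (Sy (ι ⊕ Fin r))
  dn : ℕ → Fin r → PS O (Sy (ι ⊕ Fin r))
  ta : Fin r → PS O (Sy (ι ⊕ Fin r))
  da : Fin r → PS O (Sy (ι ⊕ Fin r))
  G' : Gs S L K.g ι

variable {K} {r s : ℕ} {V : Type} [CommRing V]

/-- the blocks in `S0` -/
abbrev DD (K : Kx O β τ ι' L.C) (ι : Type) (T : Finset ℕ) (r : ℕ) :=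
  K.D (fun γ => (γ : ℕ)) (Rs (ι ⊕ Fin r) T)

/-- the hypotheses on the data at a curve -/
structure Pc.Ok [IsLocalRing O] [Fintype β] [∀ b, Fintype (τ b)] [Fintype ι]
    (Y : Pc (S := S) (ι := ι) K r s V) : Prop where
  crv : Y.G'.Crv Y.t Y.j Y.ρ Y.θA
  irr : Y.G'.Irr (RingHom.ker Y.θA)
  cf : Cf K Y.G' r Y.j Y.ρ (Y.θ.comp (io O _ r))
  y0 : ∀ i, Y.θ (y1 O _ i) = 0
  jr : Hm C (Y.G'.jv r) Y.jr
  hU : (Y.U : Filter ℕ) ≤ atTop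
  inj : ∀ n, Function.Injective (Y.q n)
  gn : ∀ n i, Y.q n i ∉ S.T ∧ ∃ P, Ov (Y.q n i) P ∧ Gn (Y.q n i) P (Y.τ' n i)
  ine : ∀ n i, ∃ P, Ov (Y.q n i) P ∧ Inert P (Y.τq n i)
  kn : ∀ n a, Y.kn n a ∈ Kn K Y.G' r (Y.q n) (Y.τ' n)
  cvk : ∀ a, P022D.PA.Cv (Y.U : Filter ℕ) (fun n => Y.kn n a) (Y.k a)
  col : ∀ a, Y.col a ∉ Set.range Sum.inl
  mn : Y.θ (io O _ r (Rel.mn Y.k Y.col)) ≠ 0
  cnt : s + (2 * r + 1) = Fintype.card (Rs (ι ⊕ Fin r) S.T)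
  tn : ∀ n i (B : Type) [CommRing B] (Z : PO S B) (ψ : PS O (Sy (ι ⊕ Fin r)) →+* B),
    Z.Cl L (Finset.univ.image (Y.q n)) →
    Hm Z.ι (Z.val (Y.G'.rcr r) (Sum.elim Y.G'.γ (Y.τ' n))) ψ →
    ψ (Y.tn n i) = Z.t (Y.τq n i) ∧ ψ (Y.dn n i) = Z.d (Y.τq n i)
  cvt : ∀ i, P022D.PA.Cv (Y.U : Filter ℕ) (fun n => Y.tn n i) (Y.ta i)
  cvd : ∀ i, P022D.PA.Cv (Y.U : Filter ℕ) (fun n => Y.dn n i) (Y.da i)

open Classical in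
/-- the ring data at a curve -/
def Pc.rd (Y : Pc (S := S) (ι := ι) K r s V) (ϖ : O) :
    Pt.RD (PP O ι r) (S0 O τ L ι S.T r) (S1 O τ L ι S.T r) L.C (Fin r) where
  ψ := ψ1 S L τ ι r
  𝔭 := RingHom.ker Y.θ
  𝔱 := (t0 K Y.G' r).map (io O _ r)
  𝔞 := rk1 (Y.G'.rcr r) Sum.inl ⊔ Ideal.span
    (Set.range (fun i => xS (Y.G'.rcr r) Sum.inl (Sum.inl Y.G'.i0) i) ∪
      Set.range fun i => xS (Y.G'.rcr r) Sum.inl i (Sum.inl Y.G'.i0))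
  𝔢 := Y.G'.aP.comap Y.jr
  E := Rel.IK (DD K ι S.T r) Y.k
  π := C ϖ
  π₀ := C ϖ
  y := y1 O _
  α := fun i => ψ0 S L τ ι r (Y.ta i) - 2
  β := fun i => 1 - ψ0 S L τ ι r (Y.ta i) + ψ0 S L τ ι r (Y.da i)
  𝔯 := Ideal.span (Set.range fun i => y1 O _ i ^ 2 -
    io O _ r (ψ0 S L τ ι r (Y.ta i) - 2) * y1 O _ i +
    io O _ r (1 - ψ0 S L τ ι r (Y.ta i) + ψ0 S L τ ι r (Y.da i)))
  τP := fun l => tauP (Y.G'.rcr r) Sum.inl (Sum.inl (Y.G'.iτ l))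
  DP := fun l => trS (Y.G'.rcr r) Sum.inl (Sum.inl (Y.G'.iφ l))
  IP := IPt (Y.G'.rcr r) Sum.inl (fun l => Sum.inl (Y.G'.iτ l)) fun l => Sum.inl (Y.G'.iφ l)
  τl := fun l => Set.range fun p : Fin 2 × Fin 2 => ((DD K ι S.T r).T l - 1) p.1 p.2
  Dl := fun l => ((DD K ι S.T r).Φ l).trace
  IJ := fun J => Ideal.span {u | (∃ l ∈ J, u = ((DD K ι S.T r).T l).trace ∨
    u = ((DD K ι S.T r).Φ l).trace ∨ u = ((DD K ι S.T r).T l * (DD K ι S.T r).Φ l).trace) ∨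
    ∃ l, l ∉ J ∧ ∃ a b, u = ((DD K ι S.T r).T l - 1) a b}
  a := 4 * S.T.card - 1
  d := 4 * S.T.card + 2 * r + 1

/-- an auxiliary prime with residually regular Frobenius elements -/
structure Ar (S : Dat O F) (A : Finset ℕ) (n q : ℕ) : Prop where
  prime : q.Prime
  out : q ∉ A
  one : 2 ^ n ∣ q - 1
  two : ∃ z : ZMod q, z ^ 2 ^ n = 2
  reg : ∀ φ, IsFrob q φ → (mx S.rb φ).trace ≠ 0

end defs

/-- the common context of the rows -/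
def All (Φ : ∀ (O F : Type) [CommRing O] [IsDomain O] [IsDiscreteValuationRing O] [Coef O]
    [Field F] [Finite F] [CharP F 2] (ϖ : O) (S : Dat O F) (L : Pl O) (X : Finset ℕ) (as : ℕ)
    (β : Type) (τ ι' : β → Type) [Fintype β] [∀ b, Fintype (τ b)] [∀ b, Fintype (ι' b)]
    (K : Kx O β τ ι' L.C) (ι : Type) [Fintype ι], Gs S L K.g ι → Prop) : Prop :=
  ∀ (O F : Type) [CommRing O] [IsDomain O] [IsDiscreteValuationRing O] [Coef O]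
    [Field F] [Finite F] [CharP F 2] (ϖ : O) (S : Dat O F) (L : Pl O) (X : Finset ℕ) (as : ℕ)
    (β : Type) (τ ι' : β → Type) [Fintype β] [∀ b, Fintype (τ b)] [∀ b, Fintype (ι' b)]
    (K : Kx O β τ ι' L.C) (ι : Type) [Fintype ι] (G : Gs S L K.g ι),
    Irreducible ϖ → Cy S L X as → K.Ok L S ϖ → Φ O F ϖ S L X as β τ ι' K ι G

/-- the context at a curve -/
def AllC (Φ : ∀ (O F : Type) [CommRing O] [IsDomain O] [IsDiscreteValuationRing O] [Coef O]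
    [Field F] [Finite F] [CharP F 2] (ϖ : O) (S : Dat O F) (L : Pl O) (X : Finset ℕ)
    (β : Type) (τ ι' : β → Type) [Fintype β] [∀ b, Fintype (τ b)] [∀ b, Fintype (ι' b)]
    (K : Kx O β τ ι' L.C) (ι : Type) [Fintype ι] (r s : ℕ) (V : Type) [CommRing V],
    Pc (S := S) (ι := ι) K r s V → Prop) : Prop :=
  All fun O F _ _ _ _ _ _ _ ϖ S L X as β τ ι' _ _ _ K ι _ G =>
    ∀ (r s : ℕ) (V : Type) [CommRing V] [IsDomain V] [IsDiscreteValuationRing V] [CharP V 2]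
      [IsAdicComplete (maximalIdeal V) V] [Finite (ResidueField V)]
      (Y : Pc (S := S) (ι := ι) K r s V), Irreducible Y.t → Y.G' = G → Y.Ok →
      Φ O F ϖ S L X β τ ι' K ι r s V Y

/-! ### generators and pseudo objects -/

def GENS : Prop := ∀ (O F : Type) [CommRing O] [IsLocalRing O] [Field F] [Finite F] [CharP F 2]
  (S : Dat O F) (L : Pl O) (κ : Type) [Fintype κ] (gk : κ → GQ), OkG L S →
  ∃ (ι : Type) (_ : Fintype ι), Nonempty (Gs S L gk ι)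

/-- the entries of a pseudo object are the fixed polynomials in the traces -/
def POV : Prop := All fun O F _ _ _ _ _ _ _ ϖ S L X as β τ ι' _ _ _ K ι _ G =>
  ∀ (B : Type) [CommRing B] (Z : PO S B) (u : Tg O →+* B), Z.Std u →
    (∀ g, u (aT S L g) = Z.a g ∧ u (dT S L g) = Z.b g) ∧ ∀ g h, u (xT S L g h) = Z.x g h

/-- good ideals belong to pseudo objects -/
def GPW : Prop := All fun O F _ _ _ _ _ _ _ ϖ S L X as β τ ι' _ _ _ K ι _ G =>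
  ∀ (Q : Finset ℕ) (r : ℕ) (a : Ideal (Tg O)), a ≠ ⊤ → Gw ϖ L S.T Q r a → Gp S L Q r a

/-- kernels of points and intersections -/
def GPO : Prop := All fun O F _ _ _ _ _ _ _ ϖ S L X as β τ ι' _ _ _ K ι _ G =>
  (∀ (Q : Finset ℕ) (r : ℕ) (B : Type) [CommRing B] (Z : PO S B) (u : Tg O →+* B), Z.Std u →
    Z.Cl L Q → (∀ i, Z.π (u (yy i)) = 0) → (∀ i, r ≤ i → u (yy i) = 0) →
    Gp S L Q r (RingHom.ker u)) ∧
  (∀ Q r a b, Gp S L Q r a → Gp S L Q r b → Gp S L Q r (a ⊓ b)) ∧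
  ∀ (Q : Finset ℕ) (B : Type) [CommRing B] (Y : Obj S B), Ty (ClG L S) Q B Y →
    ∃ Z : PO S B, Z.Cl L Q ∧ Z.ι = Y.ι ∧ Z.π = Y.π ∧ (∀ g, Z.t g = (Y.ρ g).trace ∧
      (Z.d g : B) = (Y.ρ g).det ∧ Z.a g = Y.ρ g 0 0 ∧ Z.b g = Y.ρ g 1 1) ∧
      ∀ g h, Z.x g h = Y.ρ g 0 1 * Y.ρ h 1 0

/-- the traces are generated by the symbols -/
def GPG : Prop := All fun O F _ _ _ _ _ _ _ ϖ S L X as β τ ι' _ _ _ K ι _ G =>
  ∀ (r : ℕ) (q : Fin r → ℕ) (τ' : Fin r → GQ),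
    (∀ i, q i ∉ S.T ∧ ∃ P, Ov (q i) P ∧ Gn (q i) P (τ' i)) →
    ∀ (B : Type) [CommRing B] (Z : PO S B), Z.Cl L (Finset.univ.image q) →
    ∀ R : Subring B, (∀ o, Z.ι o ∈ R) → (∀ s, Z.val (G.rcr r) (Sum.elim G.γ τ') s ∈ R) →
      ∀ g h, Z.t g ∈ R ∧ (Z.d g : B) ∈ R ∧ Z.a g ∈ R ∧ Z.b g ∈ R ∧ Z.x g h ∈ R

/-- universal traces -/
def LAM : Prop := All fun O F _ _ _ _ _ _ _ ϖ S L X as β τ ι' _ _ _ K ι _ G =>
  ∀ (r : ℕ) (q : Fin r → ℕ) (τ' : Fin r → GQ),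
    (∀ i, q i ∉ S.T ∧ ∃ P, Ov (q i) P ∧ Gn (q i) P (τ' i)) →
    ∃ tu du : GQ → PS O (Sy (ι ⊕ Fin r)), ∀ (B : Type) [CommRing B] (Z : PO S B)
      (ψ : PS O (Sy (ι ⊕ Fin r)) →+* B), Z.Cl L (Finset.univ.image q) →
      Hm Z.ι (Z.val (G.rcr r) (Sum.elim G.γ τ')) ψ → ∀ g, ψ (tu g) = Z.t g ∧ ψ (du g) = Z.d g

/-- pseudo objects are objects up to the products of off-diagonal entries -/
def KDEL : Prop := All fun O F _ _ _ _ _ _ _ ϖ S L X as β τ ι' _ _ _ K ι _ G =>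
  ∀ (r : ℕ) (q : Fin r → ℕ) (τ' : Fin r → GQ),
    (∀ i, q i ∉ S.T ∧ ∃ P, Ov (q i) P ∧ Gn (q i) P (τ' i)) →
    ∀ (B : Type) [CommRing B] (Z : PO S B) (ψ : PS O (Sy (ι ⊕ Fin r)) →+* B),
      Z.Cl L (Finset.univ.image q) → Hm Z.ι (Z.val (G.rcr r) (Sum.elim G.γ τ')) ψ →
      ∀ i k, ∀ f ∈ Kn K G r q τ', ψ0 S L τ ι r (xS (G.rcr r) id i k) * f ∈
        (RingHom.ker ψ).map (ψ0 S L τ ι r) ⊔ t0 K G r

/-- the same at level zero, between the two ideals of `A` -/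
def KDA : Prop := All fun O F _ _ _ _ _ _ _ ϖ S L X as β τ ι' _ _ _ K ι _ G =>
  G.aP ≤ G.aG ∧ ∀ i k, ∀ f ∈ G.aG, xS G.rc id i k * f ∈ G.aP

/-! ### curves -/

def CRV : Prop := All fun O F _ _ _ _ _ _ _ ϖ S L X as β τ ι' _ _ _ K ι _ G =>
  ∀ p : Ideal (PS O (Sy ι)), Chain.Cv p → G.aP ≤ p → C ϖ ∈ p →
    ∃ (V : Type) (_ : CommRing V) (_ : IsDomain V) (_ : IsDiscreteValuationRing V) (_ : CharP V 2)
      (_ : IsAdicComplete (maximalIdeal V) V) (_ : Finite (ResidueField V)) (t : V) (j : O →+* V)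
      (ρ : GQ →* GL (Fin 2) V) (θ : PS O (Sy ι) →+* V),
      Irreducible t ∧ G.Crv t j ρ θ ∧ RingHom.ker θ = p

def NICE : Prop := All fun O F _ _ _ _ _ _ _ ϖ S L X as β τ ι' _ _ _ K ι _ G =>
  ∀ (V : Type) [CommRing V] [IsDomain V] [IsDiscreteValuationRing V] [CharP V 2]
    [IsAdicComplete (maximalIdeal V) V] [Finite (ResidueField V)] (t : V) (j : O →+* V)
    (ρ : GQ →* GL (Fin 2) V) (θ : PS O (Sy ι) →+* V), Irreducible t → G.Crv t j ρ θ →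
    Chain.Cv (RingHom.ker θ) → (∀ h : as ∈ L.C, θ (G.fr ⟨as, h⟩) = 0) →
    _root_.P022G.Sel.Nice t ρ S.T L.D ∧ _root_.P022G.Lb90.Shp t ρ ∧ G.Irr (RingHom.ker θ)

/-- the framed curve satisfies all relations -/
def COBJ : Prop := All fun O F _ _ _ _ _ _ _ ϖ S L X as β τ ι' _ _ _ K ι _ G =>
  ∀ (V : Type) [CommRing V] [IsDomain V] [IsDiscreteValuationRing V] [CharP V 2]
    [IsAdicComplete (maximalIdeal V) V] [Finite (ResidueField V)] (t : V) (j : O →+* V)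
    (ρ : GQ →* GL (Fin 2) V) (θ : PS O (Sy ι) →+* V), Irreducible t → G.Crv t j ρ θ →
    G.aG ≤ RingHom.ker θ ∧ ∀ (r : ℕ) (q : Fin r → ℕ) (τ' : Fin r → GQ),
      (∀ i, q i ∉ S.T ∧ ∃ P, Ov (q i) P ∧ Gn (q i) P (τ' i)) →
      ∀ θ0 : S0 O τ L ι S.T r →+* V, Cf K G r j ρ θ0 → Kn K G r q τ' ≤ RingHom.ker θ0

/-! ### the tangent space at a curve -/

/-- a point of the framed ring which satisfies the relations is an object -/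
def REPO : Prop := All fun O F _ _ _ _ _ _ _ ϖ S L X as β τ ι' _ _ _ K ι _ G =>
  ∀ (r : ℕ) (q : Fin r → ℕ) (τ' : Fin r → GQ),
    (∀ i, q i ∉ S.T ∧ ∃ P, Ov (q i) P ∧ Gn (q i) P (τ' i)) →
    ∀ (B : Type) [CommRing B] [Finite B] (π : B →+* F) (ψ : S0 O τ L ι S.T r →+* B),
      (∀ u, π u ≠ 0 → IsUnit u) → (∀ f, π (ψ f) = S.red (constantCoeff f)) →
      Kn K G r q τ' ≤ RingHom.ker ψ →
      ∃ Y : Obj S B, Y.π = π ∧ Ty (ClG L S) (Finset.univ.image q) B Y ∧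
        Hm Y.ι (v0 K G r Y.ι Y.ρ Y.α Y.β τ') ψ

/-- the coordinates determine the local representations -/
def LDET : Prop := All fun O F _ _ _ _ _ _ _ ϖ S L X as β τ ι' _ _ _ K ι _ G =>
  ∀ (B : Type) [CommRing B] (Y Y' : Obj S B), ClG L S B Y → ClG L S B Y' → Y.ι = Y'.ι →
    Y.π = Y'.π → K.crd L S B Y = K.crd L S B Y' →
    ∀ l ∈ S.T, ∀ g ∈ L.D l, lr Y l g = lr Y' l g

/-- the vectors killed by the Jacobian rows are relative tangent vectors -/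
def TANV : Prop := All fun O F _ _ _ _ _ _ _ ϖ S L X as β τ ι' _ _ _ K ι _ G =>
  ∀ (V : Type) [CommRing V] [IsDomain V] [IsDiscreteValuationRing V] [CharP V 2]
    [IsAdicComplete (maximalIdeal V) V] [Finite (ResidueField V)] (t : V) (j : O →+* V)
    (ρ : GQ →* GL (Fin 2) V) (θ : PS O (Sy ι) →+* V), Irreducible t → G.Crv t j ρ θ →
    ∀ (r : ℕ) (q : Fin r → ℕ) (τ' : Fin r → GQ),
      (∀ i, q i ∉ S.T ∧ ∃ P, Ov (q i) P ∧ Gn (q i) P (τ' i)) →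
      ∀ θ0 : S0 O τ L ι S.T r →+* V, Cf K G r j ρ θ0 → ∀ N : ℕ,
      (_root_.P022G.Sel.TanS (_root_.P022G.Sel.rd (_root_.P022G.Sel.tI t N) ρ) S.T
        (Finset.univ.image q) L.D).Finite →
      Nat.card {v : Rs (ι ⊕ Fin r) S.T → V ⧸ _root_.P022G.Sel.tI t N //
          ∀ f : Kn K G r q τ', ∑ z, Ideal.Quotient.mk (_root_.P022G.Sel.tI t N)
            (θ0 (pderiv O (Sum.inr z) f.1)) * v z = 0} *
        Nat.card (V ⧸ _root_.P022G.Sel.tI t N) ^ 4 ≤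
      Nat.card (_root_.P022G.Sel.TanS (_root_.P022G.Sel.rd (_root_.P022G.Sel.tI t N) ρ) S.T
        (Finset.univ.image q) L.D)

/-- **the data at a nice curve exist**; `τq` is chosen after `q` -/
def PCEX : Prop := All fun O F _ _ _ _ _ _ _ ϖ S L X as β τ ι' _ _ _ K ι _ G =>
  ∀ (V : Type) [CommRing V] [IsDomain V] [IsDiscreteValuationRing V] [CharP V 2]
    [IsAdicComplete (maximalIdeal V) V] [Finite (ResidueField V)] (t : V) (j : O →+* V)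
    (ρ : GQ →* GL (Fin 2) V) (θ : PS O (Sy ι) →+* V), Irreducible t → G.Crv t j ρ θ →
    _root_.P022G.Sel.Nice t ρ S.T L.D → _root_.P022G.Lb90.Shp t ρ → G.Irr (RingHom.ker θ) →
    ∃ r : ℕ, ∀ (n₀ : ℕ) (A : Finset ℕ), ∃ q : ℕ → Fin r → ℕ,
      (∀ n, Function.Injective (q n) ∧ ∀ i, Ar S (A ∪ S.T) (n + n₀) (q n i)) ∧
      ∀ τq : ℕ → Fin r → GQ, (∀ n i, ∃ P, Ov (q n i) P ∧ Inert P (τq n i)) →
        ∃ (s : ℕ) (Y : Pc (S := S) (ι := ι) K r s V), Y.Ok ∧ Y.G' = G ∧ Y.t = t ∧ Y.θA = θ ∧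
          Y.q = q ∧ Y.τq = τq

/-! ### the rings at a curve -/

def RCOV : Prop := AllC fun O F _ _ _ _ _ _ _ ϖ S L X β τ ι' _ _ _ K ι _ r s V _ Y =>
  letI : Algebra (S0 O τ L ι S.T r) (S1 O τ L ι S.T r) := (io O _ r).toAlgebra
  P022D.PA.Cov _ _ (Y.rd ϖ).y (Y.rd ϖ).α (Y.rd ϖ).β (Y.rd ϖ).𝔯 ∧ (Y.rd ϖ).𝔱 ≤ (Y.rd ϖ).𝔭 ∧
    (Y.rd ϖ).𝔢 ≤ (Y.rd ϖ).p0 ∧ (Y.rd ϖ).p0 = (RingHom.ker Y.θA).comap Y.jr ∧
    Function.Surjective Y.jr ∧ Y.θ (C ϖ) = 0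

def RFL : Prop := AllC fun O F _ _ _ _ _ _ _ ϖ S L X β τ ι' _ _ _ K ι _ r s V _ Y =>
  Pt.Pur (Y.rd ϖ).ψ (Y.rd ϖ).𝔞 (Y.rd ϖ).𝔱 (Y.rd ϖ).𝔭 ∧
    Pt.Tf (Y.rd ϖ).ψ (Y.rd ϖ).𝔞 (Y.rd ϖ).𝔱 (Y.rd ϖ).𝔭 (Y.rd ϖ).π

def RUP : Prop := AllC fun O F _ _ _ _ _ _ _ ϖ S L X β τ ι' _ _ _ K ι _ r s V _ Y =>
  ∀ η : Ideal (PP O ι r), η.IsPrime → (Y.rd ϖ).𝔞 ≤ η → η ≤ (Y.rd ϖ).p0 →
    ∃ η' : Ideal (S1 O τ L ι S.T r), η'.IsPrime ∧ η' ≤ (Y.rd ϖ).𝔭 ∧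
      η.map (Y.rd ϖ).ψ ⊔ (Y.rd ϖ).𝔱 ≤ η' ∧
      (((Y.rd ϖ).a : ℕ) : WithBot ℕ∞) + ringKrullDim (PP O ι r ⧸ η) ≤
        ringKrullDim (S1 O τ L ι S.T r ⧸ η')

/-- the equations `τ_a = 1` at the primes of `X'` -/
def EU {O : Type} [CommRing O] {L : Pl O} {β : Type} {τ ι' : β → Type} (K : Kx O β τ ι' L.C)
    (ι : Type) (T : Finset ℕ) (r : ℕ) (X' : Finset ℕ) : Ideal (S0 O τ L ι T r) :=
  Ideal.span {u | ∃ l : L.C, (l : ℕ) ∈ X' ∧ ∃ a b, u = ((DD K ι T r).T l - 1) a b}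

/-- level zero; also for ideals which contain the equations `τ_a = 1` -/
def RGAL0 : Prop := AllC fun O F _ _ _ _ _ _ _ ϖ S L X β τ ι' _ _ _ K ι _ r s V _ Y =>
  letI : Algebra (S0 O τ L ι S.T r) (S1 O τ L ι S.T r) := (io O _ r).toAlgebra
  (Y.rd ϖ).Gal (Y.rd ϖ).E (Y.rd ϖ).𝔢 ∧ ∀ 𝔟 : Ideal (PP O ι r), (Y.rd ϖ).𝔢 ≤ 𝔟 →
    (∀ l : L.C, (l : ℕ) ∈ X → (Y.rd ϖ).τP l ⊆ 𝔟) →
    (Y.rd ϖ).Gal ((Y.rd ϖ).E ⊔ EU K ι S.T r X) 𝔟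

/-- the patched modules; `W` is an additional property of the ideals -/
def RGAL : Prop := AllC fun O F _ _ _ _ _ _ _ ϖ S L X β τ ι' _ _ _ K ι _ r s V _ Y =>
  letI : Algebra (S0 O τ L ι S.T r) (S1 O τ L ι S.T r) := (io O _ r).toAlgebra
  ∀ [P022D.PA.Base (PP O ι r)] (N : ℕ → Type) [∀ n, AddCommGroup (N n)]
    [∀ n, Module (PP O ι r) (N n)] (W : Ideal (Tg O) → Prop),
    (∀ n k : ℕ, ∃ a : Ideal (Tg O), Gp S L (Finset.univ.image (Y.q n)) r a ∧ W a ∧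
      (∀ i, dd (Y.τq n i) - (1 + yy i) * (tt (Y.τq n i) - (1 + yy i)) ∈ a) ∧
      ∀ Ψ : PP O ι r →+* Tg O ⧸ a, Hm ((Ideal.Quotient.mk a).comp MvPolynomial.C)
        (fun z => Ideal.Quotient.mk a (Y.G'.vP (Y.τ' n) z)) Ψ →
        RingHom.ker Ψ ≤ Module.annihilator (PP O ι r) (N n) ⊔ maximalIdeal (PP O ι r) ^ k) →
    (Y.rd ϖ).Gal (Y.rd ϖ).E (Pt.An Y.U N) ∧
    (∀ l : L.C, (∀ a, W a → tt (L.τ l) ∈ a) →
      (Y.rd ϖ).Gal ((Y.rd ϖ).E ⊔ Ideal.span {((DD K ι S.T r).T l).trace}) (Pt.An Y.U N)) ∧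
    ((∀ a, W a → ∀ l ∈ X, ∀ g, tt (g * L.τ l) - tt g ∈ a) →
      (Y.rd ϖ).Gal ((Y.rd ϖ).E ⊔ EU K ι S.T r X) (Pt.An Y.U N))

def RLOC : Prop := AllC fun O F _ _ _ _ _ _ _ ϖ S L X β τ ι' _ _ _ K ι _ r s V _ Y =>
  letI : Algebra (S0 O τ L ι S.T r) (S1 O τ L ι S.T r) := (io O _ r).toAlgebra
  ∀ 𝔮, (Y.rd ϖ).Pn 𝔮 →
    ((Y.rd ϖ).𝔢.map (Y.rd ϖ).ψ ≤ 𝔮 → ∀ i, (Y.rd ϖ).y i ∈ 𝔮 ∧ io O _ r ((Y.rd ϖ).α i) ∈ 𝔮 ∧
      io O _ r ((Y.rd ϖ).β i) ∈ 𝔮) ∧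
    (∀ l, (∀ u ∈ (Y.rd ϖ).τP l, (Y.rd ϖ).ψ u ∈ 𝔮) → ∀ u ∈ (Y.rd ϖ).τl l, io O _ r u ∈ 𝔮) ∧
    (∀ l, (Y.rd ϖ).ψ ((Y.rd ϖ).DP l) ∈ 𝔮 → io O _ r ((Y.rd ϖ).Dl l) ∈ 𝔮) ∧
    ∀ J, (Y.rd ϖ).IP J ≤ 𝔮.comap (Y.rd ϖ).ψ ↔ (Y.rd ϖ).IJ J ≤ 𝔮.comap (io O _ r)

open Classical in
/-- the multiplicities outside `X` -/
def mX {O : Type} [CommRing O] {L : Pl O} {β : Type} {τ ι' : β → Type} (K : Kx O β τ ι' L.C)
    (X : Finset ℕ) (J : Finset L.C) : ℕ :=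
  ∏ l ∈ Finset.univ.filter (fun l : L.C => (l : ℕ) ∉ X),
    if l ∈ J then 2 ^ K.a l + 2 ^ K.a' l else 2 ^ (K.a l + 1)

open Classical in
def RCA : Prop := AllC fun O F _ _ _ _ _ _ _ ϖ S L X β τ ι' _ _ _ K ι _ r s V _ Y =>
  letI : Algebra (S0 O τ L ι S.T r) (S1 O τ L ι S.T r) := (io O _ r).toAlgebra
  (∀ η, (Y.rd ϖ).Tp η →
    (∀ 𝔮 : Ideal (S0 O τ L ι S.T r), 𝔮.IsPrime → 𝔮 ≤ (Y.rd ϖ).p1 → (Y.rd ϖ).E ≤ 𝔮 →
      (Y.rd ϖ).π₀ ∈ 𝔮 → (Y.rd ϖ).IJ (P022D.Core.ty (Y.rd ϖ).τl η) ≤ 𝔮 → η ≤ 𝔮) ∧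
    (Y.rd ϖ).IJ (P022D.Core.ty (Y.rd ϖ).τl η) ≤ η ∧
    ∀ l, l ∉ P022D.Core.ty (Y.rd ϖ).τl η → (Y.rd ϖ).Dl l ∉ η) ∧
  ∀ (J : Finset L.C) (a : L.C), (a : ℕ) ∈ X → a ∉ J → (Y.rd ϖ).IJ J ≤ (Y.rd ϖ).p1 →
    ∀ η, (Y.rd ϖ).Tp η → P022D.Core.ty (Y.rd ϖ).τl η = insert a J →
    ∀ 𝔮 : Ideal (S0 O τ L ι S.T r), 𝔮.IsPrime → 𝔮 ≤ η →
      (Y.rd ϖ).E ⊔ Ideal.span {((DD K ι S.T r).T a).trace} ≤ 𝔮 → (Y.rd ϖ).π₀ ∉ 𝔮 →
      ∃ η', (Y.rd ϖ).Tp η' ∧ P022D.Core.ty (Y.rd ϖ).τl η' = J ∧ 𝔮 ≤ η'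

def RFIN : Prop := AllC fun O F _ _ _ _ _ _ _ ϖ S L X β τ ι' _ _ _ K ι _ r s V _ Y =>
  letI : Algebra (S0 O τ L ι S.T r) (S1 O τ L ι S.T r) := (io O _ r).toAlgebra
  (∀ (η : Ideal (S0 O τ L ι S.T r)) [η.IsPrime], (Y.rd ϖ).Tp η →
    (Y.rd ϖ).E ⊔ EU K ι S.T r X ≤ η →
    P022D.PA.ln η (S0 O τ L ι S.T r ⧸ ((Y.rd ϖ).E ⊔ EU K ι S.T r X ⊔ Ideal.span {(Y.rd ϖ).π₀})) ≤
      (mX K X (P022D.Core.ty (Y.rd ϖ).τl η) : ℕ)) ∧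
  ∀ Z : Ideal (S0 O τ L ι S.T r), Z.IsPrime → Z ≤ (Y.rd ϖ).p1 →
    (Y.rd ϖ).E ⊔ EU K ι S.T r X ≤ Z → (Y.rd ϖ).π₀ ∉ Z →
    ∃ 𝔮 η : Ideal (S0 O τ L ι S.T r), 𝔮.IsPrime ∧ (Y.rd ϖ).Tp η ∧
      (Y.rd ϖ).E ⊔ EU K ι S.T r X ≤ 𝔮 ∧ 𝔮 ≤ Z ∧ 𝔮 ≤ η

/-- all the hypotheses on the rings -/
def ROK : Prop := AllC fun O F _ _ _ _ _ _ _ ϖ S L X β τ ι' _ _ _ K ι _ r s V _ Y =>
  letI : Algebra (S0 O τ L ι S.T r) (S1 O τ L ι S.T r) := (io O _ r).toAlgebra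
  (Y.rd ϖ).Ok3

/-! ### the geometry of the trace ring -/

def PRESC : Prop := All fun O F _ _ _ _ _ _ _ ϖ S L X as β τ ι' _ _ _ K ι _ G =>
  ∀ (J : Finset L.C) (p : Ideal (PS O (Sy ι))), Chain.Cv p → G.IT ϖ J ≤ p → G.Irr p →
    ∃ E, Pd (G.IT ϖ J) 2 E ∧ E ≤ p

def CONNJ : Prop := All fun O F _ _ _ _ _ _ _ ϖ S L X as β τ ι' _ _ _ K ι _ G =>
  ∀ J : Finset L.C, (∀ a : L.C, (a : ℕ) ∈ X → a ∈ J) → Cn (G.IT ϖ J) 1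

def ZED : Prop := All fun O F _ _ _ _ _ _ _ ϖ S L X as β τ ι' _ _ _ K ι _ G =>
  ∃ Z, Pd G.aG 3 Z ∧ (∀ a : L.C, (a : ℕ) ∈ X → tauP G.rc id (G.iτ a) ⊆ Z) ∧
    ∀ f ∈ Z, constantCoeff f = 0

/-- on a curve the trace of the Frobenius element decides -/
def TYP : Prop := All fun O F _ _ _ _ _ _ _ ϖ S L X as β τ ι' _ _ _ K ι _ G =>
  ∀ (V : Type) [CommRing V] [IsDomain V] [IsDiscreteValuationRing V] [CharP V 2]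
    [IsAdicComplete (maximalIdeal V) V] (t : V) (j : O →+* V)
    (ρ : GQ →* GL (Fin 2) V) (θ : PS O (Sy ι) →+* V), Irreducible t → G.Crv t j ρ θ →
    ∀ l : L.C, θ (G.fr l) = 0 → θ (trS G.rc id (G.iτ l)) = 0 ∧
      θ (tr2 G.rc id (G.iτ l) (G.iφ l)) = 0

/-! ### the statements with modular forms -/

/-- the places without the auxiliary primes -/
def subL {O : Type} [CommRing O] (L : Pl O) (X : Finset ℕ) : Pl O := { L with C := L.C \ X }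

open Classical in
/-- the restriction of a type -/
def resJ {O : Type} [CommRing O] {L : Pl O} (X : Finset ℕ) (J : Finset L.C) :
    Finset (subL L X).C :=
  Finset.univ.filter fun l => (⟨l.1, (Finset.mem_sdiff.1 l.2).1⟩ : L.C) ∈ J

/-- the forms side for the places `L'` and the set `T'` -/
def AllF {O F : Type} [CommRing O] [IsLocalRing O] [Field F] (ϖ : O) (S : Dat O F) (L' : Pl O)
    (T' : Finset ℕ) (Φ : ∀ (I : Type) (Y0 : I → Type) (W0 : Type) [∀ i, AddCommGroup (Y0 i)]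
      [∀ i, Module (Tg O) (Y0 i)] [AddCommGroup W0] [Module (Tg O) W0],
      (Finset L'.C → I) → Prop) : Prop :=
  ∀ (Sf : P022D.R.Dat O F) (I : Type) (Y0 : I → Type) (W0 : Type) [∀ i, AddCommGroup (Y0 i)]
    [∀ i, Module (Tg O) (Y0 i)] [AddCommGroup W0] [Module (Tg O) W0] (ses : I → I → I → Prop)
    (ig ib : I) (iJ : Finset L'.C → I), Sf.T = T' →
    (∀ g, (mx Sf.rb g).trace = (mx S.rb g).trace) → HD3 ϖ Sf L' Y0 W0 ses ig ib iJ →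
    Φ I Y0 W0 iJ

def SEED : Prop := All fun O F _ _ _ _ _ _ _ ϖ S L X as β τ ι' _ _ _ K ι _ G =>
  AllF ϖ S L S.T fun I Y0 W0 _ _ _ _ iJ => ∀ J : Finset L.C, (∀ h : as ∈ L.C, ⟨as, h⟩ ∈ J) →
    ∃ E, Pd (G.IT ϖ J) 2 E ∧ G.An (Y0 (iJ J)) ≤ E

def PATCH : Prop := All fun O F _ _ _ _ _ _ _ ϖ S L X as β τ ι' _ _ _ K ι _ G =>
  AllF ϖ S L S.T fun I Y0 W0 _ _ _ _ iJ => ∀ (J : Finset L.C) (p E E' : Ideal (PS O (Sy ι))),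
    Chain.Cv p → (∀ h : as ∈ L.C, G.fr ⟨as, h⟩ ∈ p) → Pd (G.IT ϖ J) 2 E → Pd (G.IT ϖ J) 2 E' →
    E ≤ p → E' ≤ p → G.An (Y0 (iJ J)) ≤ E → G.An (Y0 (iJ J)) ≤ E'

open Classical in
def LOWER : Prop := All fun O F _ _ _ _ _ _ _ ϖ S L X as β τ ι' _ _ _ K ι _ G =>
  AllF ϖ S L S.T fun I Y0 W0 _ _ _ _ iJ => ∀ (J : Finset L.C) (a : L.C), (a : ℕ) ∈ X → a ∉ J →
    ∀ p E E' : Ideal (PS O (Sy ι)), Chain.Cv p → (∀ h : as ∈ L.C, G.fr ⟨as, h⟩ ∈ p) →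
    Pd (G.IT ϖ (insert a J)) 2 E → Pd (G.IT ϖ J) 2 E' → E ≤ p → E' ≤ p →
    G.An (Y0 (iJ (insert a J))) ≤ E → G.An (Y0 (iJ J)) ≤ E'

def FINAL : Prop := All fun O F _ _ _ _ _ _ _ ϖ S L X as β τ ι' _ _ _ K ι _ G =>
  AllF ϖ S (subL L X) (S.T \ X) fun I Y0 W0 _ _ _ _ iJ => ∀ Z p : Ideal (PS O (Sy ι)),
    Z.IsPrime → G.aG ≤ Z → (∀ a : L.C, (a : ℕ) ∈ X → tauP G.rc id (G.iτ a) ⊆ Z) → C ϖ ∉ Z →
    Z ≤ p → Chain.Cv p → C ϖ ∈ p → (∀ h : as ∈ L.C, G.fr ⟨as, h⟩ ∈ p) →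
    ∃ J : Finset L.C, G.IT ϖ J ≤ p ∧ (∀ a ∈ J, (a : ℕ) ∉ X) ∧
      ∀ E, Pd (G.IT ϖ J) 2 E → E ≤ p → G.An (Y0 (iJ (resJ X J))) ≤ E → G.An W0 ≤ Z

def OUTG : Prop := All fun O F _ _ _ _ _ _ _ ϖ S L X as β τ ι' _ _ _ K ι _ G =>
  ∀ (W0 : Type) [AddCommGroup W0] [Module (Tg O) W0],
    P022E.As.Gm ϖ (subL L X) (S.T \ X) ∅ 0 W0 → (∀ f ∈ G.An W0, constantCoeff f = 0) →
    Out2 ϖ (subL L X) W0

/-- every element of `Y` is controlled by finitely many elements of `Y'` -/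
def Tr (O : Type) [CommRing O] (Y Y' : Type) [AddCommGroup Y] [Module (Tg O) Y] [AddCommGroup Y']
    [Module (Tg O) Y'] : Prop :=
  ∀ w : Y, ∃ s : Finset Y', ∀ p : Tg O, (∀ v ∈ s, p • v = 0) → p • w = 0

/-- the annihilators of such modules -/
def TRA : Prop := All fun O F _ _ _ _ _ _ _ ϖ S L X as β τ ι' _ _ _ K ι _ G =>
  ∀ (Y Y' : Type) [AddCommGroup Y] [Module (Tg O) Y] [AddCommGroup Y'] [Module (Tg O) Y'],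
    P022E.As.Gm ϖ L S.T ∅ 0 Y → P022E.As.Gm ϖ (subL L X) (S.T \ X) ∅ 0 Y' → Tr O Y Y' →
    G.An Y' ≤ G.An Y

/-- **the Galois side** -/
def L2G : Prop := ∀ (O F : Type) [CommRing O] [IsDomain O] [IsDiscreteValuationRing O] [Coef O]
  [Field F] [Finite F] [CharP F 2] (ϖ : O) (S : Dat O F) (L : Pl O) (X : Finset ℕ) (as : ℕ),
  Irreducible ϖ → Cy S L X as →
  AllF ϖ S L S.T fun I Y0 W0 _ _ _ _ iJ =>
    AllF ϖ S (subL L X) (S.T \ X) fun I' Y0' W0' _ _ _ _ iJ' =>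
      (∀ J : Finset L.C, (∀ a ∈ J, (a : ℕ) ∉ X) → Tr O (Y0 (iJ J)) (Y0' (iJ' (resJ X J)))) →
      Out2 ϖ (subL L X) W0'

end Vale.Agent.P022G
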