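import Vale.Agent.P022G.Trc1
import Vale.Agent.P022G.Dim
import Vale.Agent.P022D.CA.Cpl

/-!
# P022G: the action of the torus on the framed ring
-/

set_option linter.all false

open IsLocalRing MvPowerSeries

noncomputable section

namespace Vale.Agent.P022G.Tor

open Vale.Agent.P022D.CA Vale.Agent.P022G.Trc

variable {σ O : Type} [CommRing O] (w : σ → ℤ)

/-- the part of weight `k` -/
def pr (k : ℤ) : MvPowerSeries σ O →+ MvPowerSeries σ O where
  toFun f := fun m => if Finsupp.weight w m = k then coeff m f else 0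
  map_zero' := by funext m; simp only [map_zero, ite_self]; rfl
  map_add' f g := by
    funext m
    change (if Finsupp.weight w m = k then coeff m (f + g) else 0) =
      (if Finsupp.weight w m = k then coeff m f else 0) +
        (if Finsupp.weight w m = k then coeff m g else 0)
    split_ifs <;> simp

theorem coeff_pr (k : ℤ) (f : MvPowerSeries σ O) (m : σ →₀ ℕ) :
    coeff m (pr w k f) = if Finsupp.weight w m = k then coeff m f else 0 := rfl

/-- homogeneous of weight `k` -/
def Hom (k : ℤ) (f : MvPowerSeries σ O) : Prop :=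
  ∀ m : σ →₀ ℕ, Finsupp.weight w m ≠ k → coeff m f = 0

variable {w}

theorem hom_pr (k : ℤ) (f : MvPowerSeries σ O) : Hom w k (pr w k f) := fun m h => by
  rw [coeff_pr, if_neg h]

theorem Hom.pr_eq {k : ℤ} {f : MvPowerSeries σ O} (h : Hom w k f) : pr w k f = f := by
  ext m
  rw [coeff_pr]
  split_ifs with e
  · rfl
  · exact (h m e).symm

theorem Hom.pr_mul {k : ℤ} {f : MvPowerSeries σ O} (h : Hom w k f) (j : ℤ)
    (s : MvPowerSeries σ O) : pr w j (f * s) = f * pr w (j - k) s := by
  classical
  ext m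
  rw [coeff_pr, coeff_mul, coeff_mul]
  have key : ∀ p ∈ Finset.HasAntidiagonal.antidiagonal m, coeff p.1 f * coeff p.2 (pr w (j - k) s) =
      if Finsupp.weight w m = j then coeff p.1 f * coeff p.2 s else 0 := by
    intro p hp
    rw [Finset.HasAntidiagonal.mem_antidiagonal] at hp
    by_cases e : Finsupp.weight w p.1 = k
    · rw [coeff_pr, ← hp, map_add, e]
      by_cases e2 : Finsupp.weight w p.2 = j - k
      · rw [if_pos e2, if_pos (by omega)]
      · rw [if_neg e2, if_neg (by omega), mul_zero]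
    · rw [h _ e]; simp
  rw [Finset.sum_congr rfl key]
  split_ifs <;> simp

theorem Hom.mul {j k : ℤ} {f g : MvPowerSeries σ O} (hf : Hom w j f) (hg : Hom w k g) :
    Hom w (j + k) (f * g) := by
  have := hf.pr_mul (j + k) g
  rw [add_sub_cancel_left, hg.pr_eq] at this
  exact this ▸ hom_pr _ _

theorem Hom.add {k : ℤ} {f g : MvPowerSeries σ O} (hf : Hom w k f) (hg : Hom w k g) :
    Hom w k (f + g) := fun m h => by rw [map_add, hf m h, hg m h, add_zero]

theorem Hom.neg {k : ℤ} {f : MvPowerSeries σ O} (hf : Hom w k f) : Hom w k (-f) :=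
  fun m h => by rw [map_neg, hf m h, neg_zero]

theorem Hom.sub {k : ℤ} {f g : MvPowerSeries σ O} (hf : Hom w k f) (hg : Hom w k g) :
    Hom w k (f - g) := by rw [sub_eq_add_neg]; exact hf.add hg.neg

theorem hom_mon (m : σ →₀ ℕ) (c : O) : Hom w (Finsupp.weight w m) (monomial m c) := by
  classical
  intro n h
  rw [coeff_monomial, if_neg]
  rintro rfl
  exact h rfl

theorem hom_C (c : O) : Hom w 0 (C c : MvPowerSeries σ O) := by
  simpa using hom_mon (w := w) 0 c

theorem hom_X (s : σ) : Hom w (w s) (X s : MvPowerSeries σ O) := by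
  simpa [Finsupp.weight_single, X] using hom_mon (w := w) (Finsupp.single s 1) (1 : O)

variable (w) in
/-- the series of weight zero -/
def R0 : Subring (MvPowerSeries σ O) where
  carrier := {f | Hom w 0 f}
  mul_mem' h h' := by simpa using Hom.mul h h'
  one_mem' := by simpa using hom_C (w := w) (1 : O)
  add_mem' := Hom.add
  zero_mem' := fun _ _ => map_zero _
  neg_mem' := Hom.neg

variable (w) in
/-- ideals which contain the parts of their elements -/
def St (I : Ideal (MvPowerSeries σ O)) : Prop := ∀ f ∈ I, ∀ k, pr w k f ∈ I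

theorem st_span {S : Set (MvPowerSeries σ O)} (h : ∀ f ∈ S, ∃ k, Hom w k f) :
    St w (Ideal.span S) := by
  have key : ∀ f ∈ Ideal.span S, ∀ s k, pr w k (f * s) ∈ Ideal.span S := by
    intro f hf
    refine Submodule.span_induction (p := fun f _ => ∀ s k, pr w k (f * s) ∈ Ideal.span S)
      ?_ ?_ ?_ ?_ hf
    · intro f hf s k
      obtain ⟨j, hj⟩ := h f hf
      rw [hj.pr_mul]
      exact Ideal.mul_mem_right _ _ (Ideal.subset_span hf)
    · simp
    · intro x y _ _ hx hy s k
      rw [add_mul, map_add]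
      exact Ideal.add_mem _ (hx s k) (hy s k)
    · intro r x _ hx s k
      rw [smul_eq_mul, mul_comm r, mul_assoc]
      exact hx _ k
  exact fun f hf k => by simpa using key f hf 1 k

theorem St.sup {I J : Ideal (MvPowerSeries σ O)} (hI : St w I) (hJ : St w J) : St w (I ⊔ J) := by
  intro f hf k
  obtain ⟨a, ha, b, hb, rfl⟩ := Submodule.mem_sup.1 hf
  rw [map_add]
  exact Submodule.add_mem_sup (hI a ha k) (hJ b hb k)

theorem st_list {q : Ideal (MvPowerSeries σ O)} (hq : St w q) {fs : List (MvPowerSeries σ O)}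
    (h : ∀ f ∈ fs, ∃ k, Hom w k f) : St w (q ⊔ Ideal.ofList fs) := hq.sup (st_span h)

/-- the hypotheses on the map from the ring of traces -/
structure Tr {P₀ : Type} [CommRing P₀] [IsLocalRing P₀] [IsLocalRing O] (w : σ → ℤ)
    (φ : P₀ →+* MvPowerSeries σ O) : Prop where
  wt : ∀ s, w s = 0 ∨ w s = 1 ∨ w s = -1
  loc : ∀ u ∈ maximalIdeal P₀, φ u ∈ maximalIdeal (MvPowerSeries σ O)
  hom : ∀ u, Hom w 0 (φ u)
  cst : ∀ c, ∃ u, φ u = C c
  zero : ∀ s, w s = 0 → ∃ u ∈ maximalIdeal P₀, φ u = X s
  pair : ∀ s t, w s = 1 → w t = -1 → ∃ u ∈ maximalIdeal P₀, φ u = X s * X t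

variable (w O) in
/-- the ideal of the reducible locus -/
def Nr : Ideal (MvPowerSeries σ O) :=
  Ideal.span {f | ∃ s t, w s = 1 ∧ w t = -1 ∧ f = X s * X t}

section
variable {P₀ : Type} [CommRing P₀] [IsLocalRing P₀] [IsLocalRing O] [Fintype σ]
  {φ : P₀ →+* MvPowerSeries σ O}

theorem Tr.mon (H : Tr w φ) (n : ℕ) : ∀ m : σ →₀ ℕ, Finsupp.weight w m = 0 → 2 * n ≤ m.degree →
    ∀ c, ∃ u ∈ maximalIdeal P₀ ^ n, φ u = monomial m c := by
  classical
  have step : ∀ m : σ →₀ ℕ, Finsupp.weight w m = 0 → m ≠ 0 → ∃ m' : σ →₀ ℕ,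
      Finsupp.weight w m' = 0 ∧ m'.degree < m.degree ∧ m.degree ≤ m'.degree + 2 ∧
      ∃ u ∈ maximalIdeal P₀, ∀ c : O, (monomial m c : MvPowerSeries σ O) = φ u * monomial m' c := by
    intro m hm h0
    by_cases hz : ∃ s, w s = 0 ∧ m s ≠ 0
    · obtain ⟨s, hs, hms⟩ := hz
      obtain ⟨m', rfl⟩ : ∃ m', m = Finsupp.single s 1 + m' :=
        exists_add_of_le (Finsupp.single_le_iff.2 (by omega))
      obtain ⟨u, hu, e⟩ := H.zero s hs
      refine ⟨m', by simpa [Finsupp.weight_single, hs] using hm, by simp, by simp; omega, u, hu,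
        fun c => ?_⟩
      rw [e, X, monomial_mul_monomial, one_mul]
    · push Not at hz
      have ex : ∀ e : ℤ, e = 1 ∨ e = -1 → ∃ s, w s = e ∧ m s ≠ 0 := by
        intro e he
        by_contra hn
        push Not at hn
        have h1 : Finsupp.weight w m = -e * m.degree := by
          rw [Finsupp.weight_apply, Finsupp.degree_apply, Finsupp.sum, Nat.cast_sum,
            Finset.mul_sum]
          refine Finset.sum_congr rfl fun s hs => ?_
          have h2 := Finsupp.mem_support_iff.1 hs
          have : w s = -e := by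
            have a := mt (hz s) h2
            have b := mt (hn s) h2
            rcases H.wt s with h | h | h <;> omega
          rw [this, nsmul_eq_mul, mul_comm]
        have h2 : m.degree ≠ 0 := fun h => h0 ((Finsupp.degree_eq_zero_iff m).1 h)
        rcases he with rfl | rfl <;> omega
      obtain ⟨s, hs, hms⟩ := ex 1 (Or.inl rfl)
      obtain ⟨t, ht, hmt⟩ := ex (-1) (Or.inr rfl)
      have hst : s ≠ t := by rintro rfl; omega
      obtain ⟨m', rfl⟩ : ∃ m', m = Finsupp.single s 1 + Finsupp.single t 1 + m' := by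
        refine exists_add_of_le fun x => ?_
        simp only [Finsupp.add_apply, Finsupp.single_apply]
        split_ifs <;> subst_vars <;> omega
      obtain ⟨u, hu, e⟩ := H.pair s t hs ht
      refine ⟨m', by simpa [Finsupp.weight_single, hs, ht] using hm, by simp, by simp; omega, u,
        hu, fun c => ?_⟩
      rw [e, X, X, monomial_mul_monomial, monomial_mul_monomial, one_mul, one_mul]
  induction n with
  | zero =>
    intro m
    induction hd : m.degree using Nat.strong_induction_on generalizing m with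
    | _ k ih =>
    intro hm _ c
    by_cases h0 : m = 0
    · obtain ⟨u, hu⟩ := H.cst c
      exact ⟨u, by simp, by rw [hu, h0]; rfl⟩
    · obtain ⟨m', a, b, -, u, -, e⟩ := step m hm h0
      obtain ⟨v, -, hv⟩ := ih _ (hd ▸ b) m' rfl a (by omega) c
      exact ⟨u * v, by simp, by rw [map_mul, hv, e]⟩
  | succ n ih =>
    intro m hm hd c
    obtain ⟨m', a, -, b, u, hu, e⟩ := step m hm (by rintro rfl; simp at hd)
    obtain ⟨v, hv, hv'⟩ := ih m' a (by omega) c
    exact ⟨u * v, by rw [pow_succ']; exact Ideal.mul_mem_mul hu hv, by rw [map_mul, hv', e]⟩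

end

end Vale.Agent.P022G.Tor
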