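import Vale.Agent.P022G.Word
import Vale.Agent.P022G.Theta

/-! KDEL: matrices with the traces of a pseudo character satisfy the relations up to del. -/

namespace P022G.Kd

open Vale.Agent.P022.H346 Vale.Agent.P022G.Word P022G.Th Matrix

theorem tf_rep {G A : Type*} [Group G] [CommRing A] (ρ : G →* M2 A) :
    TF (fun g => (ρ g).trace) (Matrix.GeneralLinearGroup.det.comp ρ.toHomUnits) := by
  refine ⟨by simp, fun g h => by simp only [map_mul]; exact trace_mul_comm _ _, fun g h => ?_⟩
  have e : ρ h * ρ h⁻¹ = 1 := by rw [← map_mul, mul_inv_cancel, map_one]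
  have e2 : (ρ h).det • ρ h⁻¹ = (ρ h).adjugate := by
    calc (ρ h).det • ρ h⁻¹ = ((ρ h).adjugate * ρ h) * ρ h⁻¹ := by
          rw [adjugate_mul, Matrix.smul_mul, Matrix.one_mul]
      _ = (ρ h).adjugate := by rw [Matrix.mul_assoc, e, Matrix.mul_one]
  have e3 : ((Matrix.GeneralLinearGroup.det.comp ρ.toHomUnits h : Aˣ) : A) = (ρ h).det := rfl
  simp only [map_mul]
  rw [e3, ← smul_eq_mul (ρ h).det, ← trace_smul, ← Matrix.mul_smul, e2]
  simp only [trace_fin_two, mul_apply, Fin.sum_univ_two, adjugate_fin_two]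
  simp
  ring

theorem tf_comp {G H B C : Type*} [Group G] [Group H] [CommRing B] [CommRing C] {t : G → B}
    {d : G →* Bˣ} (T : TF t d) (q : H →* G) (j : B →+* C) :
    TF (fun w => j (t (q w))) ((Units.map j.toMonoidHom).comp (d.comp q)) := by
  refine ⟨by simp [T.one, map_ofNat], fun g h => by simp only [map_mul]; rw [T.comm],
    fun g h => ?_⟩
  have := congrArg j (T.mul (q g) (q h))
  simpa [map_mul, map_add] using this

theorem map_wd {G H : Type*} [Group G] [Group H] {n : ℕ} (q : H →* G) (x : Fin n → H)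
    (s : Finset (Fin n)) : q (wd x s) = wd (fun i => q (x i)) s := by
  simp only [wd, map_list_prod, List.map_map]
  rfl

variable {G H B C : Type*} [Group G] [Group H] [CommRing B] [CommRing C] {n : ℕ}

/-- the traces agree on the whole group generated by the letters -/
theorem tr_eq (x : Fin n → H) (hx : Subgroup.closure (Set.range x) = ⊤) (q : H →* G)
    {t : G → B} {d : G →* Bˣ} (T : TF t d) (j : B →+* C) (Z : H →* M2 C)
    (h1 : ∀ s, (Z (wd x s)).trace = j (t (q (wd x s))))
    (h2 : ∀ i, (Z (x i)).det = j (d (q (x i)))) (w : H) : (Z w).trace = j (t (q w)) :=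
  agree x (tf_rep Z) (tf_comp T q j) h1 (fun i => Units.ext (h2 i)) (hx ▸ Subgroup.mem_top w)

theorem det_eq (x : Fin n → H) (hx : Subgroup.closure (Set.range x) = ⊤) (q : H →* G)
    (d : G →* Bˣ) (j : B →+* C) (Z : H →* M2 C)
    (h2 : ∀ i, (Z (x i)).det = j (d (q (x i)))) (w : H) : (Z w).det = j (d (q w)) := by
  have h : Matrix.GeneralLinearGroup.det.comp Z.toHomUnits
      = (Units.map j.toMonoidHom).comp (d.comp q) :=
    MonoidHom.eq_of_eqOn_dense hx (by rintro _ ⟨i, rfl⟩; exact Units.ext (h2 i))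
  exact congrArg Units.val (DFunLike.congr_fun h w)

/-- traces that factor through q force del * (Z w - Z v) = 0 when q w = q v -/
theorem rel_of_tr (q : H →* G) (τ : G → C) (Z : H →* M2 C) (h : ∀ w, (Z w).trace = τ (q w))
    {w v : H} (e : q w = q v) (a b : H) : del (Z a) (Z b) • (Z w - Z v) = 0 := by
  rw [smul_sub, sub_eq_zero]
  refine same _ _ _ _ ?_ ?_ ?_ ?_
  · rw [h, h, e]
  · rw [← map_mul, ← map_mul, h, h, map_mul, map_mul, e]
  · rw [← map_mul, ← map_mul, h, h, map_mul, map_mul, e]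
  · rw [← map_mul, ← map_mul, ← map_mul, h, h, map_mul, map_mul q v, e]

theorem kdel (x : Fin n → H) (hx : Subgroup.closure (Set.range x) = ⊤) (q : H →* G)
    {t : G → B} {d : G →* Bˣ} (T : TF t d) (j : B →+* C) (Z : H →* M2 C)
    (h1 : ∀ s, (Z (wd x s)).trace = j (t (q (wd x s))))
    (h2 : ∀ i, (Z (x i)).det = j (d (q (x i)))) {w v : H} (e : q w = q v) (a b : H) :
    del (Z a) (Z b) • (Z w - Z v) = 0 :=
  rel_of_tr q (fun g => j (t g)) Z (tr_eq x hx q T j Z h1 h2) e a b

theorem free_top (n : ℕ) :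
    Subgroup.closure (Set.range (FreeGroup.of : Fin n → FreeGroup (Fin n))) = ⊤ :=
  FreeGroup.closure_range_of _

/-- base change of a matrix representation -/
def red {P Q : Type*} [CommRing P] [CommRing Q] (f : P →+* Q) (Z : H →* M2 P) : H →* M2 Q :=
  (f.mapMatrix : M2 P →+* M2 Q).toMonoidHom.comp Z

theorem red_apply {P Q : Type*} [CommRing P] [CommRing Q] (f : P →+* Q) (Z : H →* M2 P) (w : H) :
    red f Z w = (Z w).map f := rfl

theorem red_trace {P Q : Type*} [CommRing P] [CommRing Q] (f : P →+* Q) (Z : H →* M2 P) (w : H) :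
    (red f Z w).trace = f (Z w).trace := by
  simp [red_apply, trace_fin_two]

theorem red_det {P Q : Type*} [CommRing P] [CommRing Q] (f : P →+* Q) (Z : H →* M2 P) (w : H) :
    (red f Z w).det = f (Z w).det := by
  simp [red_apply, det_fin_two]

/-- ideal form. P0 -> P2 by phi, a an ideal of P0 with a pseudo character on P0 / a whose values
on the increasing words are the classes of p s (and of r i for the determinants), where phi sends
p s, r i to the traces and determinants of Z. Then every trace of Z is phi of any lift of the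
value of t modulo a P2, and del * (entries of Z w - Z v) lie in a P2 whenever q w = q v. -/
theorem kdel_ideal {P0 P2 : Type*} [CommRing P0] [CommRing P2] (φ : P0 →+* P2) (a : Ideal P0)
    (x : Fin n → H) (hx : Subgroup.closure (Set.range x) = ⊤) (q : H →* G)
    {t : G → P0 ⧸ a} {d : G →* (P0 ⧸ a)ˣ} (T : TF t d) (Z : H →* M2 P2)
    (p : Finset (Fin n) → P0) (r : Fin n → P0)
    (hp : ∀ s, Ideal.Quotient.mk a (p s) = t (q (wd x s)))
    (hr : ∀ i, Ideal.Quotient.mk a (r i) = d (q (x i)))
    (hpZ : ∀ s, φ (p s) = (Z (wd x s)).trace) (hrZ : ∀ i, φ (r i) = (Z (x i)).det) :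
    (∀ w u, Ideal.Quotient.mk a u = t (q w) → (Z w).trace - φ u ∈ a.map φ) ∧
    (∀ w u, Ideal.Quotient.mk a u = d (q w) → (Z w).det - φ u ∈ a.map φ) ∧
    ∀ w v, q w = q v → ∀ y z i k, del (Z y) (Z z) * (Z w i k - Z v i k) ∈ a.map φ := by
  let j : P0 ⧸ a →+* P2 ⧸ a.map φ := Ideal.quotientMap (a.map φ) φ Ideal.le_comap_map
  have hj : ∀ u, j (Ideal.Quotient.mk a u) = Ideal.Quotient.mk (a.map φ) (φ u) := fun u =>
    Ideal.quotientMap_mk
  let Z' := red (Ideal.Quotient.mk (a.map φ)) Z
  have h1 : ∀ s, (Z' (wd x s)).trace = j (t (q (wd x s))) := fun s => by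
    rw [red_trace, ← hp, hj, hpZ]
  have h2 : ∀ i, (Z' (x i)).det = j (d (q (x i))) := fun i => by
    rw [red_det, ← hr, hj, hrZ]
  refine ⟨fun w u hu => ?_, fun w u hu => ?_, fun w v e y z i k => ?_⟩
  · rw [← Ideal.Quotient.eq, ← red_trace, ← hj, hu]
    exact tr_eq x hx q T j Z' h1 h2 w
  · rw [← Ideal.Quotient.eq, ← red_det, ← hj, hu]
    exact det_eq x hx q d j Z' h2 w
  · rw [← Ideal.Quotient.eq_zero_iff_mem, map_mul, map_del, map_sub]
    have := congrFun (congrFun (kdel x hx q T j Z' h1 h2 e y z) i) k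
    simpa [Z', red_apply] using this

end P022G.Kd
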