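import Vale.Agent.P022G.Kdel2
import Vale.Agent.P022G.Kdel

/-! KLEV: the tautological matrices define a representation of the group after dividing by an
ideal which is killed by delta. -/

set_option linter.all false

namespace P022G.Kl

open Vale.Agent.P022F.Gm Vale.Agent.P022.H346 Vale.Agent.P022G.Word P022G.Th Matrix

/-- descent of a homomorphism along a map which is onto modulo K -/
theorem desc {G H M : Type*} [Group G] [Group H] [Monoid M] (q : H →* G) (K : Subgroup G)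
    [K.Normal] (hs : ∀ g, ∃ w, g⁻¹ * q w ∈ K) (Z : H →* M) (hZ : ∀ w, q w ∈ K → Z w = 1) :
    ∃ ρ : G →* M, (∀ w, ρ (q w) = Z w) ∧ ∀ k ∈ K, ρ k = 1 := by
  choose s hs using hs
  have key : ∀ g w v, g⁻¹ * q w ∈ K → g⁻¹ * q v ∈ K → Z w = Z v := fun g w v hw hv => by
    have h : q (w⁻¹ * v) ∈ K := by
      have := K.mul_mem (K.inv_mem hw) hv
      simpa [mul_assoc] using this
    calc Z w = Z w * Z (w⁻¹ * v) := by rw [hZ _ h, mul_one]
      _ = Z v := by rw [← map_mul, mul_inv_cancel_left]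
  refine ⟨⟨⟨fun g => Z (s g), ?_⟩, fun g h => ?_⟩, fun w => ?_, fun k hk => ?_⟩
  · rw [key 1 (s 1) 1 (hs 1) (by simp), map_one]
  · change Z (s (g * h)) = Z (s g) * Z (s h)
    rw [← map_mul]
    refine key (g * h) _ _ (hs _) ?_
    have h1 := (inferInstance : K.Normal).conj_mem _ (hs g) h⁻¹
    have := K.mul_mem h1 (hs h)
    simpa [mul_assoc] using this
  · exact key (q w) _ _ (hs _) (by simp)
  · change Z (s k) = 1
    rw [key k (s k) 1 (hs k) (by simpa using K.inv_mem hk), map_one]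

variable {G H B C : Type} [Group G] [Group H] [CommRing B] [CommRing C] {ι : Type*}

/-- invariance of the entries from invariance of the trace -/
theorem inv_of_tr {t : G → B} {d : G →* Bˣ} {a b : G → B} {x : G → G → B} (T : GM t d a b x)
    (g₀ : G) {u : B} (hu : (a g₀ - b g₀) * u = 1) (h1 : ∀ h, x g₀ h = 0) (h2 : ∀ h, x h g₀ = 0)
    (K : Subgroup G) [K.Normal] (hK : ∀ k ∈ K, ∀ g, t (g * k) = t g) :
    ∀ k ∈ K, ∀ g, a (g * k) = a g ∧ b (g * k) = b g := by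
  have e : ∀ g, a g = u * (t (g * g₀) - b g₀ * t g) := fun g => by
    rw [← T.sum, ← T.sum, T.am, T.bm, h1, h2]
    linear_combination (-a g) * hu
  intro k hk g
  have e1 : a (g * k) = a g := by
    have : g * k * g₀ = g * g₀ * (g₀⁻¹ * k * g₀⁻¹⁻¹) := by group
    rw [e, e g, hK k hk, this, hK _ ((inferInstance : K.Normal).conj_mem _ hk g₀⁻¹)]
  refine ⟨e1, ?_⟩
  have := hK k hk g
  rw [← T.sum, ← T.sum, e1] at this
  exact add_left_cancel this

theorem ker_ent {t : G → B} {d : G →* Bˣ} {a b : G → B} {x : G → G → B} (T : GM t d a b x)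
    (K : Subgroup G) [K.Normal] (hK : ∀ k ∈ K, ∀ g, a (g * k) = a g ∧ b (g * k) = b g) :
    ∀ k ∈ K, a k = 1 ∧ b k = 1 ∧ (∀ g, x k g = 0) ∧ ∀ g, x g k = 0 := by
  intro k hk
  have a1 : a k = 1 := by simpa [T.a1] using (hK k hk 1).1
  have b1 : b k = 1 := by simpa [T.b1] using (hK k hk 1).2
  refine ⟨a1, b1, fun g => ?_, fun g => ?_⟩
  · have h := T.bm g k
    rw [(hK k hk g).2, b1, mul_one] at h
    linear_combination -h
  · have h := T.am g k
    rw [(hK k hk g).1, a1, mul_one] at h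
    linear_combination -h

/-- the ideal of the relations -/
def rel {P : Type} [CommRing P] (q : H →* G) (K : Subgroup G) (Z : H →* M2 P) : Ideal P :=
  Ideal.span {s | ∃ w i k, q w ∈ K ∧ s = Z w i k - (1 : M2 P) i k}

theorem rel_mul {P : Type} [CommRing P] (q : H →* G) (K : Subgroup G) (Z : H →* M2 P) (δ : P)
    (I : Ideal P) (h : ∀ w i k, q w ∈ K → δ * (Z w i k - (1 : M2 P) i k) ∈ I) :
    ∀ s ∈ rel q K Z, δ * s ∈ I := by
  intro s hs
  refine Submodule.span_induction (p := fun s _ => δ * s ∈ I) ?_ (by simp) ?_ ?_ hs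
  · rintro _ ⟨w, i, k, hw, rfl⟩
    exact h w i k hw
  · intro x y _ _ hx hy
    rw [mul_add]; exact I.add_mem hx hy
  · intro c x _ hx
    rw [smul_eq_mul, mul_left_comm]; exact I.mul_mem_left _ hx

/-- modulo the ideal of the relations the matrices define a representation of G -/
theorem rep {P Q : Type} [CommRing P] [CommRing Q] (q : H →* G) (K : Subgroup G) [K.Normal]
    (hs : ∀ g, ∃ w, g⁻¹ * q w ∈ K) (Z : H →* M2 P) (μ : P →+* Q)
    (hμ : ∀ s ∈ rel q K Z, μ s = 0) :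
    ∃ ρ : G →* M2 Q, (∀ w, ρ (q w) = (Z w).map μ) ∧ ∀ k ∈ K, ρ k = 1 :=
  desc q K hs (Kd2.red μ Z) fun w hw => by
    ext i k
    have := hμ _ (Ideal.subset_span ⟨w, i, k, hw, rfl⟩)
    rw [map_sub, sub_eq_zero] at this
    rw [Kd2.red_ent, this]
    fin_cases i <;> fin_cases k <;> simp

/-- KLEV with a regular diagonal element. phi : P0 -> P2, c an ideal of P0 with a system of
entries on P0 / c which is invariant under K; the entries of Z are phi of lifts modulo tt. -/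
theorem klev {P0 P2 : Type} [CommRing P0] [CommRing P2] (φ : P0 →+* P2) (c : Ideal P0)
    (tt : Ideal P2) (y : ι → H) (hy : Subgroup.closure (Set.range y) = ⊤) (q : H →* G)
    {t : G → P0 ⧸ c} {d : G →* (P0 ⧸ c)ˣ} {a b : G → P0 ⧸ c} {x : G → G → P0 ⧸ c}
    (T : GM t d a b x) (K : Subgroup G) [K.Normal] (hs : ∀ g, ∃ w, g⁻¹ * q w ∈ K)
    (hK : ∀ k ∈ K, ∀ g, a (g * k) = a g ∧ b (g * k) = b g)
    (Z : H →* M2 P2) (pa pb : ι → P0) (px : ι → ι → P0)
    (ha : ∀ i, Ideal.Quotient.mk c (pa i) = a (q (y i)))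
    (hb : ∀ i, Ideal.Quotient.mk c (pb i) = b (q (y i)))
    (hx : ∀ i k, Ideal.Quotient.mk c (px i k) = x (q (y i)) (q (y k)))
    (ha' : ∀ i, φ (pa i) - Z (y i) 0 0 ∈ tt) (hb' : ∀ i, φ (pb i) - Z (y i) 1 1 ∈ tt)
    (hx' : ∀ i k, φ (px i k) - Z (y i) 0 1 * Z (y k) 1 0 ∈ tt) :
    (∀ z u, ∀ s ∈ rel q K Z, Z z 0 1 * Z u 1 0 * s ∈ c.map φ ⊔ tt) ∧
    ∀ (Q : Type) [CommRing Q] (μ : P2 →+* Q), (∀ s ∈ c.map φ ⊔ tt ⊔ rel q K Z, μ s = 0) →
      ∃ ρ : G →* M2 Q, (∀ w, ρ (q w) = (Z w).map μ) ∧ (∀ k ∈ K, ρ k = 1) ∧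
        (∀ g u, Ideal.Quotient.mk c u = t g → (ρ g).trace = μ (φ u)) ∧
        (∀ g u, Ideal.Quotient.mk c u = d g → (ρ g).det = μ (φ u)) ∧
        (∀ g u, Ideal.Quotient.mk c u = a g → ρ g 0 0 = μ (φ u)) ∧
        (∀ g u, Ideal.Quotient.mk c u = b g → ρ g 1 1 = μ (φ u)) ∧
        ∀ g h u, Ideal.Quotient.mk c u = x g h → ρ g 0 1 * ρ h 1 0 = μ (φ u) := by
  have main : ∀ (Q : Type) [CommRing Q] (μ : P2 →+* Q), (∀ s ∈ c.map φ ⊔ tt, μ s = 0) →
      ∃ j : P0 ⧸ c →+* Q, (∀ u, j (Ideal.Quotient.mk c u) = μ (φ u)) ∧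
        (∀ w, μ (Z w 0 0) = j (a (q w)) ∧ μ (Z w 1 1) = j (b (q w))) ∧
        ∀ w v, μ (Z w 0 1) * μ (Z v 1 0) = j (x (q w) (q v)) := by
    intro Q _ μ hμ
    let j : P0 ⧸ c →+* Q := Ideal.Quotient.lift c (μ.comp φ) fun u hu =>
      hμ _ (Ideal.mem_sup_left (Ideal.mem_map_of_mem φ hu))
    have hj : ∀ u, j (Ideal.Quotient.mk c u) = μ (φ u) := fun u => rfl
    have e : ∀ {r s}, r - s ∈ tt → μ s = μ r := fun {r s} h => by
      have := hμ _ (Ideal.mem_sup_right h)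
      rw [map_sub, sub_eq_zero] at this
      exact this.symm
    obtain ⟨h1, h2⟩ := Kd2.ent_eq y hy q T j (Kd2.red μ Z)
      (fun i => by rw [Kd2.red_ent, ← ha, hj, e (ha' i)])
      (fun i => by rw [Kd2.red_ent, ← hb, hj, e (hb' i)])
      (fun i k => by rw [Kd2.red_ent, Kd2.red_ent, ← hx, hj, ← e (hx' i k), map_mul])
    exact ⟨j, hj, fun w => ⟨(h1 w).1, (h1 w).2.1⟩, h2⟩
  have hk := ker_ent T K hK
  refine ⟨fun z u => rel_mul q K Z _ _ fun w i k hw => ?_, fun Q _ μ hμ => ?_⟩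
  · obtain ⟨j, -, h1, h2⟩ := main _ (Ideal.Quotient.mk (c.map φ ⊔ tt))
      fun s hs => Ideal.Quotient.eq_zero_iff_mem.2 hs
    obtain ⟨k1, k2, k3, k4⟩ := hk _ hw
    rw [← Ideal.Quotient.eq_zero_iff_mem, map_mul, map_mul, map_sub]
    have g1 := (h1 w).1
    have g2 := (h1 w).2
    have g3 := h2 w u
    have g4 := h2 z w
    rw [k1, map_one] at g1
    rw [k2, map_one] at g2
    rw [k3, map_zero] at g3
    rw [k4, map_zero] at g4
    fin_cases i <;> fin_cases k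
    · simp [g1]
    · simp only [Fin.zero_eta, Fin.mk_one, ne_eq, zero_ne_one, not_false_eq_true, one_apply_ne,
        map_zero, sub_zero]
      linear_combination (Ideal.Quotient.mk (c.map φ ⊔ tt) (Z z 0 1)) * g3
    · simp only [Fin.zero_eta, Fin.mk_one, ne_eq, one_ne_zero, not_false_eq_true, one_apply_ne,
        map_zero, sub_zero]
      linear_combination (Ideal.Quotient.mk (c.map φ ⊔ tt) (Z u 1 0)) * g4
    · simp [g2]
  · obtain ⟨j, hj, h1, h2⟩ := main Q μ fun s hs => hμ s (Ideal.mem_sup_left hs)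
    obtain ⟨ρ, r1, r2⟩ := rep q K hs Z μ fun s hs => hμ s (Ideal.mem_sup_right hs)
    have nrm : K.Normal := inferInstance
    have dec : ∀ g, ∃ w, ρ g = (Z w).map μ ∧ a (q w) = a g ∧ b (q w) = b g ∧
        ∀ h, a (q w * h) = a (g * h) := fun g => by
      obtain ⟨w, hw⟩ := hs g
      have e : q w = g * (g⁻¹ * q w) := by group
      refine ⟨w, ?_, ?_, ?_, fun h => ?_⟩
      · rw [← r1, e, map_mul, r2 _ hw, mul_one]
      · rw [e]; exact (hK _ hw g).1
      · rw [e]; exact (hK _ hw g).2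
      · have : q w * h = g * h * (h⁻¹ * (g⁻¹ * q w) * h⁻¹⁻¹) := by group
        rw [this]; exact (hK _ (nrm.conj_mem _ hw h⁻¹) _).1
    have ea : ∀ g, ρ g 0 0 = j (a g) := fun g => by
      obtain ⟨w, e1, e2, -⟩ := dec g
      rw [e1, ← e2, ← (h1 w).1]; rfl
    have eb : ∀ g, ρ g 1 1 = j (b g) := fun g => by
      obtain ⟨w, e1, -, e2, -⟩ := dec g
      rw [e1, ← e2, ← (h1 w).2]; rfl
    have ex : ∀ g h, ρ g 0 1 * ρ h 1 0 = j (x g h) := fun g h => by
      have e1 := ea (g * h)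
      rw [map_mul, mul_apply, Fin.sum_univ_two, T.am, map_add, map_mul, ea, ea] at e1
      exact add_left_cancel e1
    refine ⟨ρ, r1, r2, fun g u hu => ?_, fun g u hu => ?_, fun g u hu => ?_, fun g u hu => ?_,
      fun g h u hu => ?_⟩
    · rw [← hj, hu, ← T.sum, map_add, trace_fin_two, ea, eb]
    · rw [← hj, hu, ← T.det, map_sub, map_mul, det_fin_two, ea, eb, ex]
    · rw [← hj, hu, ea]
    · rw [← hj, hu, eb]
    · rw [← hj, hu, ex]

/-- KLEV in the variables of the increasing words, delta = det of a commutator -/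
theorem klev_wd {P0 P2 : Type} [CommRing P0] [CommRing P2] (φ : P0 →+* P2) (c : Ideal P0)
    (tt : Ideal P2) {n : ℕ} (y : Fin n → H) (hy : Subgroup.closure (Set.range y) = ⊤)
    (q : H →* G) {t : G → P0 ⧸ c} {d : G →* (P0 ⧸ c)ˣ} (T : TF t d) (K : Subgroup G) [K.Normal]
    (hs : ∀ g, ∃ w, g⁻¹ * q w ∈ K) (hK : ∀ k ∈ K, ∀ g, t (g * k) = t g)
    (hd : ∀ k ∈ K, d k = 1) (Z : H →* M2 P2) (p : Finset (Fin n) → P0) (r : Fin n → P0)
    (hp : ∀ s, Ideal.Quotient.mk c (p s) = t (q (wd y s)))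
    (hr : ∀ i, Ideal.Quotient.mk c (r i) = d (q (y i)))
    (hp' : ∀ s, φ (p s) - (Z (wd y s)).trace ∈ tt) (hr' : ∀ i, φ (r i) - (Z (y i)).det ∈ tt) :
    (∀ z u, ∀ s ∈ rel q K Z, del (Z z) (Z u) * s ∈ c.map φ ⊔ tt) ∧
    ∀ (Q : Type) [CommRing Q] (μ : P2 →+* Q), (∀ s ∈ c.map φ ⊔ tt ⊔ rel q K Z, μ s = 0) →
      ∃ ρ : G →* M2 Q, (∀ w, ρ (q w) = (Z w).map μ) ∧ (∀ k ∈ K, ρ k = 1) ∧
        (∀ g u, Ideal.Quotient.mk c u = t g → (ρ g).trace = μ (φ u)) ∧
        ∀ g u, Ideal.Quotient.mk c u = d g → (ρ g).det = μ (φ u) := by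
  have main : ∀ (Q : Type) [CommRing Q] (μ : P2 →+* Q), (∀ s ∈ c.map φ ⊔ tt, μ s = 0) →
      ∃ j : P0 ⧸ c →+* Q, (∀ u, j (Ideal.Quotient.mk c u) = μ (φ u)) ∧
        (∀ w, (Kd.red μ Z w).trace = j (t (q w))) ∧ ∀ w, (Kd.red μ Z w).det = j (d (q w)) := by
    intro Q _ μ hμ
    let j : P0 ⧸ c →+* Q := Ideal.Quotient.lift c (μ.comp φ) fun u hu =>
      hμ _ (Ideal.mem_sup_left (Ideal.mem_map_of_mem φ hu))
    have hj : ∀ u, j (Ideal.Quotient.mk c u) = μ (φ u) := fun u => rfl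
    have e : ∀ {r s}, r - s ∈ tt → μ s = μ r := fun {r s} h => by
      have := hμ _ (Ideal.mem_sup_right h)
      rw [map_sub, sub_eq_zero] at this
      exact this.symm
    have h2 : ∀ i, (Kd.red μ Z (y i)).det = j (d (q (y i))) := fun i => by
      rw [Kd.red_det, ← hr, hj, e (hr' i)]
    exact ⟨j, hj, Kd.tr_eq y hy q T j _ (fun s => by rw [Kd.red_trace, ← hp, hj, e (hp' s)]) h2,
      Kd.det_eq y hy q d j _ h2⟩
  have nrm : K.Normal := inferInstance
  refine ⟨fun z u => rel_mul q K Z _ _ fun w i k hw => ?_, fun Q _ μ hμ => ?_⟩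
  · obtain ⟨j, -, h1, -⟩ := main _ (Ideal.Quotient.mk (c.map φ ⊔ tt))
      fun s hs => Ideal.Quotient.eq_zero_iff_mem.2 hs
    set Z' := Kd.red (Ideal.Quotient.mk (c.map φ ⊔ tt)) Z with hZ'
    have e : ∀ v, (Z' w * Z' v).trace = (Z' 1 * Z' v).trace := fun v => by
      rw [← map_mul, ← map_mul, h1, h1, map_mul, map_mul, map_one, one_mul, T.comm, hK _ hw]
    have h3 : del (Z' z) (Z' u) • Z' w = del (Z' z) (Z' u) • Z' 1 := by
      refine same _ _ _ _ ?_ (e z) (e u) ?_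
      · simpa using e 1
      · rw [← map_mul]; exact e _
    have h4 := congrFun (congrFun h3 i) k
    rw [← Ideal.Quotient.eq_zero_iff_mem, map_mul, map_del, map_sub, mul_sub, sub_eq_zero]
    rw [map_one] at h4
    refine h4.trans ?_
    fin_cases i <;> fin_cases k <;> simp [hZ', Kd.red_apply]
  · obtain ⟨j, hj, h1, h2⟩ := main Q μ fun s hs => hμ s (Ideal.mem_sup_left hs)
    obtain ⟨ρ, r1, r2⟩ := rep q K hs Z μ fun s hs => hμ s (Ideal.mem_sup_right hs)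
    have dec : ∀ g, ∃ w, ρ g = Kd.red μ Z w ∧ t (q w) = t g ∧ d (q w) = d g := fun g => by
      obtain ⟨w, hw⟩ := hs g
      have e : q w = g * (g⁻¹ * q w) := by group
      refine ⟨w, ?_, ?_, ?_⟩
      · rw [Kd.red_apply, ← r1, e, map_mul, r2 _ hw, mul_one]
      · rw [e]; exact hK _ hw g
      · rw [e, map_mul, hd _ hw, mul_one]
    refine ⟨ρ, r1, r2, fun g u hu => ?_, fun g u hu => ?_⟩
    · obtain ⟨w, e1, e2, -⟩ := dec g
      rw [e1, h1, e2, ← hu, hj]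
    · obtain ⟨w, e1, -, e2⟩ := dec g
      rw [e1, h2, e2, ← hu, hj]

end P022G.Kl
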