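import Vale.Agent.P022G.Nice4
import Vale.Agent.P022G.Defs
import Vale.Agent.P022D.L2b.Ps

/-! # P022G, block NICE, part 5: framed curves on which the special Frobenius trace vanishes -/

set_option linter.all false

noncomputable section

namespace Vale.Agent.P022G.Nice

open NumberField IsLocalRing Vale.Agent.P022 Vale.Agent.P022.C Vale.Agent.P022.H853
open Vale.Agent.P022.H790.CT Vale.Agent.P022.H443
open Vale.Agent.P022D.G (Inert)
open Vale.Agent.P022D.Sel (Ginf M2)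
open _root_.P022G.Sel (mr rd tI Lv)
open Vale.Agent.P027M.S (mx)
open Vale.Agent.P022D.Core (PS)
open Vale.Agent.P022E.Loc (Pl)
open Vale.Agent.P022G.R Vale.Agent.P022G.Loc

theorem reg2 {A : Type} [CommRing A] [IsDomain A] [IsLocalRing A] [CharP A 2] (ρ : GQ →* M2 A)
    (hd : ∀ g, (ρ g).det = 1) {s : GQ} (e01 : residue A (ρ s 0 1) = 0)
    (e10 : residue A (ρ s 1 0) = 0) (hu : IsUnit (ρ s).trace) (g : GQ)
    (g01 : residue A (ρ g 0 1) = 0) : IsUnit (ρ g).trace ∨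
      (IsUnit (ρ (g * s)).trace ∧ IsUnit (ρ (g * s * s)).trace) := by
  haveI := res_char (A := A)
  by_cases h : IsUnit (ρ g).trace
  · exact Or.inl h
  right
  have t2 : (2 : ResidueField A) = 0 := CharP.cast_eq_zero (ResidueField A) 2
  rw [unit_iff, not_not, Matrix.trace_fin_two, map_add] at h
  rw [unit_iff, Matrix.trace_fin_two, map_add] at hu
  have d := congrArg (residue A) (hd g)
  rw [Matrix.det_fin_two, map_sub, map_mul, map_mul, g01, zero_mul, map_one] at d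
  have a : residue A (ρ g 0 0) = 1 := sq_one (by
    linear_combination residue A (ρ g 0 0) * h - d - t2)
  have b : residue A (ρ g 1 1) = 1 := by
    rw [a] at d
    linear_combination d
  constructor
  · rw [unit_iff, Matrix.trace_fin_two]
    simp only [ent, e01, e10, mul_zero, add_zero, zero_add, map_add, map_mul, a, b, one_mul]
    exact hu
  · rw [unit_iff, Matrix.trace_fin_two]
    simp only [ent, e01, e10, mul_zero, add_zero, zero_add, map_add, map_mul, a, b, one_mul]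
    intro e
    exact hu (pow_eq_zero_iff (n := 2) (by norm_num) |>.1 (by
      linear_combination e + residue A (ρ s 0 0) * residue A (ρ s 1 1) * t2))

/-- **nice curves**, residually diagonal on `Ginf` -/
theorem selNice2 {A : Type} [CommRing A] [IsDomain A] [IsDiscreteValuationRing A] [CharP A 2]
    [IsAdicComplete (maximalIdeal A) A] [Finite (ResidueField A)] {t : A} (ht : Irreducible t)
    (ρ : GQ →* GL (Fin 2) A) {T : Finset ℕ} {D : ℕ → Set GQ} (lv : ∀ N, Lv (rd (tI t N) ρ) T D)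
    (hd : ∀ g, (mr ρ g).det = 1) {s : GQ} (hs : s ∈ Ginf) (hu : IsUnit (mr ρ s).trace)
    (sh : ∀ g ∈ Ginf, mr ρ g 0 1 ∈ maximalIdeal A ∧ mr ρ g 1 0 ∈ maximalIdeal A)
    (H : Ar fun g => (mr ρ g).trace) : _root_.P022G.Sel.Nice t ρ T D := by
  refine ⟨lv, hd, ?_, s, hs, hu, fun g hg => reg2 ((Units.coeHom _).comp ρ) hd
    ((residue_eq_zero_iff _).2 (sh s hs).1) ((residue_eq_zero_iff _).2 (sh s hs).2) hu g
    ((residue_eq_zero_iff _).2 (sh g hg).1)⟩
  obtain ⟨P, α, β, hP, hab⟩ := diag (mr ρ s) (sh s hs).1 (sh s hs).2 hu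
  let σ : GQ →* M2 A := (Units.coeHom _).comp ((MulAut.conj P⁻¹).toMonoidHom.comp ρ)
  have e : ∀ g, σ g = ((P⁻¹ : GL (Fin 2) A) : M2 A) * mr ρ g * P := fun g => by
    show ((P⁻¹ * ρ g * P⁻¹⁻¹ : GL (Fin 2) A) : M2 A) = _
    rw [inv_inv, Units.val_mul, Units.val_mul]
  obtain ⟨δ, h0, h⟩ := nice_span σ sep_max fin_max
    (fun g => by rw [e, Matrix.det_units_conj', hd]) hs (α := α) (β := β) (by rw [e, hP])
    (fun e => by
      rw [← hab, e, ← two_mul, show (2 : A) = 0 from CharP.cast_eq_zero A 2, zero_mul] at hu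
      exact not_isUnit_zero hu)
    (fun k => ⟨(rd (tI t k) ρ).ker, (lv k).opn, fun v hv i => by
      rw [ht.maximalIdeal_eq, Ideal.span_singleton_pow, Ideal.mem_span_singleton]
      choose Y hY using (rd_one ρ k v).1 hv
      have e1 : mr ρ v = 1 + t ^ k • Matrix.of Y := by
        rw [← sub_eq_iff_eq_add']
        ext i j
        rw [hY]; rfl
      rw [e, e1, mul_add, add_mul, mul_one, Units.inv_mul, mul_smul_comm, smul_mul_assoc,
        Matrix.add_apply, Matrix.one_apply_eq, add_sub_cancel_left, Matrix.smul_apply, smul_eq_mul]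
      exact dvd_mul_right _ _⟩)
    (by simpa only [e, Matrix.trace_units_conj'] using H)
  refine ⟨δ, h0, fun Z => ?_⟩
  have k : ∀ W ∈ Submodule.span A (σ '' (Ginf : Set GQ)),
      (P : M2 A) * W * ((P⁻¹ : GL (Fin 2) A) : M2 A) ∈
        Submodule.span A (mr ρ '' (Ginf : Set GQ)) := fun W hW => by
    induction hW using Submodule.span_induction with
    | mem x hx =>
      obtain ⟨g, hg, rfl⟩ := hx
      refine Submodule.subset_span ⟨g, hg, ?_⟩
      rw [e, ← mul_assoc, ← mul_assoc, Units.mul_inv, one_mul, Units.mul_inv_cancel_right]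
    | zero => rw [mul_zero, zero_mul]; exact zero_mem _
    | add x y _ _ hx hy => rw [mul_add, add_mul]; exact add_mem hx hy
    | smul a x _ hx => rw [mul_smul_comm, smul_mul_assoc]; exact Submodule.smul_mem _ _ hx
  have := k _ (h (((P⁻¹ : GL (Fin 2) A) : M2 A) * Z * P))
  rwa [mul_smul_comm, smul_mul_assoc, ← mul_assoc, ← mul_assoc, Units.mul_inv, one_mul,
    Units.mul_inv_cancel_right] at this

theorem Cst.mul {B : Type} [CommRing B] {x y : B} (h : Cst x) (h' : Cst y) : Cst (x * y) := by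
  obtain ⟨f, h0, h⟩ := h
  obtain ⟨g, g0, h'⟩ := h'
  exact ⟨f * g, Nat.mul_pos h0 g0, by rw [mul_pow, pw_iter h, mul_comm f g, pw_iter h']⟩

theorem Cst.sub {B : Type} [CommRing B] [IsDomain B] [CharP B 2] {x y : B} (h : Cst x)
    (h' : Cst y) : Cst (x - y) := by
  rw [CharTwo.sub_eq_add]
  exact h.add h'

theorem Cst.cancel {B : Type} [CommRing B] [IsDomain B] {x y : B} (hy : y ≠ 0) (h : Cst (x * y))
    (h' : Cst y) : Cst x := by
  obtain ⟨f, h0, h⟩ := h
  obtain ⟨g, g0, h'⟩ := h'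
  refine ⟨f * g, Nat.mul_pos h0 g0, mul_right_cancel₀ hy ?_⟩
  have e := pw_iter h g
  rwa [mul_pow, mul_comm f g, pw_iter h', mul_comm g f] at e

/-- if all traces are constant then so are the invariant symbols -/
theorem cst_ent {A : Type} [CommRing A] [IsDomain A] [IsLocalRing A] [IsNoetherianRing A]
    [CharP A 2] [Finite (ResidueField A)] (ρ : GQ →* M2 A) (hd : ∀ g, (ρ g).det = 1) {g₀ : GQ}
    (e01 : ρ g₀ 0 1 = 0) (e10 : ρ g₀ 1 0 = 0) (hne : (ρ g₀).trace ≠ 0)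
    (h : ∀ g, Cst (ρ g).trace) :
    (∀ g, Cst (ρ g 0 0)) ∧ (∀ g, Cst (ρ g 1 1)) ∧ ∀ g k, Cst (ρ g 0 1 * ρ k 1 0) := by
  have t2 : (2 : A) = 0 := CharP.cast_eq_zero A 2
  simp only [Matrix.trace_fin_two] at h hne
  obtain ⟨f, f0, hf⟩ := fin_max (A := A)
  obtain ⟨o, ho⟩ : ∃ o, 2 ^ f = o + 1 := ⟨2 ^ f - 1, by
    have := Nat.one_le_two_pow (n := f)
    omega⟩
  have ad : ρ g₀ 1 1 * ρ g₀ 0 0 = 1 := by
    have := hd g₀
    rw [Matrix.det_fin_two, e01] at this
    linear_combination this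
  have b : Cst (ρ g₀ 1 1) := ⟨f, f0, by
    rw [ho, pow_succ, cst_one sep_max ad (by rw [add_comm]; exact h g₀) (by
      have e := (maximalIdeal A).mul_mem_left (ρ g₀ 0 0) (hf (ρ g₀ 1 1))
      rw [ho] at e
      rwa [show ρ g₀ 0 0 * (ρ g₀ 1 1 ^ (o + 1) - ρ g₀ 1 1) = ρ g₀ 1 1 ^ o - 1 by
        linear_combination (ρ g₀ 1 1 ^ o - 1) * ad] at e), one_mul]⟩
  have a : ∀ g, Cst (ρ g 0 0) := fun g => by
    refine Cst.cancel hne ?_ (h g₀)
    have e := (h (g * g₀)).add ((h g).mul b)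
    rw [ent, ent, e01, e10] at e
    rwa [show ρ g 0 0 * (ρ g₀ 0 0 + ρ g₀ 1 1) = ρ g 0 0 * ρ g₀ 0 0 + ρ g 0 1 * 0 +
      (ρ g 1 0 * 0 + ρ g 1 1 * ρ g₀ 1 1) + (ρ g 0 0 + ρ g 1 1) * ρ g₀ 1 1 by
        linear_combination -(ρ g 1 1 * ρ g₀ 1 1) * t2]
  refine ⟨a, fun g => ?_, fun g k => ?_⟩
  · have e := (h g).sub (a g)
    rwa [add_sub_cancel_left] at e
  · have e := (a (g * k)).sub ((a g).mul (a k))
    rwa [ent, add_sub_cancel_left] at e

section crv

variable {O F : Type} [CommRing O] [IsLocalRing O] [Field F] [Finite F] [CharP F 2]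
  {S : Dat O F} {L : Pl O} {κ : Type} {gk : κ → GQ} {ι : Type} (G : Gs S L gk ι)
  {V : Type} [CommRing V] [IsDomain V] [IsDiscreteValuationRing V] [CharP V 2]

theorem odd_inf (hL : OkG L S) {g : GQ} (hg : g ∈ L.H) : ∃ s ∈ Ginf, S.rb s = S.rb g := by
  obtain ⟨f, f0, hf⟩ := fin_pw F
  obtain ⟨f, rfl⟩ := Nat.exists_eq_add_of_le' f0
  obtain ⟨w, hw⟩ : ∃ w, 2 ^ f = w + 1 := ⟨2 ^ f - 1, by
    have := Nat.one_le_two_pow (n := f)
    omega⟩
  have ad : mx S.rb g 0 0 * mx S.rb g 1 1 = 1 := by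
    have := hL.det g
    rw [Matrix.det_fin_two, (hL.dh.dg g hg).1] at this
    linear_combination this
  have p : ∀ a : F, a ≠ 0 → a ^ (2 * w + 1) = 1 := fun a ha => by
    have := hf a
    rw [pow_succ, hw] at this
    exact mul_right_cancel₀ ha (by linear_combination this)
  have e : mx S.rb g = Matrix.diagonal ![mx S.rb g 0 0, mx S.rb g 1 1] := by
    ext i j
    fin_cases i <;> fin_cases j <;> simp [(hL.dh.dg g hg).1, (hL.dh.dg g hg).2]
  obtain ⟨γ, hγ, s, hs, e3⟩ := P022D.Sel.odd S.rb.ker g (2 * w + 1) hL.dh.opn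
    (odd_two_mul_add_one w) (by
      rw [MonoidHom.mem_ker, map_pow]
      apply Units.ext
      rw [Units.val_pow_eq_pow_val, Units.val_one]
      show mx S.rb g ^ _ = 1
      rw [e, Matrix.diagonal_pow]
      ext i j
      fin_cases i <;> fin_cases j <;>
        simp [p _ (left_ne_zero_of_mul_eq_one ad), p _ (right_ne_zero_of_mul_eq_one ad)])
  exact ⟨s, hs, by rw [e3, map_mul, MonoidHom.mem_ker.1 hγ, one_mul]⟩

/-- **a framed curve on which the special trace vanishes is nice** -/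
theorem crvNice [IsAdicComplete (maximalIdeal V) V] [Finite (ResidueField V)] {X : Finset ℕ}
    {as : ℕ} (hC : Cx S L X as) {t : V} (ht : Irreducible t) {j : O →+* V}
    (hj : ∀ o ∈ maximalIdeal O, j o = 0) {ρ : GQ →* GL (Fin 2) V} {θ : PS O (Sy ι) →+* V}
    (h : G.Crv t j ρ θ) (h0 : θ (G.fr ⟨as, hC.sub hC.mem⟩) = 0)
    (nc : ∃ s, θ (MvPowerSeries.X s) ≠ 0) : _root_.P022G.Sel.Nice t ρ S.T L.D := by
  have hL := hC.ok
  have mm : ∀ x : V, x ∈ maximalIdeal V ↔ t ∣ x := fun x => by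
    rw [ht.maximalIdeal_eq, Ideal.mem_span_singleton]
  have rr : ∀ g a b, S.red (L.r g a b) = mx S.rb g a b := fun g a b =>
    congrFun (congrFun (hL.lift g) a) b
  have j0 : ∀ o, S.red o = 0 → j o = 0 := fun o ho => hj o ((hL.ker o).1 ho)
  have ju : ∀ o, S.red o ≠ 0 → IsUnit (j o) := fun o ho =>
    (notMem_maximalIdeal.1 fun e => ho ((hL.ker o).2 e)).map j
  have jc : ∀ o, Cst (j o) := fun o => by
    obtain ⟨f, f0, hf⟩ := fin_pw F
    refine ⟨f, f0, sub_eq_zero.1 ?_⟩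
    rw [← map_pow, ← map_sub]
    exact j0 _ (by rw [map_sub, map_pow, hf, sub_self])
  have un : ∀ g, mx S.rb g 0 0 ≠ mx S.rb g 1 1 → IsUnit (mr ρ g).trace := fun g hg => by
    have u := ju (L.r g 0 0 + L.r g 1 1) (by
      rw [map_add, rr, rr, ← CharTwo.sub_eq_add]; exact sub_ne_zero.2 hg)
    rw [← notMem_maximalIdeal] at u ⊢
    intro e
    apply u
    have := sub_mem e (add_mem ((mm _).2 (h.res g 0 0)) ((mm _).2 (h.res g 1 1)))
    rwa [Matrix.trace_fin_two, show mr ρ g 0 0 + mr ρ g 1 1 - ((ρ g : M2 V) 0 0 - j (L.r g 0 0) +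
      ((ρ g : M2 V) 1 1 - j (L.r g 1 1))) = j (L.r g 0 0 + L.r g 1 1) by
        rw [map_add]; ring] at this
  obtain ⟨s, hs, es⟩ := odd_inf hL hC.g0.1
  have hm : as ∈ L.W ∪ L.C := Finset.mem_union_right _ (hC.sub hC.mem)
  have fr : IsFrob as (L.φ as) := ⟨L.P as, (hL.hP as hm).1, (hL.hP as hm).2, (hL.tm as hm).frob⟩
  refine selNice2 ht ρ h.lv h.det hs (un s ?_) (fun g hg => ?_) (Ar.of_aux
    (fun l hl h2 σ hσ => mono (fun x hx => sep_max x fun k => ?_) ρ h.det (fun N => (h.lv N).opn)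
      hl h2 hσ) (hL.pr as hm).1 (hL.pr as hm).2 fr ?_ (fun e => ?_) (fun e => ?_) ?_ ?_)
  · have := S.dne
    rwa [mx, ← es] at this
  · have gH := hL.dh.dg g (hL.dh.cy8 g fun z hz => hg 3 z (Or.inl hz))
    have a := h.res g 0 1
    have b := h.res g 1 0
    rw [j0 _ (by rw [rr, gH.1]), sub_zero] at a
    rw [j0 _ (by rw [rr, gH.2]), sub_zero] at b
    exact ⟨(mm _).2 a, (mm _).2 b⟩
  · rw [ht.maximalIdeal_eq, Ideal.span_singleton_pow, Ideal.mem_span_singleton]
    exact hx k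
  · apply Units.ext
    rw [cyc_frob (m := 8) (hL.pr as hm).1 (fun hd => (hL.pr as hm).2 ((Nat.prime_dvd_prime_iff_eq
      (hL.pr as hm).1 Nat.prime_two).1 ((hL.pr as hm).1.dvd_of_dvd_pow
        (show as ∣ 2 ^ 3 from hd)))) fr, Units.val_one, ← ZMod.natCast_mod, (hC.one as hC.mem).1,
      Nat.cast_one]
  · obtain ⟨z, hz, hne⟩ := hC.mv1
    exact hne (e z (by exact_mod_cast hz))
  · obtain ⟨z, hz, hne⟩ := hC.mv2
    exact hne (e z (by exact_mod_cast hz))
  · have e : (mr ρ (L.φ as)).trace = 0 := by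
      rw [← h0, Gs.fr, trS, aS, dS, map_add, map_add, map_add, h.hm.c, h.hm.c, h.hm.x, h.hm.x,
        Matrix.trace_fin_two]
      simp only [id, sv, gv, Sum.elim_inl, Sum.elim_inr, G.hφ]
      ring
    rw [e]
    exact cst_zero
  · by_contra hn
    push Not at hn
    obtain ⟨a, d, x⟩ := cst_ent ((Units.coeHom _).comp ρ) h.det h.dg.1 h.dg.2
      (un _ S.dne).ne_zero hn
    obtain ⟨u, hu⟩ := nc
    apply hu
    rw [h.hm.x]
    rcases u with i | i | ⟨i, k⟩
    · exact sub_eq_zero.2 (cst_range sep_max (a _) (jc _) ((mm _).2 (h.res _ 0 0)))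
    · exact sub_eq_zero.2 (cst_range sep_max (d _) (jc _) ((mm _).2 (h.res _ 1 1)))
    · refine sub_eq_zero.2 (cst_range sep_max (x _ _) (jc _) ((mm _).2 ?_))
      have e1 := (h.res (G.γ i) 0 1).mul_right ((ρ (G.γ k) : M2 V) 1 0)
      have e2 := (h.res (G.γ k) 1 0).mul_left (j (L.r (G.γ i) 0 1))
      have e3 := dvd_add e1 e2
      rwa [show ((ρ (G.γ i) : M2 V) 0 1 - j (L.r (G.γ i) 0 1)) * (ρ (G.γ k) : M2 V) 1 0 +
        j (L.r (G.γ i) 0 1) * ((ρ (G.γ k) : M2 V) 1 0 - j (L.r (G.γ k) 1 0)) =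
        (ρ (G.γ i) : M2 V) 0 1 * (ρ (G.γ k) : M2 V) 1 0 -
          j (L.r (G.γ i) 0 1 * L.r (G.γ k) 1 0) by rw [map_mul]; ring] at e3

/-- a non zero variable from the dimension -/
theorem ex_var [Fintype ι] {σ : Type} [Fintype σ] {j : O →+* V}
    (hj : ∀ o ∈ maximalIdeal O, j o = 0) {θ : PS O σ →+* V} (hc : ∀ o, θ (MvPowerSeries.C o) = j o)
    (hm : ¬ (RingHom.ker θ).IsMaximal) : ∃ s, θ (MvPowerSeries.X s) ≠ 0 := by
  by_contra hn
  push Not at hn
  apply hm
  have le : maximalIdeal (PS O σ) ≤ RingHom.ker θ := fun f hf => by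
    obtain ⟨g, hg⟩ := P022D.L2b.decomp f
    rw [RingHom.mem_ker, hg, map_add, map_sum, hc, hj _ (fun hu => hf
      (MvPowerSeries.isUnit_iff_constantCoeff.2 hu)), zero_add]
    exact Finset.sum_eq_zero fun s _ => by rw [map_mul, hn, zero_mul]
  rw [← (maximalIdeal.isMaximal (PS O σ)).eq_of_le (RingHom.ker_ne_top θ) le]
  exact maximalIdeal.isMaximal _

theorem not_max {A : Type} [CommRing A] {p : Ideal A} (h : ringKrullDim (A ⧸ p) = 1) :
    ¬ p.IsMaximal := fun hm => by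
  letI := Ideal.Quotient.field p
  rw [ringKrullDim_eq_zero_of_field] at h
  exact absurd h (by decide)

end crv

end Vale.Agent.P022G.Nice
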