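import Vale.Agent.P022G.Tor

/-!
# P022G: the invariants of the torus, the dimension of the image in the ring of traces
-/

set_option linter.all false

open IsLocalRing MvPowerSeries

noncomputable section

namespace Vale.Agent.P022G.Tor

open Vale.Agent.P022D.CA Vale.Agent.P022G.Trc

variable {σ O : Type} [CommRing O] [IsLocalRing O] [Fintype σ]

theorem eq_of_max [IsNoetherianRing O] {f g : MvPowerSeries σ O}
    (h : ∀ n : ℕ, f - g ∈ maximalIdeal (MvPowerSeries σ O) ^ n) : f = g := by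
  have := Ideal.iInf_pow_eq_bot_of_isLocalRing (maximalIdeal (MvPowerSeries σ O))
    (maximalIdeal.isMaximal _).ne_top
  rw [← sub_eq_zero, ← Ideal.mem_bot, ← this, Ideal.mem_iInf]
  exact h

variable {w : σ → ℤ} {P₀ : Type} [CommRing P₀] [IsLocalRing P₀] {φ : P₀ →+* MvPowerSeries σ O}

theorem map_pow_mem {A B : Type} [CommRing A] [CommRing B] {φ : A →+* B} {I : Ideal A}
    {J : Ideal B} (h : ∀ u ∈ I, φ u ∈ J) (n : ℕ) {u : A} (hu : u ∈ I ^ n) : φ u ∈ J ^ n :=
  Ideal.pow_right_mono (Ideal.map_le_iff_le_comap.2 h) n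
    (by rw [← Ideal.map_pow]; exact Ideal.mem_map_of_mem φ hu)

/-- the series of weight zero come from the ring of traces -/
theorem Tr.surj [IsNoetherianRing O] [IsPrecomplete (maximalIdeal P₀) P₀] (H : Tr w φ)
    {f : MvPowerSeries σ O} (hf : Hom w 0 f) : ∃ u, φ u = f := by
  classical
  have h1 : ∀ m : σ →₀ ℕ, ∃ u ∈ maximalIdeal P₀ ^ (m.degree / 2),
      φ u = monomial m (coeff m f) := fun m => by
    by_cases hm : Finsupp.weight w m = 0
    · exact H.mon _ m hm (by omega) _
    · exact ⟨0, Ideal.zero_mem _, by rw [hf m hm, map_zero, map_zero]⟩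
  choose u hu hu' using h1
  let D : ℕ → Finset (σ →₀ ℕ) := fun n => (Finsupp.finite_of_degree_le (σ := σ) (2 * n)).toFinset
  have hD : ∀ n m, m ∈ D n ↔ m.degree ≤ 2 * n := fun n m => by simp [D]
  let s : ℕ → P₀ := fun n => ∑ m ∈ D n, u m
  obtain ⟨l, hl⟩ := IsPrecomplete.prec (inferInstance : IsPrecomplete (maximalIdeal P₀) P₀)
    (f := s) (fun {a b} hab => by
      rw [SModEq.sub_mem, smul_eq_mul, Ideal.mul_top]
      have hs : D a ⊆ D b := fun m hm => (hD b m).2 (((hD a m).1 hm).trans (by omega))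
      have : s a - s b = -∑ m ∈ D b \ D a, u m := by
        simp only [s]
        rw [← Finset.sum_sdiff hs]; ring
      rw [this]
      refine neg_mem (Ideal.sum_mem _ fun m hm => Ideal.pow_le_pow_right ?_ (hu m))
      have := (Finset.mem_sdiff.1 hm).2
      rw [hD] at this
      omega)
  refine ⟨l, eq_of_max fun n => ?_⟩
  have h2 := hl n
  rw [SModEq.sub_mem, smul_eq_mul, Ideal.mul_top] at h2
  have h3 := map_pow_mem H.loc n h2
  have h4 : φ (s n) - f ∈ maximalIdeal (MvPowerSeries σ O) ^ n := by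
    refine Cpl.JI_le_pow n fun m => ?_
    by_cases hm : m ∈ D n
    · rw [map_sub, map_sum, map_sum, Finset.sum_eq_single m (fun b _ hb => by
        rw [hu', coeff_monomial, if_neg hb.symm]) (fun h => absurd hm h), hu',
        coeff_monomial_same, sub_self]
      exact Ideal.zero_mem _
    · rw [hD] at hm
      rw [show n - m.degree = 0 by omega, pow_zero, Ideal.one_eq_top]
      trivial
  have : φ l - f = (φ (s n) - f) - φ (s n - l) := by rw [map_sub]; ring
  rw [this]
  exact Ideal.sub_mem _ h4 h3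

theorem Tr.rey [IsNoetherianRing O] [IsPrecomplete (maximalIdeal P₀) P₀] (H : Tr w φ)
    {I : Ideal (MvPowerSeries σ O)} (hI : St w I) : Rey φ I :=
  rey_of_pr (pr w 0) (fun u x => by rw [(H.hom u).pr_mul, sub_zero])
    (Hom.pr_eq (R0 w).one_mem) (fun x => (H.surj (hom_pr 0 x)).imp fun _ h => h.symm)
    fun x hx => hI x hx 0

/-- first order expansion -/
theorem lin (S : Subring (MvPowerSeries σ O)) (hC : ∀ c, C c ∈ S) (hX : ∀ s, X s ∈ S)
    (f : MvPowerSeries σ O) : ∃ p ∈ S, f - p ∈ maximalIdeal (MvPowerSeries σ O) ^ 2 := by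
  obtain ⟨g, hg, -⟩ := Cpl.exists_decompV (f - C (constantCoeff f)) (by simp)
  refine ⟨C (constantCoeff f) + ∑ s, X s * C (constantCoeff (g s)),
    S.add_mem (hC _) (S.sum_mem fun s _ => S.mul_mem (hX s) (hC _)), ?_⟩
  rw [← sub_sub, hg, ← Finset.sum_sub_distrib]
  refine Ideal.sum_mem _ fun s _ => ?_
  rw [← mul_sub, sq]
  exact Ideal.mul_mem_mul ((Cpl.mem_max_iff _).2 (by simp)) (Cpl.residue_surj _)

/-- homogeneity is kept by limits -/
theorem hom_lim [IsNoetherianRing O] {k : ℤ} {f : MvPowerSeries σ O}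
    (h : ∀ n : ℕ, ∃ g, Hom w k g ∧ f - g ∈ maximalIdeal (MvPowerSeries σ O) ^ n) : Hom w k f := by
  intro m hm
  have := Ideal.iInf_pow_eq_bot_of_isLocalRing (maximalIdeal O) (maximalIdeal.isMaximal _).ne_top
  rw [← Ideal.mem_bot, ← this, Ideal.mem_iInf]
  intro n
  obtain ⟨g, hg, h⟩ := h (n + m.degree)
  have h2 := Cpl.pow_le_JI _ h m
  rwa [map_sub, hg m hm, sub_zero, Nat.add_sub_cancel] at h2

/-- approximation by polynomials -/
theorem poly {τ : Type} [Fintype τ] (S : Subring (MvPowerSeries τ O)) (hC : ∀ c, C c ∈ S)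
    (hX : ∀ s, X s ∈ S) (n : ℕ) :
    ∀ f : MvPowerSeries τ O, ∃ p ∈ S, f - p ∈ maximalIdeal (MvPowerSeries τ O) ^ n := by
  induction n with
  | zero => exact fun f => ⟨0, S.zero_mem, by simp⟩
  | succ n ih =>
    intro f
    obtain ⟨g, hg, -⟩ := Cpl.exists_decompV (f - C (constantCoeff f)) (by simp)
    choose p hp hp' using fun s => ih (g s)
    refine ⟨C (constantCoeff f) + ∑ s, X s * p s,
      S.add_mem (hC _) (S.sum_mem fun s _ => S.mul_mem (hX s) (hp s)), ?_⟩
    rw [← sub_sub, hg, ← Finset.sum_sub_distrib]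
    refine Ideal.sum_mem _ fun s _ => ?_
    rw [← mul_sub, pow_succ']
    exact Ideal.mul_mem_mul ((Cpl.mem_max_iff _).2 (by simp)) (hp' s)

/-- two local homomorphisms which agree on the constants and the variables agree -/
theorem hom_ext {τ B : Type} [Fintype τ] [CommRing B] [IsNoetherianRing B] [IsLocalRing B]
    {θ θ' : MvPowerSeries τ O →+* B}
    (h : ∀ f ∈ maximalIdeal (MvPowerSeries τ O), θ f ∈ maximalIdeal B)
    (h' : ∀ f ∈ maximalIdeal (MvPowerSeries τ O), θ' f ∈ maximalIdeal B)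
    (hC : ∀ c, θ (C c) = θ' (C c)) (hX : ∀ s, θ (X s) = θ' (X s)) : θ = θ' := by
  ext1 f
  have := Ideal.iInf_pow_eq_bot_of_isLocalRing (maximalIdeal B) (maximalIdeal.isMaximal _).ne_top
  rw [← sub_eq_zero, ← Ideal.mem_bot, ← this, Ideal.mem_iInf]
  intro n
  obtain ⟨p, hp, h2⟩ := poly (θ.eqLocus θ') hC hX n f
  have e : θ f - θ' f = θ (f - p) - θ' (f - p) := by
    rw [map_sub, map_sub, show θ p = θ' p from hp]; ring
  rw [e]
  exact Ideal.sub_mem _ (map_pow_mem h n h2) (map_pow_mem h' n h2)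

/-- a homomorphism which sends the variables and the maximal ideal into `J` is local -/
theorem loc_of {τ B : Type} [Fintype τ] [CommRing B] {θ : MvPowerSeries τ O →+* B} {J : Ideal B}
    (hC : ∀ c ∈ maximalIdeal O, θ (C c) ∈ J) (hX : ∀ s, θ (X s) ∈ J) :
    ∀ f ∈ maximalIdeal (MvPowerSeries τ O), θ f ∈ J := by
  intro f hf
  obtain ⟨g, hg, -⟩ := Cpl.exists_decompV (f - C (constantCoeff f)) (by simp)
  rw [eq_add_of_sub_eq hg, map_add, map_sum]
  exact J.add_mem (J.sum_mem fun s _ => by rw [map_mul]; exact J.mul_mem_right _ (hX s))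
    (hC _ ((Cpl.mem_max_iff f).1 hf))

/-- **the image of an irreducible prime loses at most one dimension** -/
theorem down [IsNoetherianRing O] [IsNoetherianRing P₀] {ι : Type} [Fintype ι]
    (b c : ι → MvPowerSeries σ O) (hC : ∀ o, ∃ u, φ u = C o) (hx : ∀ i k, ∃ u, φ u = b i * c k)
    (hX : ∀ s, ∃ u, X s = φ u ∨ ∃ i, X s = φ u + b i ∨ X s = φ u + c i)
    (I : Ideal (MvPowerSeries σ O)) :
    Down φ I (Ideal.span {f | ∃ i k, f = b i * c k}) 1 := by
  classical
  intro q hq _ hN k hk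
  obtain ⟨i0, k0, h0⟩ : ∃ i k, b i * c k ∉ q := by
    by_contra hn
    push Not at hn
    exact hN (Ideal.span_le.2 (by rintro _ ⟨i, k, rfl⟩; exact hn i k))
  haveI : IsDomain (MvPowerSeries σ O ⧸ q) := Ideal.Quotient.isDomain q
  have hs : Function.Surjective (Ideal.Quotient.mk q) := Ideal.Quotient.mk_surjective
  haveI : IsLocalRing (MvPowerSeries σ O ⧸ q) := .of_surjective' _ hs
  have hm : (maximalIdeal _).map (Ideal.Quotient.mk q) = maximalIdeal (MvPowerSeries σ O ⧸ q) :=
    map_maximalIdeal_of_surjective _ hs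
  letI : Algebra (P₀ ⧸ q.comap φ) (MvPowerSeries σ O ⧸ q) :=
    (Ideal.quotientMap q φ le_rfl).toAlgebra
  have hA : ∀ (T : Set (MvPowerSeries σ O ⧸ q)) u, Ideal.Quotient.mk q (φ u) ∈
      Algebra.adjoin (P₀ ⧸ q.comap φ) T := fun T u =>
    Subalgebra.algebraMap_mem _ (Ideal.Quotient.mk (q.comap φ) u)
  have hb0 : Ideal.Quotient.mk q (b i0) ≠ 0 := fun h =>
    h0 (q.mul_mem_right _ (Ideal.Quotient.eq_zero_iff_mem.1 h))
  have hle := P022G.Dim.dim_le (A := P₀ ⧸ q.comap φ) {Ideal.Quotient.mk q (b i0)}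
    (Finset.univ.image (fun i => Ideal.Quotient.mk q (b i)) ∪
      Finset.univ.image fun i => Ideal.Quotient.mk q (c i)) (fun x hx' => by
      have hb : Ideal.Quotient.mk q (b i0) ∈ Algebra.adjoin (P₀ ⧸ q.comap φ)
          ((({Ideal.Quotient.mk q (b i0)} : Finset _)) : Set (MvPowerSeries σ O ⧸ q)) :=
        Algebra.subset_adjoin (by simp)
      rcases Finset.mem_union.1 hx' with h | h
      · obtain ⟨i, -, rfl⟩ := Finset.mem_image.1 h
        obtain ⟨u, hu⟩ := hx i0 k0
        obtain ⟨v, hv⟩ := hx i k0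
        refine ⟨_, hA _ u, by rw [hu]; exact mt Ideal.Quotient.eq_zero_iff_mem.1 h0, ?_⟩
        rw [← map_mul, show φ u * b i = b i0 * φ v by rw [hu, hv]; ring, map_mul]
        exact mul_mem hb (hA _ v)
      · obtain ⟨i, -, rfl⟩ := Finset.mem_image.1 h
        obtain ⟨v, hv⟩ := hx i0 i
        exact ⟨_, hb, hb0, by rw [← map_mul, ← hv]; exact hA _ v⟩) (fun x _ => by
      obtain ⟨f, rfl⟩ := hs x
      obtain ⟨p, hp, h2⟩ := lin ((Algebra.adjoin (P₀ ⧸ q.comap φ)
        (((Finset.univ.image (fun i => Ideal.Quotient.mk q (b i)) ∪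
          Finset.univ.image fun i => Ideal.Quotient.mk q (c i) : Finset _) :
            Set (MvPowerSeries σ O ⧸ q)) ∪
          (({Ideal.Quotient.mk q (b i0)} : Finset _) : Set _))).toSubring.comap
            (Ideal.Quotient.mk q)) (fun o => by
          obtain ⟨u, hu⟩ := hC o
          exact hu ▸ hA _ u) (fun s => by
          obtain ⟨u, h | ⟨i, h | h⟩⟩ := hX s
          · exact h ▸ hA _ u
          · rw [h, Subring.mem_comap, map_add]
            exact add_mem (hA _ u) (Algebra.subset_adjoin (by simp))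
          · rw [h, Subring.mem_comap, map_add]
            exact add_mem (hA _ u) (Algebra.subset_adjoin (by simp))) f
      exact ⟨_, hp, by
        rw [← map_sub, ← hm, ← Ideal.map_pow]; exact Ideal.mem_map_of_mem _ h2⟩)
  rw [Finset.card_singleton] at hle
  have h2 := hk.trans hle
  generalize ringKrullDim (P₀ ⧸ q.comap φ) = x at h2 ⊢
  induction x using WithBot.recBotCoe with
  | bot => simp at h2
  | coe x =>
    induction x using ENat.recTopCoe with
    | top => exact le_top
    | coe x =>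
      have : k + 1 ≤ x + 1 := by exact_mod_cast h2
      exact_mod_cast (by omega : k ≤ x)

end Vale.Agent.P022G.Tor
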