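import Vale.Agent.P022D.PA.Lim

/-! LIMK: annihilators converge, and relations valid up to a factor pass to the limit. -/

namespace P022G.Lk

open IsLocalRing Filter Vale.Agent.P022D.PA

/-- a limit of elements of the annihilators kills the patched module -/
theorem lim_mem_ann {P : Type} [CommRing P] [IsLocalRing P] (U : Filter ℕ) (M : ℕ → Type)
    [∀ n, AddCommGroup (M n)] [∀ n, Module P (M n)] (z : ℕ → P) (a : P) (hz : Cv U z a)
    (h : ∀ᶠ n in U, z n ∈ Module.annihilator P (M n)) :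
    a ∈ Module.annihilator P (L P U M) := by
  rw [Module.mem_annihilator]
  intro x
  obtain ⟨x, rfl⟩ := Submodule.Quotient.mk_surjective _ x
  rw [← smu P U M z a hz x, Submodule.Quotient.mk_eq_zero]
  intro j
  refine h.mono fun n hn => ?_
  change z n • x n ∈ _
  rw [Module.mem_annihilator.1 hn]
  exact Submodule.zero_mem _

/-- the set of limits of a sequence of ideals -/
def limI {P : Type} [CommRing P] [IsLocalRing P] (U : Filter ℕ) (a : ℕ → Ideal P) : Ideal P where
  carrier := {c | ∃ z : ℕ → P, (∀ n, z n ∈ a n) ∧ Cv U z c}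
  zero_mem' := ⟨fun _ => 0, fun n => (a n).zero_mem, fun j =>
    Eventually.of_forall fun n => by simp⟩
  add_mem' := by
    rintro x y ⟨z, hz, cz⟩ ⟨w, hw, cw⟩
    refine ⟨fun n => z n + w n, fun n => (a n).add_mem (hz n) (hw n), fun j =>
      ((cz j).and (cw j)).mono fun n h => ?_⟩
    have := Ideal.add_mem _ h.1 h.2
    rwa [sub_add_sub_comm] at this
  smul_mem' := by
    rintro c x ⟨z, hz, cz⟩
    refine ⟨fun n => c * z n, fun n => (a n).mul_mem_left c (hz n), fun j =>
      (cz j).mono fun n h => ?_⟩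
    have := Ideal.mul_mem_left _ c h
    rwa [mul_sub] at this

theorem limI_le_ann {P : Type} [CommRing P] [IsLocalRing P] (U : Filter ℕ) (M : ℕ → Type)
    [∀ n, AddCommGroup (M n)] [∀ n, Module P (M n)] (a : ℕ → Ideal P)
    (h : ∀ᶠ n in U, a n ≤ Module.annihilator P (M n)) :
    limI U a ≤ Module.annihilator P (L P U M) := by
  rintro c ⟨z, hz, cz⟩
  exact lim_mem_ann U M z c cz (h.mono fun n hn => hn (hz n))

/-- almost all members of a sequence of ideals lie in the limit modulo the j-th power -/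
theorem le_limI {P : Type} [CommRing P] [Base P] (U : Ultrafilter ℕ) (a : ℕ → Ideal P) (j : ℕ) :
    ∀ᶠ n in (U : Filter ℕ), a n ≤ limI (U : Filter ℕ) a ⊔ maximalIdeal P ^ j := by
  classical
  by_contra hc
  rw [← Ultrafilter.eventually_not] at hc
  have h1 : ∀ n, ∃ z ∈ a n, ¬ a n ≤ limI (U : Filter ℕ) a ⊔ maximalIdeal P ^ j →
      z ∉ limI (U : Filter ℕ) a ⊔ maximalIdeal P ^ j := fun n => by
    by_cases h : a n ≤ limI (U : Filter ℕ) a ⊔ maximalIdeal P ^ j
    · exact ⟨0, (a n).zero_mem, fun h' => absurd h h'⟩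
    · obtain ⟨z, hz, hz'⟩ := SetLike.not_le_iff_exists.1 h
      exact ⟨z, hz, fun _ => hz'⟩
  choose z hz hz' using h1
  obtain ⟨c, hcv⟩ := lim P U z
  exact (limi P U z c _ hcv).2 j (hc.mono fun n hn => hz' n hn) ⟨z, hz, hcv⟩

/-- the limit lies in almost all members modulo the j-th power -/
theorem limI_le {P : Type} [CommRing P] [IsLocalRing P] [IsNoetherianRing P] (U : Filter ℕ)
    (a : ℕ → Ideal P) (j : ℕ) : ∀ᶠ n in U, limI U a ≤ a n ⊔ maximalIdeal P ^ j := by
  obtain ⟨s, hs⟩ := (IsNoetherian.noetherian (limI U a) : (limI U a).FG)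
  have h : ∀ c ∈ s, ∀ᶠ n in U, c ∈ a n ⊔ maximalIdeal P ^ j := fun c hc => by
    obtain ⟨z, hz, cz⟩ : c ∈ limI U a := hs ▸ Submodule.subset_span hc
    refine (cz j).mono fun n hn => ?_
    have := Ideal.sub_mem _ (Ideal.mem_sup_left (T := maximalIdeal P ^ j) (hz n))
      (Ideal.mem_sup_right (S := a n) hn)
    rwa [sub_sub_cancel] at this
  refine ((Filter.eventually_all_finset s).2 h).mono fun n hn => ?_
  rw [← hs]
  exact Submodule.span_le.2 fun c hc => hn c hc

theorem ann_le {P : Type} [CommRing P] [Base P] (U : Ultrafilter ℕ) (M : ℕ → Type)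
    [∀ n, AddCommGroup (M n)] [∀ n, Module P (M n)] (j : ℕ) :
    ∀ᶠ n in (U : Filter ℕ), Module.annihilator P (M n) ≤
      Module.annihilator P (L P (U : Filter ℕ) M) ⊔ maximalIdeal P ^ j :=
  (le_limI U (fun n => Module.annihilator P (M n)) j).mono fun n hn =>
    hn.trans (sup_le_sup_right (limI_le_ann _ M _ (Eventually.of_forall fun _ => le_rfl)) _)

theorem map_pow_le {P Q : Type} [CommRing P] [IsLocalRing P] [CommRing Q] [IsLocalRing Q]
    (φ : P →+* Q) (hφ : ∀ x ∈ maximalIdeal P, φ x ∈ maximalIdeal Q) (j : ℕ) :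
    (maximalIdeal P ^ j).map φ ≤ maximalIdeal Q ^ j := by
  rw [Ideal.map_pow]
  exact Ideal.pow_right_mono (Ideal.map_le_iff_le_comap.2 hφ) j

/-- elements of the extended ideals converge into the extension of any ideal b that contains
almost all a n modulo every power of the maximal ideal -/
theorem lim_map {P Q : Type} [CommRing P] [IsLocalRing P] [CommRing Q] [IsLocalRing Q]
    [IsNoetherianRing Q] (φ : P →+* Q) (hφ : ∀ x ∈ maximalIdeal P, φ x ∈ maximalIdeal Q)
    (U : Filter ℕ) [U.NeBot] (a : ℕ → Ideal P) (b : Ideal P)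
    (hb : ∀ j, ∀ᶠ n in U, a n ≤ b ⊔ maximalIdeal P ^ j) (k : ℕ → Q) (c δ : Q) (hk : Cv U k c)
    (h : ∀ᶠ n in U, δ * k n ∈ (a n).map φ) : δ * c ∈ b.map φ := by
  refine mem_of_sup _ _ fun j => ?_
  obtain ⟨n, h1, h2, h3⟩ := ((hb j).and ((hk j).and h)).exists
  have h4 : δ * k n ∈ b.map φ ⊔ maximalIdeal Q ^ j := by
    have := Ideal.map_mono (f := φ) h1 h3
    rw [Ideal.map_sup] at this
    exact sup_le_sup_left (map_pow_le φ hφ j) _ this
  have h5 := Ideal.sub_mem _ h4
    (Ideal.mem_sup_right (S := b.map φ) (Ideal.mul_mem_left _ δ h2))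
  rwa [← mul_sub, sub_sub_cancel] at h5

/-- LIMK: del * k n in Ann (M n) P2 for almost all n and k n -> c give del * c in Ann (L M) P2 -/
theorem limk {P Q : Type} [CommRing P] [Base P] [CommRing Q] [IsLocalRing Q]
    [IsNoetherianRing Q] (φ : P →+* Q) (hφ : ∀ x ∈ maximalIdeal P, φ x ∈ maximalIdeal Q)
    (U : Ultrafilter ℕ) (M : ℕ → Type) [∀ n, AddCommGroup (M n)] [∀ n, Module P (M n)]
    (k : ℕ → Q) (c δ : Q) (hk : Cv (U : Filter ℕ) k c)
    (h : ∀ᶠ n in (U : Filter ℕ), δ * k n ∈ (Module.annihilator P (M n)).map φ) :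
    δ * c ∈ (Module.annihilator P (L P (U : Filter ℕ) M)).map φ :=
  lim_map φ hφ (U : Filter ℕ) _ _ (ann_le U M) k c δ hk h

/-- the same with the limit ideal -/
theorem limk' {P Q : Type} [CommRing P] [Base P] [CommRing Q] [IsLocalRing Q]
    [IsNoetherianRing Q] (φ : P →+* Q) (hφ : ∀ x ∈ maximalIdeal P, φ x ∈ maximalIdeal Q)
    (U : Ultrafilter ℕ) (a : ℕ → Ideal P) (k : ℕ → Q) (c δ : Q) (hk : Cv (U : Filter ℕ) k c)
    (h : ∀ᶠ n in (U : Filter ℕ), δ * k n ∈ (a n).map φ) :
    δ * c ∈ (limI (U : Filter ℕ) a).map φ :=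
  lim_map φ hφ (U : Filter ℕ) _ _ (le_limI U a) k c δ hk h

/-- a local map preserves convergence -/
theorem cv_map {P Q : Type} [CommRing P] [IsLocalRing P] [CommRing Q] [IsLocalRing Q]
    (φ : P →+* Q) (hφ : ∀ x ∈ maximalIdeal P, φ x ∈ maximalIdeal Q) (U : Filter ℕ)
    {z : ℕ → P} {a : P} (h : Cv U z a) : Cv U (fun n => φ (z n)) (φ a) := fun j =>
  (h j).mono fun n hn => by
    rw [← map_sub]
    exact map_pow_le φ hφ j (Ideal.mem_map_of_mem φ hn)

end P022G.Lk
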