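import Mathlib

/-! Power series in a disjoint union of variables as iterated power series. -/

noncomputable section

open MvPowerSeries

namespace P022G.Sum

variable {σ τ R : Type*} [CommRing R]

/-- exponents -/
abbrev ex (σ τ : Type*) : (σ ⊕ τ →₀ ℕ) ≃+ (σ →₀ ℕ) × (τ →₀ ℕ) :=
  Finsupp.sumFinsuppAddEquivProdFinsupp

/-- the map to iterated series -/
def fw (p : MvPowerSeries (σ ⊕ τ) R) : MvPowerSeries τ (MvPowerSeries σ R) :=
  fun m n => coeff ((ex σ τ).symm (n, m)) p

/-- the map from iterated series -/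
def bw (q : MvPowerSeries τ (MvPowerSeries σ R)) : MvPowerSeries (σ ⊕ τ) R :=
  fun x => coeff (ex σ τ x).1 (coeff (ex σ τ x).2 q)

theorem coeff_fw (p : MvPowerSeries (σ ⊕ τ) R) (m : τ →₀ ℕ) (n : σ →₀ ℕ) :
    coeff n (coeff m (fw p)) = coeff ((ex σ τ).symm (n, m)) p := rfl

theorem coeff_bw (q : MvPowerSeries τ (MvPowerSeries σ R)) (x : σ ⊕ τ →₀ ℕ) :
    coeff x (bw q) = coeff (ex σ τ x).1 (coeff (ex σ τ x).2 q) := rfl

theorem fw_mul (p q : MvPowerSeries (σ ⊕ τ) R) : fw (p * q) = fw p * fw q := by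
  classical
  ext m n
  simp only [coeff_fw, coeff_mul, map_sum, Finset.sum_sigma']
  refine Finset.sum_nbij'
    (fun y => ⟨((ex σ τ y.1).2, (ex σ τ y.2).2), ((ex σ τ y.1).1, (ex σ τ y.2).1)⟩)
    (fun z => ((ex σ τ).symm (z.2.1, z.1.1), (ex σ τ).symm (z.2.2, z.1.2))) ?_ ?_ ?_ ?_ ?_
  · intro y hy
    have h := congrArg (ex σ τ) (Finset.HasAntidiagonal.mem_antidiagonal.1 hy)
    rw [map_add, AddEquiv.apply_symm_apply] at h
    exact Finset.mem_sigma.2 ⟨Finset.HasAntidiagonal.mem_antidiagonal.2 (congrArg Prod.snd h),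
      Finset.HasAntidiagonal.mem_antidiagonal.2 (congrArg Prod.fst h)⟩
  · intro z hz
    obtain ⟨h1, h2⟩ := Finset.mem_sigma.1 hz
    have h3 := Finset.HasAntidiagonal.mem_antidiagonal.1 h1
    have h4 := Finset.HasAntidiagonal.mem_antidiagonal.1 h2
    refine Finset.HasAntidiagonal.mem_antidiagonal.2 ?_
    show (ex σ τ).symm (z.2.1, z.1.1) + (ex σ τ).symm (z.2.2, z.1.2) = _
    rw [← map_add, Prod.mk_add_mk, h3, h4]
  · intro y _
    show ((ex σ τ).symm (ex σ τ y.1), (ex σ τ).symm (ex σ τ y.2)) = y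
    rw [AddEquiv.symm_apply_apply, AddEquiv.symm_apply_apply]
  · rintro ⟨⟨a, b⟩, ⟨c, d⟩⟩ _
    simp only [AddEquiv.apply_symm_apply]
  · intro y _
    show _ = coeff ((ex σ τ).symm (ex σ τ y.1)) p * coeff ((ex σ τ).symm (ex σ τ y.2)) q
    rw [AddEquiv.symm_apply_apply, AddEquiv.symm_apply_apply]

/-- Series in `σ ⊕ τ` are series in `τ` over series in `σ`. -/
def sumEquiv (σ τ R : Type*) [CommRing R] :
    MvPowerSeries (σ ⊕ τ) R ≃+* MvPowerSeries τ (MvPowerSeries σ R) where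
  toFun := fw
  invFun := bw
  left_inv p := by
    ext x
    rw [coeff_bw, coeff_fw]
    show coeff ((ex σ τ).symm (ex σ τ x)) p = _
    rw [AddEquiv.symm_apply_apply]
  right_inv q := by
    ext m n
    rw [coeff_fw, coeff_bw, AddEquiv.apply_symm_apply]
  map_mul' := fw_mul
  map_add' p q := by
    ext m n
    simp only [coeff_fw, map_add]

theorem coeff_sumEquiv (p : MvPowerSeries (σ ⊕ τ) R) (m : τ →₀ ℕ) (n : σ →₀ ℕ) :
    coeff n (coeff m (sumEquiv σ τ R p)) = coeff ((ex σ τ).symm (n, m)) p := rfl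

theorem ex_inl (n : σ →₀ ℕ) :
    (ex σ τ).symm (n, 0) = Finsupp.embDomain Function.Embedding.inl n := by
  ext a
  rcases a with a | a
  · exact (Finsupp.embDomain_apply_self Function.Embedding.inl n a).symm
  · rw [Finsupp.embDomain_of_notMem_range _ _ _ (by simp)]
    rfl

theorem sumEquiv_inl (p : MvPowerSeries σ R) :
    sumEquiv σ τ R (rename (Function.Embedding.inl : σ ↪ σ ⊕ τ) p) = C p := by
  classical
  ext m n
  rw [coeff_sumEquiv, coeff_C]
  split_ifs with h
  · rw [h, ex_inl, coeff_embDomain_rename]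
  · rw [map_zero]
    apply coeff_rename_eq_zero
    rintro ⟨y, hy⟩
    apply h
    ext a
    have h1 : ((ex σ τ).symm (n, m)) (Sum.inr a) = m a := rfl
    rw [← h1, ← hy, Finsupp.mapDomain_of_notMem_range _ _ (by simp)]
    rfl

theorem sumEquiv_X_inl (i : σ) : sumEquiv σ τ R (X (Sum.inl i)) = C (X i) := by
  rw [← sumEquiv_inl, rename_X]
  rfl

theorem sumEquiv_C (r : R) : sumEquiv σ τ R (C r) = C (C r) := by
  rw [← sumEquiv_inl, rename_C]

theorem sumEquiv_X_inr (j : τ) : sumEquiv σ τ R (X (Sum.inr j)) = X j := by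
  classical
  ext m n
  rw [coeff_sumEquiv, coeff_X, coeff_X]
  have h0 : (ex σ τ) (Finsupp.single (Sum.inr j) 1) = (0, Finsupp.single j 1) := by
    refine Prod.ext ?_ ?_
    · ext a
      show Finsupp.single (Sum.inr j : σ ⊕ τ) 1 (Sum.inl a) = 0
      simp
    · ext a
      show Finsupp.single (Sum.inr j : σ ⊕ τ) 1 (Sum.inr a) = Finsupp.single j 1 a
      simp [Finsupp.single_apply]
  have h1 : (ex σ τ).symm (n, m) = Finsupp.single (Sum.inr j) 1 ↔
      n = 0 ∧ m = Finsupp.single j 1 := by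
    rw [AddEquiv.symm_apply_eq, h0, Prod.mk.injEq]
  by_cases hm : m = Finsupp.single j 1
  · rw [if_pos hm, coeff_one]
    by_cases hn : n = 0
    · rw [if_pos hn, if_pos (h1.2 ⟨hn, hm⟩)]
    · rw [if_neg hn, if_neg fun h => hn (h1.1 h).1]
  · rw [if_neg hm, map_zero, if_neg fun h => hm (h1.1 h).2]

/-- `S` is a power series ring over `P` along `ψ`, with variables `z`. -/
def Ext {P S : Type*} [CommRing P] [CommRing S] (ψ : P →+* S) {ι : Type*} (z : ι → S) : Prop :=
  ∃ e : MvPowerSeries ι P ≃+* S, (∀ r, e (C r) = ψ r) ∧ ∀ i, e (X i) = z i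

theorem ext_C {P : Type*} [CommRing P] (ι : Type*) :
    Ext (C : P →+* MvPowerSeries ι P) (X : ι → MvPowerSeries ι P) :=
  ⟨RingEquiv.refl _, fun _ => rfl, fun _ => rfl⟩

/-- Renaming along an embedding, the other variables listed by `g`. -/
theorem ext_rename {ω ι : Type*} (e : ω ↪ σ) (g : ι → σ) (u : ω ⊕ ι ≃ σ)
    (h1 : ∀ a, u (Sum.inl a) = e a) (h2 : ∀ i, u (Sum.inr i) = g i) :
    Ext (rename (R := R) e).toRingHom (fun i => (X (g i) : MvPowerSeries σ R)) := by
  refine ⟨(sumEquiv ω ι R).symm.trans (renameEquiv R u).toRingEquiv, fun r => ?_, fun i => ?_⟩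
  · rw [← sumEquiv_inl, RingEquiv.trans_apply, RingEquiv.symm_apply_apply]
    show rename u (rename _ r) = rename e r
    rw [rename_rename]
    have : (u : ω ⊕ ι → σ) ∘ (Function.Embedding.inl : ω ↪ ω ⊕ ι) = e := funext h1
    simp only [this]
  · rw [← sumEquiv_X_inr, RingEquiv.trans_apply, RingEquiv.symm_apply_apply]
    show rename u (X _) = _
    rw [rename_X, h2]

/-- Renaming along an embedding. -/
theorem ext_emb {ω : Type*} (e : ω ↪ σ) :
    Ext (rename (R := R) e).toRingHom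
      (fun i : {s // s ∉ Set.range e} => (X i.1 : MvPowerSeries σ R)) := by
  classical
  exact ext_rename e _ ((Equiv.sumCongr (Equiv.ofInjective e e.2) (Equiv.refl _)).trans
    (Equiv.sumCompl (· ∈ Set.range e))) (fun _ => rfl) (fun _ => rfl)

theorem Ext.congr {P S : Type*} [CommRing P] [CommRing S] {ψ : P →+* S} {ι κ : Type*}
    {z : ι → S} (h : Ext ψ z) (u : κ ≃ ι) : Ext ψ (z ∘ u) := by
  obtain ⟨e, h1, h2⟩ := h
  refine ⟨(renameEquiv P u).toRingEquiv.trans e, fun r => ?_, fun i => ?_⟩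
  · show e (rename u (C r)) = _
    rw [rename_C, h1]
  · show e (rename u (X i)) = _
    rw [rename_X, h2]
    rfl

end P022G.Sum
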