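import Vale.Agent.P022G.Cat
import Vale.Agent.P022G.Sum
import Vale.Agent.P022G.Pt.Defs
import Vale.Agent.P022D.Rl.Ch0

/-! Lifting a prime of the trace ring to the framed ring, inside the curve. -/

noncomputable section

open MvPowerSeries IsLocalRing

namespace P022G.Up

open P022G.Sum Vale.Agent.P022G.Pt Vale.Agent.P022D

variable {P S : Type} [CommRing P] [CommRing S]

theorem mem_map_C [IsNoetherianRing P] {ι : Type} (I : Ideal P) (g : MvPowerSeries ι P) :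
    g ∈ I.map (C : P →+* MvPowerSeries ι P) ↔ ∀ n, coeff n g ∈ I := by
  constructor
  · intro hg n
    have h : I.map (C : P →+* MvPowerSeries ι P) ≤
        RingHom.ker (MvPowerSeries.map (σ := ι) (Ideal.Quotient.mk I)) := by
      rw [Ideal.map_le_iff_le_comap]
      intro x hx
      rw [Ideal.mem_comap, RingHom.mem_ker, map_C, Ideal.Quotient.eq_zero_iff_mem.2 hx, map_zero]
    have h2 := RingHom.mem_ker.1 (h hg)
    rw [← Ideal.Quotient.eq_zero_iff_mem, ← coeff_map, h2, map_zero]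
  · intro hg
    obtain ⟨k, v, hv⟩ := Submodule.fg_iff_exists_fin_generating_family.1
      (IsNoetherian.noetherian I)
    have h1 : ∀ n, ∃ c : Fin k → P, ∑ i, c i • v i = coeff n g := by
      intro n
      rw [← Submodule.mem_span_range_iff_exists_fun, hv]
      exact hg n
    choose c hc using h1
    have h2 : g = ∑ i, (show MvPowerSeries ι P from fun n => c n i) * C (v i) := by
      ext n
      rw [map_sum, ← hc n]
      refine Finset.sum_congr rfl fun i _ => ?_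
      rw [coeff_mul_C]
      rfl
    rw [h2]
    refine Ideal.sum_mem _ fun i _ => Ideal.mul_mem_left _ _ (Ideal.mem_map_of_mem _ ?_)
    rw [← hv]
    exact Submodule.subset_span ⟨i, rfl⟩

theorem ker_map_mk [IsNoetherianRing P] {ι : Type} (I : Ideal P) :
    RingHom.ker (MvPowerSeries.map (σ := ι) (Ideal.Quotient.mk I)) =
      I.map (C : P →+* MvPowerSeries ι P) := by
  ext g
  rw [mem_map_C, RingHom.mem_ker]
  constructor
  · intro h n
    rw [← Ideal.Quotient.eq_zero_iff_mem, ← coeff_map, h, map_zero]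
  · intro h
    ext n
    rw [coeff_map, Ideal.Quotient.eq_zero_iff_mem.2 (h n), map_zero]

theorem map_mk_surj {ι : Type} (I : Ideal P) :
    Function.Surjective (MvPowerSeries.map (σ := ι) (Ideal.Quotient.mk I)) := by
  intro g
  refine ⟨fun n => Function.surjInv Ideal.Quotient.mk_surjective (coeff n g), ?_⟩
  ext n
  exact (coeff_map _ n _).trans (Function.surjInv_eq Ideal.Quotient.mk_surjective _)

/-- The quotient of a power series extension. -/
theorem Ext.quot [IsNoetherianRing P] {ψ : P →+* S} {ι : Type} {z : ι → S} (h : Ext ψ z)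
    (I : Ideal P) : Nonempty ((S ⧸ I.map ψ) ≃+* MvPowerSeries ι (P ⧸ I)) := by
  obtain ⟨e, h1, -⟩ := h
  have hs : Function.Surjective ((MvPowerSeries.map (σ := ι) (Ideal.Quotient.mk I)).comp
      e.symm.toRingHom) := (map_mk_surj I).comp e.symm.surjective
  have hψ : ψ = e.toRingHom.comp C := RingHom.ext fun r => (h1 r).symm
  have hk : I.map ψ = RingHom.ker ((MvPowerSeries.map (σ := ι) (Ideal.Quotient.mk I)).comp
      e.symm.toRingHom) := by
    rw [← RingHom.comap_ker, ker_map_mk, hψ, ← Ideal.map_map]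
    exact (Ideal.comap_symm e).symm
  exact ⟨(Ideal.quotEquivOfEq hk).trans (RingHom.quotientKerEquivOfSurjective hs)⟩

theorem Ext.prime [IsNoetherianRing P] {ψ : P →+* S} {ι : Type} [Fintype ι] {z : ι → S}
    (h : Ext ψ z) {η : Ideal P} (hη : η.IsPrime) :
    (η.map ψ).IsPrime ∧
      ringKrullDim (P ⧸ η) + (Fintype.card ι : ℕ) ≤ ringKrullDim (S ⧸ η.map ψ) := by
  obtain ⟨e⟩ := Ext.quot h η
  have hd : IsDomain (MvPowerSeries ι (P ⧸ η)) := NoZeroDivisors.to_isDomain _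
  refine ⟨(Ideal.Quotient.isDomain_iff_prime _).1 (e.toMulEquiv.isDomain _), ?_⟩
  rw [ringKrullDim_eq_of_ringEquiv e, ringKrullDim_eq_of_ringEquiv
    (renameEquiv (P ⧸ η) (Fintype.equivFin ι)).toRingEquiv]
  exact Rl.Ch0.le_dim _

theorem exists_nat {A : Type} [CommRing A] [IsNoetherianRing A] [IsLocalRing A] {η : Ideal A}
    (hη : η ≠ ⊤) : ∃ k : ℕ, ringKrullDim (A ⧸ η) = k := by
  have : Nontrivial (A ⧸ η) := Ideal.Quotient.nontrivial_iff.2 hη
  have : IsLocalRing (A ⧸ η) :=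
    IsLocalRing.of_surjective' (Ideal.Quotient.mk η) Ideal.Quotient.mk_surjective
  have h1 := ringKrullDim_ne_bot (R := A ⧸ η)
  have h2 := ringKrullDim_ne_top (R := A ⧸ η)
  induction hx : ringKrullDim (A ⧸ η) using WithBot.recBotCoe with
  | bot => exact absurd hx h1
  | coe y =>
    induction y using ENat.recTopCoe with
    | top => exact absurd hx h2
    | coe k => exact ⟨k, rfl⟩

/-- **UP**, for a power series extension cut by `f` near `𝔭`. -/
theorem up [IsNoetherianRing P] [IsLocalRing P] [IsRegularLocalRing S] {ψ : P →+* S} {ι κ : Type}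
    [Fintype ι] [Fintype κ] {z : ι → S} (h : Ext ψ z) {𝔭 𝔱 : Ideal S} (hp : 𝔭.IsPrime)
    {𝔞 : Ideal P} (f : κ → S) (hf : ∀ i, f i ∈ 𝔭) {a : ℕ}
    (ha : a + Fintype.card κ ≤ Fintype.card ι)
    (hL : ∀ 𝔮 : Ideal S, 𝔮.IsPrime → 𝔮 ≤ 𝔭 → 𝔞.map ψ ≤ 𝔮 → (∀ i, f i ∈ 𝔮) → 𝔱 ≤ 𝔮)
    (η : Ideal P) (hη : η.IsPrime) (h1 : 𝔞 ≤ η) (h2 : η ≤ 𝔭.comap ψ) :
    ∃ η' : Ideal S, η'.IsPrime ∧ η' ≤ 𝔭 ∧ η.map ψ ⊔ 𝔱 ≤ η' ∧
      ((a : ℕ) : WithBot ℕ∞) + ringKrullDim (P ⧸ η) ≤ ringKrullDim (S ⧸ η') := by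
  obtain ⟨g1, g2⟩ := Ext.prime h hη
  obtain ⟨k, hk⟩ := exists_nat hη.ne_top
  rw [hk] at g2 ⊢
  obtain ⟨Q, q1, q2, q3, q4, q5⟩ := Cat.cat f g1 hp (Ideal.map_le_iff_le_comap.2 h2) hf
    (k := a + k) (le_trans (by exact_mod_cast (by omega)) g2)
  refine ⟨Q, q1, q4, sup_le q2 (hL Q q1 q4 ((Ideal.map_mono h1).trans q2) q3), ?_⟩
  exact_mod_cast q5

theorem of_lc {𝔭 𝔱 J : Ideal S} (hL : Lc 𝔭 𝔱 J) {𝔮 : Ideal S} (hq : 𝔮.IsPrime) (h1 : 𝔮 ≤ 𝔭)
    (h2 : J ≤ 𝔮) : 𝔱 ≤ 𝔮 := by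
  intro s hs
  obtain ⟨h, k1, k2⟩ := hL s hs
  exact (hq.mem_or_mem (h2 k2)).resolve_left fun k => k1 (h1 k)

/-- rank one relations -/
theorem rank_one {I J : Type} (b : I → S) (c : J → S) (x : I → J → S) (i₀ : I) (j₀ : J)
    {𝔮 : Ideal S} (hq : 𝔮.IsPrime) (h0 : b i₀ * c j₀ ∉ 𝔮)
    (hr : ∀ j, b i₀ * c j - x i₀ j ∈ 𝔮) (hc : ∀ i, i ≠ i₀ → b i * c j₀ - x i j₀ ∈ 𝔮)
    (hx : ∀ i j, x i₀ j₀ * x i j - x i j₀ * x i₀ j ∈ 𝔮) (i : I) (j : J) :
    b i * c j - x i j ∈ 𝔮 := by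
  by_cases hi : i = i₀
  · rw [hi]
    exact hr j
  refine (hq.mem_or_mem (x := b i₀ * c j₀) ?_).resolve_left h0
  have e : b i₀ * c j₀ * (b i * c j - x i j) =
      (b i * c j₀ - x i j₀) * (b i₀ * c j) + x i j₀ * (b i₀ * c j - x i₀ j) -
        (b i₀ * c j₀ - x i₀ j₀) * x i j - (x i₀ j₀ * x i j - x i j₀ * x i₀ j) := by ring
  rw [e]
  exact sub_mem (sub_mem (add_mem (Ideal.mul_mem_right _ _ (hc i hi))
    (Ideal.mul_mem_left _ _ (hr j))) (Ideal.mul_mem_right _ _ (hr j₀))) (hx i j)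

end P022G.Up
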