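import Vale.Agent.P022G.Defs
import Vale.Agent.P022G.Up

/-! The field `up` for the concrete rings. -/

set_option linter.all false

noncomputable section

namespace Vale.Agent.P022G

open IsLocalRing MvPowerSeries
open Vale.Agent.P022 Vale.Agent.P022G.R Vale.Agent.P022G.Loc
open Vale.Agent.P022D.Core (PS)
open Vale.Agent.P022E.Loc (Pl)
open _root_.P022G.Sum (Ext)

variable {O F : Type} [CommRing O] [Field F] {S : Dat O F} {L : Pl O} {β : Type}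
  {τ ι' : β → Type} (K : Kx O β τ ι' L.C) {ι : Type} (G : Gs S L K.g ι) (r : ℕ)

/-- `up` for any presentation of the rings. -/
theorem up0_gen [Fintype β] [∀ b, Fintype (τ b)] [Fintype ι] {P B κ : Type} [CommRing P]
    [CommRing B] [IsNoetherianRing P] [IsLocalRing P] [IsRegularLocalRing B] [Fintype κ]
    {ψ : P →+* B} {z : κ → B} (hE : Ext ψ z)
    (hκ : Fintype.card (Ix τ L) + 2 * Fintype.card (ι ⊕ Fin r) + 4 * S.T.card ≤ Fintype.card κ)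
    (io : PS O (V0 τ L ι S.T r) →+* B) (x : ι ⊕ Fin r → ι ⊕ Fin r → P)
    (hx : ∀ i k, ψ (x i k) = io (xS (G.rcr r) (e0 r) i k)) {𝔞 : Ideal P}
    (h1 : ∀ i k i' k', x i k * x i' k' - x i k' * x i' k ∈ 𝔞)
    (h2 : ∀ k, x (Sum.inl G.i0) k ∈ 𝔞 ∧ x k (Sum.inl G.i0) ∈ 𝔞)
    {𝔭 : Ideal B} (hp : 𝔭.IsPrime) (ht : (t0 K G r).map io ≤ 𝔭) (k j : ι ⊕ Fin r)
    (hkj : ψ (x k j) ∉ 𝔭) {a : ℕ} (ha : a + 1 ≤ 4 * S.T.card)
    (η : Ideal P) (hη : η.IsPrime) (g1 : 𝔞 ≤ η) (g2 : η ≤ 𝔭.comap ψ) :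
    ∃ η' : Ideal B, η'.IsPrime ∧ η' ≤ 𝔭 ∧ η.map ψ ⊔ (t0 K G r).map io ≤ η' ∧
      ((a : ℕ) : WithBot ℕ∞) + ringKrullDim (P ⧸ η) ≤ ringKrullDim (B ⧸ η') := by
  classical
  let b : ι ⊕ Fin r → B := fun i => io (ZS K G r i 0 1)
  let c : ι ⊕ Fin r → B := fun i => io (ZS K G r i 1 0)
  have m1 : ∀ i i', b i * c i' - ψ (x i i') ∈ (t0 K G r).map io := by
    intro i i'
    have h := Ideal.mem_map_of_mem io (Ideal.subset_span (s := _)
      (Or.inl (Or.inl ⟨(i, i'), rfl⟩)) : _ ∈ t0 K G r)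
    have h' := neg_mem h
    rwa [map_sub, map_mul, neg_sub, ← hx] at h'
  have m2 : ∀ i, io (X (Sum.inl i) - κS K G r i) ∈ (t0 K G r).map io := fun i =>
    Ideal.mem_map_of_mem io (Ideal.subset_span (Or.inl (Or.inr ⟨i, rfl⟩)))
  have m3 : ∀ u : Fin 2, io (αS τ L ι S.T r S.l0 u u - 1) ∈ (t0 K G r).map io := by
    intro u
    refine Ideal.mem_map_of_mem io (Ideal.subset_span (Or.inr ?_))
    fin_cases u
    · exact Or.inr (Or.inr (Or.inl rfl))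
    · exact Or.inr (Or.inr (Or.inr rfl))
  have hbc : b k * c j ∉ 𝔭 := by
    intro h
    apply hkj
    have := 𝔭.sub_mem h (ht (m1 k j))
    rwa [sub_sub_cancel] at this
  refine _root_.P022G.Up.up hE hp
    (κ := ((ι ⊕ Fin r) ⊕ {i : ι ⊕ Fin r // i ≠ k}) ⊕ (Ix τ L ⊕ Fin 2))
    (Sum.elim (Sum.elim (fun i' => b k * c i' - ψ (x k i')) fun i => b i.1 * c j - ψ (x i.1 j))
      (Sum.elim (fun i => io (X (Sum.inl i) - κS K G r i))
        fun u => io (αS τ L ι S.T r S.l0 u u - 1))) ?_ ?_ ?_ η hη g1 g2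
  · rintro ((i | i) | (i | u))
    · exact ht (m1 _ _)
    · exact ht (m1 _ _)
    · exact ht (m2 _)
    · exact ht (m3 _)
  · have e1 : Fintype.card {i : ι ⊕ Fin r // i ≠ k} = Fintype.card (ι ⊕ Fin r) - 1 := by
      rw [Fintype.card_subtype_compl, Fintype.card_subtype_eq]
    have e2 : 0 < Fintype.card (ι ⊕ Fin r) := Fintype.card_pos_iff.2 ⟨k⟩
    rw [Fintype.card_sum (α := (ι ⊕ Fin r) ⊕ _), Fintype.card_sum (α := ι ⊕ Fin r),
      Fintype.card_sum (α := Ix τ L), e1, Fintype.card_fin]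
    omega
  · intro 𝔮 hq k1 k2 k3
    have n0 : b k * c j ∉ 𝔮 := fun h => hbc (k1 h)
    have n1 : ∀ i i', b i * c i' - ψ (x i i') ∈ 𝔮 :=
      _root_.P022G.Up.rank_one b c (fun i i' => ψ (x i i')) k j hq n0
        (fun i' => k3 (Sum.inl (Sum.inl i'))) (fun i hi => k3 (Sum.inl (Sum.inr ⟨i, hi⟩)))
        (fun i i' => by
          have h := k2 (Ideal.mem_map_of_mem ψ (h1 k j i i'))
          rw [map_sub, map_mul, map_mul, mul_comm (ψ (x k i'))] at h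
          exact h)
    have n2 : b (Sum.inl G.i0) ∈ 𝔮 := by
      have h := 𝔮.add_mem (n1 (Sum.inl G.i0) j) (k2 (Ideal.mem_map_of_mem ψ (h2 j).1))
      rw [sub_add_cancel] at h
      exact (hq.mem_or_mem h).resolve_right fun h' => n0 (𝔮.mul_mem_left _ h')
    have n3 : c (Sum.inl G.i0) ∈ 𝔮 := by
      have h := 𝔮.add_mem (n1 k (Sum.inl G.i0)) (k2 (Ideal.mem_map_of_mem ψ (h2 k).2))
      rw [sub_add_cancel] at h
      exact (hq.mem_or_mem h).resolve_left fun h' => n0 (𝔮.mul_mem_right _ h')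
    rw [Ideal.map_le_iff_le_comap, t0, Ideal.span_le]
    rintro _ ((⟨p, rfl⟩ | ⟨i, rfl⟩) | rfl | rfl | rfl | rfl)
    · have h := neg_mem (n1 p.1 p.2)
      rw [neg_sub, hx] at h
      show io _ ∈ 𝔮
      rw [map_sub, map_mul]
      exact h
    · exact k3 (Sum.inr (Sum.inl i))
    · exact n2
    · exact n3
    · exact k3 (Sum.inr (Sum.inr 0))
    · exact k3 (Sum.inr (Sum.inr 1))

/-- the names of the variables of `P` inside those of `S` -/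
def eP (τ : β → Type) (L : Pl O) (ι : Type) (S : Dat O F) (r : ℕ) :
    Sy (ι ⊕ Fin r) ⊕ Fin r ↪ V0 τ L ι S.T r ⊕ Fin r :=
  (e0 (S := S) (τ := τ) r).sumMap (Function.Embedding.refl _)

/-- **the field `up`** -/
theorem up0 [IsDomain O] [IsDiscreteValuationRing O] [Fintype β] [∀ b, Fintype (τ b)] [Fintype ι]
    (ψ : PS O (Sy (ι ⊕ Fin r) ⊕ Fin r) →+* PS O (V0 τ L ι S.T r ⊕ Fin r))
    (hψ : ∀ f, ψ f = rename (eP τ L ι S r) f) {𝔞 : Ideal (PS O (Sy (ι ⊕ Fin r) ⊕ Fin r))}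
    (h1 : rk1 (G.rcr r) Sum.inl ≤ 𝔞)
    (h2 : ∀ k, xS (G.rcr r) Sum.inl (Sum.inl G.i0) k ∈ 𝔞 ∧
      xS (G.rcr r) Sum.inl k (Sum.inl G.i0) ∈ 𝔞)
    {𝔭 : Ideal (PS O (V0 τ L ι S.T r ⊕ Fin r))} (hp : 𝔭.IsPrime)
    (ht : (t0 K G r).map (P022D.Core.io O _ r) ≤ 𝔭) (k j : ι ⊕ Fin r)
    (hkj : ψ (xS (G.rcr r) Sum.inl k j) ∉ 𝔭) {a : ℕ} (ha : a + 1 ≤ 4 * S.T.card)
    (η : Ideal (PS O (Sy (ι ⊕ Fin r) ⊕ Fin r))) (hη : η.IsPrime) (g1 : 𝔞 ≤ η)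
    (g2 : η ≤ 𝔭.comap ψ) :
    ∃ η' : Ideal (PS O (V0 τ L ι S.T r ⊕ Fin r)), η'.IsPrime ∧ η' ≤ 𝔭 ∧
      η.map ψ ⊔ (t0 K G r).map (P022D.Core.io O _ r) ≤ η' ∧
      ((a : ℕ) : WithBot ℕ∞) + ringKrullDim (PS O (Sy (ι ⊕ Fin r) ⊕ Fin r) ⧸ η) ≤
        ringKrullDim (PS O (V0 τ L ι S.T r ⊕ Fin r) ⧸ η') := by
  classical
  obtain ⟨π, hπ⟩ := IsDiscreteValuationRing.exists_irreducible O
  have hm := (IsDiscreteValuationRing.irreducible_iff_uniformizer π).1 hπ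
  have r1 := (P022D.Rl.Ch0.reg (σ := Sy (ι ⊕ Fin r) ⊕ Fin r) hm).1
  have r2 := (P022D.Rl.Ch0.reg (σ := V0 τ L ι S.T r ⊕ Fin r) hm).1
  have e : ψ = (rename (R := O) (eP τ L ι S r)).toRingHom := RingHom.ext hψ
  have hE := _root_.P022G.Sum.ext_emb (R := O) (eP τ L ι S r)
  rw [← e] at hE
  refine up0_gen K G r hE ?_ (P022D.Core.io O _ r) (xS (G.rcr r) Sum.inl) (fun i k => ?_)
    (fun i k i' k' => h1 (Ideal.subset_span ⟨i, k, i', k', rfl⟩)) h2 hp ht k j hkj ha η hη g1 g2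
  · rw [Fintype.card_subtype_compl, Set.card_range_of_injective (eP τ L ι S r).injective]
    simp only [Fintype.card_sum, Fintype.card_prod, Fintype.card_fin, Fintype.card_coe]
    omega
  · rw [hψ]
    show _ = rename (Function.Embedding.inl : _ ↪ V0 τ L ι S.T r ⊕ Fin r) _
    simp only [xS, map_add, rename_C, rename_X]
    rfl

end Vale.Agent.P022G
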