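import Vale.Agent.P022G.Rw.L2h
import Vale.Agent.P022G.Rw.Cobj
import Vale.Agent.P022G.Rw.Crv
import Vale.Agent.P022G.Rw.Gens
import Vale.Agent.P022G.Rw.Gpg
import Vale.Agent.P022G.Rw.Gpo
import Vale.Agent.P022G.Rw.Gpw
import Vale.Agent.P022G.Rw.Kda
import Vale.Agent.P022G.Rw.Kdel
import Vale.Agent.P022G.Rw.Lam
import Vale.Agent.P022G.Rw.Mt
import Vale.Agent.P022G.Rw.Nice
import Vale.Agent.P022G.Rw.Exq
import Vale.Agent.P022G.Rw.Pov
import Vale.Agent.P022G.Rw.Rcov
import Vale.Agent.P022G.Rw.Repo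
import Vale.Agent.P022G.Rw.Rgal
import Vale.Agent.P022G.Rw.Rgal0
import Vale.Agent.P022G.Rw.RlocH82
import Vale.Agent.P022G.Rw.Rok
import Vale.Agent.P022G.Rw.Rup
import Vale.Agent.P022G.Rw.Seed2
import Vale.Agent.P022G.Rw.Typ
import Vale.Agent.P022G.Rw.Zed2
import Vale.Agent.P022G.Rw.TanvH16
import Vale.Agent.P022G.Rw.TraH94
import Vale.Agent.P022G.Rw.FinalH78
import Vale.Agent.P022G.Loc.All2
import Vale.Agent.P022G.Pres.Main
import Vale.Agent.P022G.Tr.PrH35
import Vale.Agent.P022G.Tr.Red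
import Vale.Agent.P022G.Tr.Wt
import Vale.Agent.P022G.Tr.Ag
import Vale.Agent.P022G.Tr.Asm
import Vale.Agent.P022G.Ps.Tr0C
import Vale.Agent.P022G.Top.Core
import Vale.Agent.P022G.Top.Fin

/-!
# P022G: the theorem when the residual representation is reducible on the group of the eighth
cyclotomic field and its traces do not all vanish
-/

set_option linter.all false

open Matrix

namespace Vale.Agent.P022G

open Vale.Agent.P022 Vale.Agent.P022D

theorem l2hC : Top.L2H := by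
  have gpo := gpoC povC
  have kda := kdaC gpo
  have rcov := rcovC cobjC kda
  have rgal0 := rgal0C kdelC rcov
  have rgal := rgalC kdelC povC
  have rca := Rw.rcaC cobjC
  have rfin := Rw.rfinC cobjC
  have rok := rokC rcov (rflC rcov) (rupC rcov) rgal0 RlocH82.rloc rca
  have cpk := cpkC crv nice (pcex_of exqC (H16.tanv2C repoC) lamC)
  have pk := H78.pkg2C povC gpw gpo cpk rgal
  have ag := Tr.agC Tr.dokC
  have fr := Tr.frpC Tr.dokC
  have p2 := Tr.H35.pr2C Pres.pres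
  exact L2.l2h Loc.locg2 gensC kda crv nice typC (presc2C Tr.dokC fr ag p2 crv kda)
    (connj2C Tr.dokC fr ag p2 (Tr.wtC Tr.dokC) Tr.redC crv kda nice)
    (zed2C (Tr.H35.pr0C Pres.pres) ag) (seed2C povC gpw gpo gpgC crv cobjC typC)
    (patch2_of pk kda rcov rok) (lower2_of pk kda rcov rok rca)
    (H78.final2C povC gpw gpo cpk rgal kda (Fin.out kda rcov rok rgal0 rfin) rcov)
    (H94.outgC povC gpw gpo) (H94.traC povC gpw gpo)

theorem finalG (E : Type) [NontriviallyNormedField E] [NormedAlgebra ℚ_[2] E]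
    [FiniteDimensional ℚ_[2] E] (r : GQ →* GL (Fin 2) E) (hc : Continuous r)
    (ho : St.OddRep r) (hi : St.AbsIrr r) (hS : {p : ℕ | p.Prime ∧ ¬ St.UnrAt r p}.Finite)
    (k : Type) [Field k] [CharP k 2] (ρ : GQ →* GL (Fin 2) k) (hr : St.IsRes r ρ)
    (h8 : ¬ St.IrrCyc ρ) (h1 : ∃ g, (ρ g : Matrix (Fin 2) (Fin 2) k).trace ≠ 0) :
    St.Q1Concl r :=
  Top.finC (Top.core l2hC Ps.tr0C) E r hc ho hi hS k ρ hr h8 h1

end Vale.Agent.P022G
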