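import Vale.Agent.P022D.PA.Etl

/-!
# P022G: flatness of the framed ring over the trace ring away from `δ`, in colon form
-/

set_option linter.all false

noncomputable section

namespace Vale.Agent.P022G.Flat

open Vale.Agent.P022D.PA

section abs

variable {A B : Type} [CommRing A] [CommRing B]

/-- the colon ideal -/
def cl (d : Ideal A) (u : A) : Ideal A where
  carrier := {h | u * h ∈ d}
  add_mem' := fun {a b} ha hb => by
    show u * (a + b) ∈ d
    rw [mul_add]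
    exact d.add_mem ha hb
  zero_mem' := by
    show u * 0 ∈ d
    rw [mul_zero]
    exact d.zero_mem
  smul_mem' := fun c a ha => by
    show u * (c * a) ∈ d
    rw [mul_left_comm]
    exact d.mul_mem_left c ha

theorem mem_cl {d : Ideal A} {u h : A} : h ∈ cl d u ↔ u * h ∈ d := Iff.rfl

theorem le_cl (d : Ideal A) (u : A) : d ≤ cl d u := fun _ h => d.mul_mem_left u h

/-- saturation by the powers of an element -/
def sat (K : Ideal B) (δ : B) : Ideal B where
  carrier := {v | ∃ k : ℕ, δ ^ k * v ∈ K}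
  add_mem' := by
    rintro a b ⟨k, ha⟩ ⟨j, hb⟩
    refine ⟨k + j, ?_⟩
    have : δ ^ (k + j) * (a + b) = δ ^ j * (δ ^ k * a) + δ ^ k * (δ ^ j * b) := by ring
    rw [this]
    exact K.add_mem (K.mul_mem_left _ ha) (K.mul_mem_left _ hb)
  zero_mem' := ⟨0, by rw [mul_zero]; exact K.zero_mem⟩
  smul_mem' := by
    rintro c a ⟨k, ha⟩
    refine ⟨k, ?_⟩
    show δ ^ k * (c * a) ∈ K
    rw [mul_left_comm]
    exact K.mul_mem_left c ha

theorem mem_sat {K : Ideal B} {δ v : B} : v ∈ sat K δ ↔ ∃ k : ℕ, δ ^ k * v ∈ K := Iff.rfl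

theorem le_sat (K : Ideal B) (δ : B) : K ≤ sat K δ := fun v h => ⟨0, by rwa [pow_zero, one_mul]⟩

theorem sat_mono {K K' : Ideal B} (h : K ≤ K') (δ : B) : sat K δ ≤ sat K' δ :=
  fun _ ⟨k, hk⟩ => ⟨k, h hk⟩

theorem sat_of {K : Ideal B} {δ v : B} (k : ℕ) (h : δ ^ k * v ∈ sat K δ) : v ∈ sat K δ := by
  obtain ⟨j, hj⟩ := h
  exact ⟨j + k, by rwa [pow_add, mul_assoc]⟩

/-- saturation at a prime -/
def satp (K η : Ideal B) [hη : η.IsPrime] : Ideal B where
  carrier := {v | ∃ s ∉ η, s * v ∈ K}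
  add_mem' := by
    rintro a b ⟨s, hs, ha⟩ ⟨t, ht, hb⟩
    refine ⟨s * t, fun h => (hη.mem_or_mem h).elim hs ht, ?_⟩
    have : s * t * (a + b) = t * (s * a) + s * (t * b) := by ring
    rw [this]
    exact K.add_mem (K.mul_mem_left _ ha) (K.mul_mem_left _ hb)
  zero_mem' := ⟨1, (Ideal.ne_top_iff_one _).1 hη.ne_top, by rw [mul_zero]; exact K.zero_mem⟩
  smul_mem' := by
    rintro c a ⟨s, hs, ha⟩
    refine ⟨s, hs, ?_⟩
    show s * (c * a) ∈ K
    rw [mul_left_comm]
    exact K.mul_mem_left c ha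

theorem le_satp (K η : Ideal B) [hη : η.IsPrime] : K ≤ satp K η :=
  fun v h => ⟨1, (Ideal.ne_top_iff_one _).1 hη.ne_top, by rwa [one_mul]⟩

/-- `(B / (c B + N))[1/δ]` is flat over `A / c` (colon form) -/
def Col (φ : A →+* B) (c : Ideal A) (N : Ideal B) (δ : B) : Prop :=
  ∀ d : Ideal A, c ≤ d → ∀ (u : A) (v : B), φ u * v ∈ d.map φ ⊔ N →
    v ∈ sat ((cl d u).map φ ⊔ N) δ

variable {φ : A →+* B} {c : Ideal A} {N : Ideal B} {δ : B}

theorem Col.mono (h : Col φ c N δ) {c' : Ideal A} (hc : c ≤ c') : Col φ c' N δ :=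
  fun d hd => h d (hc.trans hd)

theorem Col.dvd (h : Col φ c N δ) {δ' : B} {m : ℕ} (hd : δ ∣ δ' ^ m) : Col φ c N δ' := by
  intro d hc u v hv
  obtain ⟨k, hk⟩ := h d hc u v hv
  obtain ⟨e, he⟩ := hd
  refine ⟨m * k, ?_⟩
  rw [pow_mul, he, mul_pow, mul_comm (δ ^ k), mul_assoc]
  exact Ideal.mul_mem_left _ _ hk

/-- descent of membership -/
theorem Col.fl1 (h : Col φ c N δ) (η : Ideal B) [hη : η.IsPrime] (hN : N ≤ η) (hδ : δ ∉ η)
    {d : Ideal A} (hc : c ≤ d) {u : A} {s : B} (hs : s ∉ η) (hu : s * φ u ∈ d.map φ ⊔ N) :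
    ∃ h₀ ∉ η.comap φ, h₀ * u ∈ d := by
  by_contra hn
  obtain ⟨k, hk⟩ := h d hc u s (by rwa [mul_comm])
  have h1 : (cl d u).map φ ⊔ N ≤ η := sup_le (Ideal.map_le_iff_le_comap.2 fun a ha => by
    by_contra ha'
    exact hn ⟨a, ha', by rw [mul_comm]; exact ha⟩) hN
  exact (hη.mem_or_mem (h1 hk)).elim (fun e => hδ (hη.mem_of_pow_mem _ e)) hs

/-- ascent of regularity -/
theorem Col.fl2 (h : Col φ c N δ) (η : Ideal B) [hη : η.IsPrime] (hδ : δ ∉ η)
    {d : Ideal A} (hc : c ≤ d) {π : A}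
    (hπ : ∀ a, π * a ∈ d → ∃ h₀ ∉ η.comap φ, h₀ * a ∈ d) {v : B}
    (hv : φ π * v ∈ d.map φ ⊔ N) : ∃ s ∉ η, s * v ∈ d.map φ ⊔ N := by
  obtain ⟨k, hk⟩ := h d hc π v hv
  have h1 : (cl d π).map φ ⊔ N ≤ satp (d.map φ ⊔ N) η :=
    sup_le (Ideal.map_le_iff_le_comap.2 fun a ha => by
      obtain ⟨h₀, e1, e2⟩ := hπ a ha
      exact ⟨φ h₀, e1, by
        rw [← map_mul]
        exact Ideal.mem_sup_left (Ideal.mem_map_of_mem φ e2)⟩)
      (le_sup_right.trans (le_satp _ η))
  obtain ⟨s, hs, e⟩ := h1 hk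
  exact ⟨s * δ ^ k, fun h2 => (hη.mem_or_mem h2).elim hs fun e => hδ (hη.mem_of_pow_mem _ e),
    by rwa [mul_assoc]⟩

theorem min_pow {I q : Ideal B} (hq : q ∈ I.minimalPrimes) {x : B} (hx : x ∈ q) :
    ∃ s ∉ q, ∃ m : ℕ, s * x ^ m ∈ I := by
  haveI := hq.1.1
  have h := IsLocalization.AtPrime.radical_map_of_mem_minimalPrimes
    (Localization.AtPrime q) q I hq
  have h1 : algebraMap B (Localization.AtPrime q) x ∈ (I.map (algebraMap B _)).radical := by
    rw [h]
    exact Ideal.mem_map_of_mem _ hx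
  obtain ⟨m, hm⟩ := h1
  rw [← map_pow] at hm
  obtain ⟨s, hs, e⟩ := (IsLocalization.algebraMap_mem_map_algebraMap_iff q.primeCompl _ I _).1 hm
  exact ⟨s, hs, m, e⟩

/-- a minimal prime over `η B + N` away from `δ` lies over `η` -/
theorem Col.fl0 (h : Col φ c N δ) (η : Ideal A) [hη : η.IsPrime] (hc : c ≤ η) {q : Ideal B}
    (hq : q ∈ (η.map φ ⊔ N).minimalPrimes) (hδ : δ ∉ q) : q.comap φ = η := by
  haveI := hq.1.1
  have h0 : η ≤ q.comap φ := Ideal.map_le_iff_le_comap.1 (le_sup_left.trans hq.1.2)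
  refine le_antisymm (fun u hu => ?_) h0
  obtain ⟨s, hs, m, e⟩ := min_pow hq (x := φ u) hu
  rw [← map_pow] at e
  obtain ⟨h₀, e1, e2⟩ := h.fl1 q (le_sup_right.trans hq.1.2) hδ hc hs e
  exact (hη.mem_or_mem e2).elim (fun e3 => absurd (h0 e3) e1) fun e3 => hη.mem_of_pow_mem _ e3

/-- going down -/
theorem Col.down (h : Col φ c N δ) (η : Ideal A) [hη : η.IsPrime] (hc : c ≤ η) (p : Ideal B)
    [p.IsPrime] (hN : N ≤ p) (hp : η ≤ p.comap φ) (hδ : δ ∉ p) :
    ∃ q ∈ (η.map φ ⊔ N).minimalPrimes, q ≤ p ∧ q.comap φ = η := by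
  obtain ⟨q, hq, e⟩ := Ideal.exists_minimalPrimes_le
    (sup_le (Ideal.map_le_iff_le_comap.2 hp) hN : η.map φ ⊔ N ≤ p)
  exact ⟨q, hq, e, h.fl0 η hc hq fun e2 => hδ (e e2)⟩

/-- lengths go up -/
theorem Col.ln_le (h : Col φ c N δ) (η : Ideal B) [hη : η.IsPrime] (hN : N ≤ η) (hδ : δ ∉ η)
    {d : Ideal A} (hc : c ≤ d) :
    ln (η.comap φ) (A ⧸ d) ≤ ln η (B ⧸ (d.map φ ⊔ N)) := by
  rw [EtlP.ln_quot, EtlP.ln_quot, Module.length_quotient, Module.length_quotient,
    ← WithBot.coe_le_coe, Order.coheight_eq_krullDim_Ici, Order.coheight_eq_krullDim_Ici]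
  let a := algebraMap A (Localization.AtPrime (η.comap φ))
  let b := algebraMap B (Localization.AtPrime η)
  have hd : ∀ J : Set.Ici (d.map a), d ≤ Ideal.comap a J.1 := fun J => Ideal.map_le_iff_le_comap.1 J.2
  refine Order.krullDim_le_of_strictMono
    (fun J : Set.Ici (d.map a) => (⟨Ideal.map b (Ideal.map φ (Ideal.comap a J.1) ⊔ N),
      Ideal.map_mono (sup_le_sup_right (Ideal.map_mono (hd J)) N)⟩ :
        Set.Ici ((d.map φ ⊔ N).map b))) fun J J' hJ => ?_
  have h1 : J.1 < J'.1 := hJ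
  have h0 : Ideal.map b (Ideal.map φ (Ideal.comap a J.1) ⊔ N) ≤ Ideal.map b (Ideal.map φ (Ideal.comap a J'.1) ⊔ N) :=
    Ideal.map_mono (sup_le_sup_right (Ideal.map_mono (Ideal.comap_mono h1.le)) N)
  refine lt_of_le_not_ge h0 fun h2 => h1.not_ge fun x hx => ?_
  obtain ⟨⟨y, s⟩, e⟩ := IsLocalization.surj (η.comap φ).primeCompl x
  have hy : y ∈ Ideal.comap a J'.1 := by
    show a y ∈ J'.1
    rw [← e]
    exact Ideal.mul_mem_right _ _ hx
  have h3 : b (φ y) ∈ Ideal.map b (Ideal.map φ (Ideal.comap a J.1) ⊔ N) :=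
    (h2 : Ideal.map b (Ideal.map φ (Ideal.comap a J'.1) ⊔ N) ≤ Ideal.map b (Ideal.map φ (Ideal.comap a J.1) ⊔ N))
      (Ideal.mem_map_of_mem b (Ideal.mem_sup_left (Ideal.mem_map_of_mem φ hy)))
  obtain ⟨t, ht, e2⟩ := (IsLocalization.algebraMap_mem_map_algebraMap_iff η.primeCompl _ _ _).1 h3
  obtain ⟨h₀, e3, e4⟩ := h.fl1 η hN hδ (hc.trans (hd J)) ht e2
  have e5 : a h₀ * a y ∈ J.1 := by
    rw [← map_mul]
    exact e4
  rw [← e, ← mul_assoc, mul_right_comm] at e5
  exact (Ideal.unit_mul_mem_iff_mem _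
    ((IsLocalization.map_units _ (⟨h₀, e3⟩ : (η.comap φ).primeCompl)).mul
      (IsLocalization.map_units _ s))).1 e5

/-- transfer along a surjection -/
theorem Col.surj {R : Type} [CommRing R] {C : A →+* R} {N₁ : Ideal R} {ε : R}
    (h : Col C ⊥ N₁ ε) (ψ : R →+* B) (hψ : Function.Surjective ψ) (hφ : ∀ a, ψ (C a) = φ a)
    (h1 : ∀ v ∈ N₁, ψ v ∈ c.map φ ⊔ N) (h2 : ∀ v, ψ v ∈ N → v ∈ sat (c.map C ⊔ N₁) ε) :
    Col φ c N (ψ ε) := by
  have hm : ∀ d : Ideal A, d.map φ = (d.map C).map ψ := fun d => by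
    rw [Ideal.map_map]
    congr 1
    exact RingHom.ext fun a => (hφ a).symm
  intro d hc u v' hv
  obtain ⟨v, rfl⟩ := hψ v'
  obtain ⟨y, hy, n, hn, e⟩ := Submodule.mem_sup.1 hv
  rw [hm] at hy
  obtain ⟨z, hz, rfl⟩ := (Ideal.mem_map_iff_of_surjective ψ hψ).1 hy
  have e1 : ψ (C u * v - z) ∈ N := by
    rw [map_sub, map_mul, hφ, ← e, add_sub_cancel_left]
    exact hn
  obtain ⟨k, hk⟩ := h2 _ e1
  have e2 : C u * (ε ^ k * v) ∈ d.map C ⊔ N₁ := by
    have : C u * (ε ^ k * v) = ε ^ k * (C u * v - z) + ε ^ k * z := by ring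
    rw [this]
    exact Ideal.add_mem _ (sup_le_sup_right (Ideal.map_mono hc) N₁ hk)
      (Ideal.mem_sup_left (Ideal.mul_mem_left _ _ hz))
  obtain ⟨j, hj⟩ := sat_of k (h d bot_le u _ e2)
  refine ⟨j, ?_⟩
  rw [← map_pow, ← map_mul]
  obtain ⟨y, hy, n, hn, e⟩ := Submodule.mem_sup.1 hj
  rw [← e, map_add]
  refine Ideal.add_mem _ (Ideal.mem_sup_left ?_)
    (sup_le_sup_right (Ideal.map_mono (hc.trans (le_cl d u))) N (h1 n hn))
  rw [hm]
  exact Ideal.mem_map_of_mem ψ hy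

/-- colon ideals commute with flat base change -/
theorem flat_cl [Algebra A B] [Module.Flat A B] (I : Ideal A) (x : A) (v : B)
    (h : algebraMap A B x * v ∈ I.map (algebraMap A B)) :
    v ∈ (cl I x).map (algebraMap A B) := by
  obtain ⟨n, s, r, e⟩ := Submodule.mem_span_set'.1 h
  choose r' h1 h2 using fun i => (r i).2
  have e1 : ∑ o : Option (Fin n), (o.elim x fun i => - r' i) • (o.elim v s : B) = 0 := by
    rw [Fintype.sum_option]
    simp only [Option.elim_none, Option.elim_some, neg_smul, Finset.sum_neg_distrib]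
    rw [Algebra.smul_def, ← e, ← sub_eq_add_neg, sub_eq_zero]
    refine Finset.sum_congr rfl fun i _ => ?_
    rw [smul_eq_mul, Algebra.smul_def, h2, mul_comm]
  obtain ⟨k, a, y, e2, e3⟩ := Module.Flat.isTrivialRelation_of_sum_smul_eq_zero (R := A) (M := B)
    (f := fun o : Option (Fin n) => o.elim x fun i => - r' i) (x := fun o => o.elim v s) e1
  have e4 := e2 none
  simp only [Option.elim_none] at e4
  rw [e4]
  refine Ideal.sum_mem _ fun j _ => ?_
  rw [Algebra.smul_def]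
  refine Ideal.mul_mem_right _ _ (Ideal.mem_map_of_mem _ ?_)
  have e5 := e3 j
  rw [Fintype.sum_option] at e5
  simp only [Option.elim_none, Option.elim_some] at e5
  rw [mem_cl, eq_neg_of_add_eq_zero_left e5]
  exact I.neg_mem (I.sum_mem fun i _ => I.mul_mem_right _ (I.neg_mem (h1 i)))

end abs

section poly

open MvPolynomial

variable {A σ τ : Type} [CommRing A] [Fintype σ] (j : τ → σ) (e g : σ → MvPolynomial τ A)

/-- the ideal of the solved equations -/
def N0 : Ideal (MvPolynomial σ A) :=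
  Ideal.span (Set.range fun s => rename j (e s) * X s - rename j (g s))

theorem nf (v : MvPolynomial σ A) :
    ∃ (k : ℕ) (w : MvPolynomial τ A), rename j (∏ s, e s) ^ k * v - rename j w ∈ N0 j e g := by
  classical
  induction v using MvPolynomial.induction_on with
  | C a => exact ⟨0, C a, by rw [pow_zero, one_mul, rename_C, sub_self]; exact zero_mem _⟩
  | add p q hp hq =>
    obtain ⟨k, w, h⟩ := hp
    obtain ⟨k', w', h'⟩ := hq
    refine ⟨k + k', (∏ s, e s) ^ k' * w + (∏ s, e s) ^ k * w', ?_⟩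
    convert Ideal.add_mem _ (Ideal.mul_mem_left _ (rename j (∏ s, e s) ^ k') h)
      (Ideal.mul_mem_left _ (rename j (∏ s, e s) ^ k) h') using 1
    rw [map_add, map_mul, map_mul, map_pow, map_pow]
    ring
  | mul_X p s hp =>
    obtain ⟨k, w, h⟩ := hp
    obtain ⟨r, hr⟩ : e s ∣ ∏ s, e s := Finset.dvd_prod_of_mem _ (Finset.mem_univ s)
    refine ⟨k + 1, w * r * g s, ?_⟩
    have h0 : rename j (e s) * X s - rename j (g s) ∈ N0 j e g := Ideal.subset_span ⟨s, rfl⟩
    convert Ideal.add_mem _ (Ideal.mul_mem_left _ (rename j (∏ s, e s) * X s) h)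
      (Ideal.mul_mem_left _ (rename j w * rename j r) h0) using 1
    rw [map_mul, map_mul, pow_succ]
    have : rename j (∏ s, e s) = rename j (e s) * rename j r := by rw [hr, map_mul]
    linear_combination (rename j w * X s) * this

theorem inj (hj : ∀ t, g (j t) = e (j t) * X t) (d : Ideal A) (w : MvPolynomial τ A)
    (h : rename j w ∈ d.map (C : A →+* MvPolynomial σ A) ⊔ N0 j e g) :
    ∃ k : ℕ, (∏ s, e s) ^ k * w ∈ d.map (C : A →+* MvPolynomial τ A) := by
  classical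
  let D : Ideal (MvPolynomial τ A) := d.map C
  let L := Localization.Away (Ideal.Quotient.mk D (∏ s, e s))
  let π : MvPolynomial τ A →+* L := (algebraMap _ L).comp (Ideal.Quotient.mk D)
  have hu : ∀ s, IsUnit (π (e s)) := fun s => by
    have h1 : IsUnit (π (∏ s, e s)) :=
      IsLocalization.Away.algebraMap_isUnit (S := L) (Ideal.Quotient.mk D (∏ s, e s))
    exact isUnit_of_dvd_unit (map_dvd π (Finset.dvd_prod_of_mem _ (Finset.mem_univ s))) h1
  choose i hi using fun s => (hu s).exists_right_inv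
  let θ : MvPolynomial σ A →+* L := eval₂Hom (π.comp C) fun s => π (g s) * i s
  have h1 : ∀ p, θ (rename j p) = π p := fun p => by
    have : θ.comp (rename j : MvPolynomial τ A →ₐ[A] MvPolynomial σ A).toRingHom = π := by
      refine MvPolynomial.ringHom_ext (fun a => ?_) fun t => ?_
      · show θ (rename j (C a)) = _
        rw [rename_C]
        exact eval₂Hom_C _ _ a
      · show θ (rename j (X t)) = _
        rw [rename_X]
        refine (eval₂Hom_X' _ _ _).trans ?_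
        rw [hj, map_mul, mul_right_comm, hi, one_mul]
    exact RingHom.congr_fun this p
  have h2 : d.map (C : A →+* MvPolynomial σ A) ⊔ N0 j e g ≤ RingHom.ker θ := by
    refine sup_le (Ideal.map_le_iff_le_comap.2 fun a ha => ?_) (Ideal.span_le.2 ?_)
    · show θ (C a) = 0
      refine (eval₂Hom_C _ _ a).trans ?_
      show algebraMap _ L (Ideal.Quotient.mk D (C a)) = 0
      rw [Ideal.Quotient.eq_zero_iff_mem.2 (Ideal.mem_map_of_mem _ ha), map_zero]
    · rintro _ ⟨s, rfl⟩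
      show θ _ = 0
      have : θ (X s) = π (g s) * i s := eval₂Hom_X' _ _ _
      rw [map_sub, map_mul, h1, h1, this, mul_left_comm, hi, mul_one, sub_self]
  have h3 : algebraMap _ L (Ideal.Quotient.mk D w) = 0 := (h1 w).symm.trans (h2 h)
  obtain ⟨⟨_, k, rfl⟩, hk⟩ := (IsLocalization.map_eq_zero_iff
    (Submonoid.powers (Ideal.Quotient.mk D (∏ s, e s))) L _).1 h3
  refine ⟨k, Ideal.Quotient.eq_zero_iff_mem.1 ?_⟩
  rw [map_mul, map_pow]
  exact hk

theorem col_poly (hj : ∀ t, g (j t) = e (j t) * X t) :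
    Col (C : A →+* MvPolynomial σ A) ⊥ (N0 j e g) (rename j (∏ s, e s)) := by
  intro d _ u v hv
  obtain ⟨k, w, h⟩ := nf j e g v
  have h1 : rename j (C u * w) ∈ d.map (C : A →+* MvPolynomial σ A) ⊔ N0 j e g := by
    convert Ideal.sub_mem _ (Ideal.mul_mem_left _ (rename j (∏ s, e s) ^ k) hv)
      (Ideal.mem_sup_right (Ideal.mul_mem_left _ (C u) h)) using 1
    rw [map_mul, rename_C]
    ring
  obtain ⟨m, hm⟩ := inj j e g hj d _ h1
  have h2 : (∏ s, e s) ^ m * w ∈ (cl d u).map (C : A →+* MvPolynomial τ A) := by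
    rw [mul_left_comm, mem_map_C_iff] at hm
    rw [mem_map_C_iff]
    intro n
    have := hm n
    rwa [coeff_C_mul] at this
  have h3 : rename j ((∏ s, e s) ^ m * w) ∈ (cl d u).map (C : A →+* MvPolynomial σ A) := by
    have : (cl d u).map (C : A →+* MvPolynomial τ A) ≤ ((cl d u).map (C : A →+* _)).comap
        (rename j : MvPolynomial τ A →ₐ[A] MvPolynomial σ A).toRingHom :=
      Ideal.map_le_iff_le_comap.2 fun a ha => by
        show rename j (C a) ∈ (cl d u).map (C : A →+* MvPolynomial σ A)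
        rw [rename_C]
        exact Ideal.mem_map_of_mem _ ha
    exact this h2
  refine ⟨m + k, ?_⟩
  convert Ideal.add_mem _ (Ideal.mem_sup_left h3)
    (Ideal.mem_sup_right (Ideal.mul_mem_left _ (rename j (∏ s, e s) ^ m) h)) using 1
  rw [map_mul, map_pow]
  ring

theorem flat_ps [IsNoetherianRing A] : Module.Flat (MvPolynomial σ A) (MvPowerSeries σ A) :=
  Module.Flat.of_linearEquiv (MvPowerSeries.toAdicCompletionAlgEquiv σ A).toLinearEquiv

/-- **solved polynomial equations in a power series ring** -/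
theorem col_ps [IsNoetherianRing A] (hj : ∀ t, g (j t) = e (j t) * X t) :
    Col (MvPowerSeries.C : A →+* MvPowerSeries σ A) ⊥
      ((N0 j e g).map (algebraMap (MvPolynomial σ A) (MvPowerSeries σ A)))
      (algebraMap (MvPolynomial σ A) (MvPowerSeries σ A) (rename j (∏ s, e s))) := by
  haveI := flat_ps (A := A) (σ := σ)
  let a := algebraMap (MvPolynomial σ A) (MvPowerSeries σ A)
  have hC : ∀ u, a (C u) = MvPowerSeries.C u := fun u => MvPolynomial.coe_C u
  have hm : ∀ d : Ideal A, (d.map (C : A →+* MvPolynomial σ A) ⊔ N0 j e g).map a =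
      d.map (MvPowerSeries.C : A →+* MvPowerSeries σ A) ⊔ (N0 j e g).map a := fun d => by
    rw [Ideal.map_sup, Ideal.map_map]
    congr 2
    exact RingHom.ext hC
  intro d _ u v hv
  rw [← hm, ← hC] at hv
  refine (Ideal.map_le_iff_le_comap.2 fun w hw => ?_ : _ ≤ sat _ _) (flat_cl _ _ _ hv)
  obtain ⟨k, hk⟩ := col_poly j e g hj d bot_le u w hw
  refine ⟨k, ?_⟩
  rw [← hm, ← map_pow, ← map_mul]
  exact Ideal.mem_map_of_mem a hk

end poly

end Vale.Agent.P022G.Flat
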