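import Vale.Agent.P022G.Flat

/-!
# P022G: power series in two blocks of variables, and the colon property for `rename`
-/

set_option linter.all false

noncomputable section

namespace Vale.Agent.P022G.Flat

open MvPowerSeries Finset

section sum

variable {σ τ R : Type} [CommRing R]

/-- the exponent with the given two blocks -/
def pr2 (m : σ →₀ ℕ) (n : τ →₀ ℕ) : σ ⊕ τ →₀ ℕ := Finsupp.sumFinsuppAddEquivProdFinsupp.symm (m, n)

theorem pr2_add (m m' : σ →₀ ℕ) (n n' : τ →₀ ℕ) :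
    pr2 (m + m') (n + n') = pr2 m n + pr2 m' n' := by
  unfold pr2
  rw [← map_add, Prod.mk_add_mk]

theorem pr2_inj {m m' : σ →₀ ℕ} {n n' : τ →₀ ℕ} : pr2 m n = pr2 m' n' ↔ m = m' ∧ n = n' := by
  unfold pr2
  rw [EmbeddingLike.apply_eq_iff_eq, Prod.mk.injEq]

theorem pr2_sur (x : σ ⊕ τ →₀ ℕ) : ∃ m n, pr2 m n = x :=
  ⟨(Finsupp.sumFinsuppAddEquivProdFinsupp x).1, (Finsupp.sumFinsuppAddEquivProdFinsupp x).2,
    Finsupp.sumFinsuppAddEquivProdFinsupp.symm_apply_apply x⟩

theorem pr2_inl (m : σ →₀ ℕ) (n : τ →₀ ℕ) (s : σ) : pr2 m n (Sum.inl s) = m s := rfl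

theorem pr2_inr (m : σ →₀ ℕ) (n : τ →₀ ℕ) (t : τ) : pr2 m n (Sum.inr t) = n t := rfl

def sumF (p : MvPowerSeries (σ ⊕ τ) R) : MvPowerSeries τ (MvPowerSeries σ R) :=
  fun n => fun m => coeff (pr2 m n) p

theorem coeff_sumF (p : MvPowerSeries (σ ⊕ τ) R) (m : σ →₀ ℕ) (n : τ →₀ ℕ) :
    coeff m (coeff n (sumF p)) = coeff (pr2 m n) p := rfl

theorem sumF_mul (p q : MvPowerSeries (σ ⊕ τ) R) : sumF (p * q) = sumF p * sumF q := by
  classical
  ext n m
  simp only [coeff_sumF, coeff_mul, map_sum, sum_sigma']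
  symm
  refine sum_bij (fun y _ => (pr2 y.2.1 y.1.1, pr2 y.2.2 y.1.2)) ?_ ?_ ?_ ?_
  · rintro ⟨⟨a, b⟩, ⟨c, d⟩⟩ h
    simp only [mem_sigma, HasAntidiagonal.mem_antidiagonal] at h ⊢
    rw [← pr2_add, h.1, h.2]
  · rintro ⟨⟨a, b⟩, ⟨c, d⟩⟩ _ ⟨⟨a', b'⟩, ⟨c', d'⟩⟩ _ h
    simp only [Prod.mk.injEq, pr2_inj] at h
    obtain ⟨⟨rfl, rfl⟩, rfl, rfl⟩ := h
    rfl
  · rintro ⟨u, v⟩ h
    obtain ⟨c, a, rfl⟩ := pr2_sur u
    obtain ⟨d, b, rfl⟩ := pr2_sur v
    rw [HasAntidiagonal.mem_antidiagonal, ← pr2_add, pr2_inj] at h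
    exact ⟨⟨(a, b), (c, d)⟩, by simp only [mem_sigma, HasAntidiagonal.mem_antidiagonal]; exact ⟨h.2, h.1⟩, rfl⟩
  · intros
    rfl

theorem sumF_monomial (m : σ →₀ ℕ) (n : τ →₀ ℕ) (r : R) :
    sumF (monomial (pr2 m n) r) = monomial n (monomial m r) := by
  classical
  ext n' m'
  rw [coeff_sumF, coeff_monomial, coeff_monomial]
  by_cases h : n' = n
  · rw [if_pos h, coeff_monomial]
    exact if_congr (by rw [pr2_inj, and_iff_left h]) rfl rfl
  · rw [if_neg h, if_neg fun e => h (pr2_inj.1 e).2, map_zero]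

variable (σ τ R) in
/-- power series in two blocks of variables -/
def sumE : MvPowerSeries (σ ⊕ τ) R ≃+* MvPowerSeries τ (MvPowerSeries σ R) where
  toFun := sumF
  invFun p := fun x => coeff (Finsupp.sumFinsuppAddEquivProdFinsupp x).1
    (coeff (Finsupp.sumFinsuppAddEquivProdFinsupp x).2 p)
  left_inv p := by
    ext x
    exact congrArg (fun y => coeff y p) (Finsupp.sumFinsuppAddEquivProdFinsupp.symm_apply_apply x)
  right_inv p := by
    ext n m
    show coeff (Finsupp.sumFinsuppAddEquivProdFinsupp (pr2 m n)).1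
      (coeff (Finsupp.sumFinsuppAddEquivProdFinsupp (pr2 m n)).2 p) = _
    unfold pr2
    rw [AddEquiv.apply_symm_apply]
  map_mul' := sumF_mul
  map_add' p q := by
    ext n m
    rw [map_add, map_add, coeff_sumF, coeff_sumF, coeff_sumF, map_add]

theorem sumE_X_inr (t : τ) : sumE σ τ R (X (Sum.inr t)) = X t := by
  have : Finsupp.single (Sum.inr t) 1 = pr2 (0 : σ →₀ ℕ) (Finsupp.single t 1) := by
    classical
    ext x
    cases x with
    | inl s => rw [pr2_inl]; simp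
    | inr s => rw [pr2_inr]; simp [Finsupp.single_apply]
  show sumF (monomial (Finsupp.single (Sum.inr t) 1) 1) = _
  rw [this, sumF_monomial]
  rfl

theorem sumE_rename (f : MvPowerSeries σ R) :
    sumE σ τ R (rename (Function.Embedding.inl : σ ↪ σ ⊕ τ) f) = C f := by
  classical
  ext n m
  show coeff (pr2 m n) (rename (Function.Embedding.inl : σ ↪ σ ⊕ τ) f) = _
  rw [coeff_C]
  split_ifs with h
  · have : pr2 m n = Finsupp.embDomain (Function.Embedding.inl : σ ↪ σ ⊕ τ) m := by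
      ext x
      cases x with
      | inl s => exact (Finsupp.embDomain_apply_self (Function.Embedding.inl : σ ↪ σ ⊕ τ) m s).symm
      | inr s =>
        rw [pr2_inr, h, Finsupp.embDomain_notin_range]
        · rfl
        · rintro ⟨_, e⟩
          cases e
    rw [this, coeff_embDomain_rename]
  · rw [map_zero]
    refine coeff_rename_eq_zero _ _ ?_
    rintro ⟨k, hk⟩
    apply h
    ext t
    rw [← pr2_inr m n t, ← hk, Finsupp.mapDomain_notin_range]
    · rfl
    · rintro ⟨_, e⟩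
      cases e

end sum

section ren

variable {O σ τ σ' τ₀ : Type} [CommRing O] [Fintype τ]

/-- the inclusion of the first block -/
def inc (O : Type) [CommRing O] (E : σ ⊕ τ ≃ σ') : MvPowerSeries σ O →+* MvPowerSeries σ' O :=
  (rename (R := O) ((Function.Embedding.inl : σ ↪ σ ⊕ τ).trans E.toEmbedding) :
    MvPowerSeries σ O →ₐ[O] _)

theorem inc_X (E : σ ⊕ τ ≃ σ') (s : σ) : inc O E (X s) = X (E (Sum.inl s)) := rename_X _ s

theorem inc_C (E : σ ⊕ τ ≃ σ') (o : O) : inc O E (C o) = C o := rename_C _ o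

/-- the two block presentation -/
theorem ex_pres (E : σ ⊕ τ ≃ σ') : ∃ ψ : MvPowerSeries τ (MvPowerSeries σ O) ≃+* MvPowerSeries σ' O,
    (∀ a, ψ (C a) = inc O E a) ∧ ∀ t, ψ (X t) = X (E (Sum.inr t)) := by
  refine ⟨(sumE σ τ O).symm.trans (renameEquiv O E).toRingEquiv, fun a => ?_, fun t => ?_⟩
  · rw [← sumE_rename, RingEquiv.trans_apply, RingEquiv.symm_apply_apply]
    exact rename_rename _ _ a
  · rw [← sumE_X_inr, RingEquiv.trans_apply, RingEquiv.symm_apply_apply]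
    exact rename_X _ _

/-- evaluation of polynomials in the free variables -/
def evf (E : σ ⊕ τ ≃ σ') (j : τ₀ → τ) :
    MvPolynomial τ₀ (MvPowerSeries σ O) →+* MvPowerSeries σ' O :=
  MvPolynomial.eval₂Hom (inc O E) fun t => X (E (Sum.inr (j t)))

theorem evf_C (E : σ ⊕ τ ≃ σ') (j : τ₀ → τ) (a : MvPowerSeries σ O) :
    evf E j (MvPolynomial.C a) = inc O E a := MvPolynomial.eval₂Hom_C _ _ a

theorem evf_X (E : σ ⊕ τ ≃ σ') (j : τ₀ → τ) (t : τ₀) :
    evf (O := O) E j (MvPolynomial.X t) = X (E (Sum.inr (j t))) := MvPolynomial.eval₂Hom_X' _ _ t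

/-- **the colon property for solved equations** -/
theorem col_ren [IsNoetherianRing (MvPowerSeries σ O)] (E : σ ⊕ τ ≃ σ') (j : τ₀ → τ)
    (e g : τ → MvPolynomial τ₀ (MvPowerSeries σ O))
    (hj : ∀ t, g (j t) = e (j t) * MvPolynomial.X t) (c : Ideal (MvPowerSeries σ O))
    (N : Ideal (MvPowerSeries σ' O))
    (h1 : ∀ s, evf E j (e s) * X (E (Sum.inr s)) - evf E j (g s) ∈ c.map (inc O E) ⊔ N)
    (h2 : N ≤ sat (c.map (inc O E) ⊔ Ideal.span (Set.range fun s =>
      evf E j (e s) * X (E (Sum.inr s)) - evf E j (g s))) (∏ s, evf E j (e s))) :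
    Col (inc O E) c N (∏ s, evf E j (e s)) := by
  obtain ⟨ψ, p1, p2⟩ := ex_pres (O := O) E
  let a := algebraMap (MvPolynomial τ (MvPowerSeries σ O)) (MvPowerSeries τ (MvPowerSeries σ O))
  have aX : ∀ s, ψ (a (MvPolynomial.X s)) = X (E (Sum.inr s)) := fun s =>
    (congrArg ψ (MvPolynomial.coe_X s)).trans (p2 s)
  have ev : ∀ p, ψ (a (MvPolynomial.rename j p)) = evf E j p := fun p => by
    have : (ψ.toRingHom.comp a).comp (MvPolynomial.rename j : _ →ₐ[MvPowerSeries σ O] _).toRingHom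
        = evf E j := by
      refine MvPolynomial.ringHom_ext (fun u => ?_) fun t => ?_
      · show ψ (a (MvPolynomial.rename j (MvPolynomial.C u))) = _
        rw [MvPolynomial.rename_C, evf_C]
        exact (congrArg ψ (MvPolynomial.coe_C u)).trans (p1 u)
      · show ψ (a (MvPolynomial.rename j (MvPolynomial.X t))) = _
        rw [MvPolynomial.rename_X, evf_X, aX]
    exact RingHom.congr_fun this p
  have hN : ((N0 j e g).map a).map ψ.toRingHom = Ideal.span (Set.range fun s =>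
      evf E j (e s) * X (E (Sum.inr s)) - evf E j (g s)) := by
    rw [Ideal.map_map, N0, Ideal.map_span, ← Set.range_comp]
    congr 2
    funext s
    show ψ (a _) = _
    rw [map_sub, map_sub, map_mul, map_mul, ev, ev, aX]
  have hc : (c.map (C : MvPowerSeries σ O →+* MvPowerSeries τ _)).map ψ.toRingHom =
      c.map (inc O E) := by
    rw [Ideal.map_map]
    congr 1
    exact RingHom.ext p1
  have he : ψ.toRingHom (a (MvPolynomial.rename j (∏ s, e s))) = ∏ s, evf E j (e s) := by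
    rw [← map_prod]
    exact ev _
  rw [← he]
  refine (col_ps j e g hj).surj ψ.toRingHom ψ.surjective p1 (fun v hv => ?_) fun v hv => ?_
  · have : ψ.toRingHom v ∈ ((N0 j e g).map a).map ψ.toRingHom := Ideal.mem_map_of_mem _ hv
    rw [hN] at this
    refine (Ideal.span_le.2 ?_ : _ ≤ c.map (inc O E) ⊔ N) this
    rintro _ ⟨s, rfl⟩
    exact h1 s
  · obtain ⟨k, hk⟩ := h2 hv
    refine ⟨k, ?_⟩
    rw [← he, ← hN, ← hc, ← Ideal.map_sup, ← map_pow, ← map_mul] at hk
    obtain ⟨z, hz, e1⟩ := (Ideal.mem_map_iff_of_surjective ψ.toRingHom ψ.surjective).1 hk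
    rwa [← ψ.injective e1]

end ren

end Vale.Agent.P022G.Flat
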