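import Vale.Agent.P022G.Flat
import Vale.Agent.P022G.Sum
import Vale.Agent.P022G.Pt.Defs

/-!
# P022G: the colon property of the framed chart
-/

set_option linter.all false

noncomputable section

namespace Vale.Agent.P022G.Flat

open MvPowerSeries _root_.P022G.Sum

section abs

variable {A B R : Type} [CommRing A] [CommRing B] [CommRing R] {φ : A →+* B} {c : Ideal A}
  {N : Ideal B} {δ : B}

theorem sat_dvd {K : Ideal B} {δ δ' : B} (h : δ ∣ δ') : sat K δ ≤ sat K δ' := by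
  rintro v ⟨k, hk⟩
  obtain ⟨e, rfl⟩ := h
  refine ⟨k, ?_⟩
  rw [mul_pow, mul_comm (δ ^ k), mul_assoc]
  exact K.mul_mem_left _ hk

theorem sat_sat {K : Ideal B} {δ : B} : sat (sat K δ) δ ≤ sat K δ := fun _ ⟨k, hk⟩ => sat_of k hk

/-- composition -/
theorem Col.comp (h : Col φ c N δ) {φ' : B →+* R} {N' : Ideal R} {δ' : R} (h' : Col φ' ⊥ N' δ') :
    Col (φ'.comp φ) c (N.map φ' ⊔ N') (φ' δ * δ') := by
  have hm : ∀ d : Ideal A, d.map (φ'.comp φ) ⊔ (N.map φ' ⊔ N') = (d.map φ ⊔ N).map φ' ⊔ N' :=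
    fun d => by rw [Ideal.map_sup, Ideal.map_map, sup_assoc]
  intro d hc u v hv
  rw [hm] at hv ⊢
  have h1 := h' _ bot_le (φ u) v hv
  refine sat_sat (sat_dvd (dvd_mul_left δ' (φ' δ)) (sat_mono (sup_le ?_ ?_) _ h1))
  · refine Ideal.map_le_iff_le_comap.2 fun w hw => ?_
    obtain ⟨k, hk⟩ := h d hc u w hw
    refine sat_dvd (dvd_mul_right (φ' δ) δ') ⟨k, Ideal.mem_sup_left ?_⟩
    rw [← map_pow, ← map_mul]
    exact Ideal.mem_map_of_mem _ hk
  · exact le_sup_right.trans (le_sat _ _)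

/-- change of the ideal of equations -/
theorem Col.chg (h : Col φ c N δ) {N' : Ideal B} (h1 : N ≤ sat (c.map φ ⊔ N') δ)
    (h2 : N' ≤ sat (c.map φ ⊔ N) δ) : Col φ c N' δ := by
  have key : ∀ (d : Ideal A) (M M' : Ideal B), c ≤ d → M ≤ sat (c.map φ ⊔ M') δ →
      d.map φ ⊔ M ≤ sat (d.map φ ⊔ M') δ := fun d M M' hc hM =>
    sup_le (le_sup_left.trans (le_sat _ _))
      (hM.trans (sat_mono (sup_le_sup_right (Ideal.map_mono hc) _) _))
  intro d hc u v hv
  obtain ⟨k, hk⟩ := key d N' N hc h2 hv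
  rw [mul_left_comm] at hk
  exact sat_of k (sat_sat (sat_mono (key _ N N' (hc.trans (le_cl d u)) h1) _ (h d hc u _ hk)))

/-- the form at a prime -/
theorem Col.at (h : Col φ c N δ) (p : Ideal B) [hp : p.IsPrime] (hδ : δ ∉ p) (d : Ideal A)
    (hc : c ≤ d) (u : A) (v : B) (hv : φ u * v ∈ d.map φ ⊔ N) :
    ∃ s ∉ p, s * v ∈ (cl d u).map φ ⊔ N := by
  obtain ⟨k, hk⟩ := h d hc u v hv
  exact ⟨δ ^ k, fun e => hδ (hp.mem_of_pow_mem _ e), hk⟩

end abs

variable {P S τ τ₀ I J K M : Type} [CommRing P] [CommRing S] [IsNoetherianRing P] {ψ : P →+* S}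

/-- **solved equations** in a power series extension -/
theorem col_ext [Fintype τ] {z : τ → S} (h : Ext ψ z) (j : τ₀ → τ) (e g : τ → MvPolynomial τ₀ P)
    (hj : ∀ t, g (j t) = e (j t) * MvPolynomial.X t) (ev : MvPolynomial τ₀ P →+* S)
    (v1 : ∀ a, ev (MvPolynomial.C a) = ψ a) (v2 : ∀ t, ev (MvPolynomial.X t) = z (j t))
    (c : Ideal P) (N : Ideal S) (h1 : ∀ s, ev (e s) * z s - ev (g s) ∈ c.map ψ ⊔ N)
    (h2 : N ≤ sat (c.map ψ ⊔ Ideal.span (Set.range fun s => ev (e s) * z s - ev (g s)))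
      (∏ s, ev (e s))) : Col ψ c N (∏ s, ev (e s)) := by
  obtain ⟨E, p1, p2⟩ := h
  let a := algebraMap (MvPolynomial τ P) (MvPowerSeries τ P)
  have aX : ∀ s, E (a (MvPolynomial.X s)) = z s := fun s =>
    (congrArg E (MvPolynomial.coe_X s)).trans (p2 s)
  have hv : ∀ p, E (a (MvPolynomial.rename j p)) = ev p := fun p => by
    have : (E.toRingHom.comp a).comp (MvPolynomial.rename j : _ →ₐ[P] _).toRingHom = ev := by
      refine MvPolynomial.ringHom_ext (fun u => ?_) fun t => ?_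
      · show E (a (MvPolynomial.rename j (MvPolynomial.C u))) = _
        rw [MvPolynomial.rename_C, v1]
        exact (congrArg E (MvPolynomial.coe_C u)).trans (p1 u)
      · show E (a (MvPolynomial.rename j (MvPolynomial.X t))) = _
        rw [MvPolynomial.rename_X, v2, aX]
    exact RingHom.congr_fun this p
  have hN : ((N0 j e g).map a).map E.toRingHom =
      Ideal.span (Set.range fun s => ev (e s) * z s - ev (g s)) := by
    rw [Ideal.map_map, N0, Ideal.map_span, ← Set.range_comp]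
    congr 2
    funext s
    show E (a _) = _
    rw [map_sub, map_sub, map_mul, map_mul, hv, hv, aX]
  have hc : (c.map (C : P →+* MvPowerSeries τ P)).map E.toRingHom = c.map ψ := by
    rw [Ideal.map_map]
    congr 1
    exact RingHom.ext p1
  have he : E.toRingHom (a (MvPolynomial.rename j (∏ s, e s))) = ∏ s, ev (e s) := by
    rw [← map_prod]
    exact hv _
  rw [← he]
  refine (col_ps j e g hj).surj E.toRingHom E.surjective p1 (fun v hv => ?_) fun v hv => ?_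
  · have : E.toRingHom v ∈ ((N0 j e g).map a).map E.toRingHom := Ideal.mem_map_of_mem _ hv
    rw [hN] at this
    refine (Ideal.span_le.2 ?_ : _ ≤ c.map ψ ⊔ N) this
    rintro _ ⟨s, rfl⟩
    exact h1 s
  · obtain ⟨k, hk⟩ := h2 hv
    refine ⟨k, ?_⟩
    rw [← he, ← hN, ← hc, ← Ideal.map_sup, ← map_pow, ← map_mul] at hk
    obtain ⟨w, hz, e1⟩ := (Ideal.mem_map_iff_of_surjective E.toRingHom E.surjective).1 hk
    rwa [← E.injective e1]

/-- graphs -/
theorem col_graph [Fintype M] {z : M → S} (h : Ext ψ z) (u g : M → S) (hu : ∀ k, u k ∈ ψ.range)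
    (hg : ∀ k, g k ∈ ψ.range) :
    Col ψ ⊥ (Ideal.span (Set.range fun k => u k * z k - g k)) (∏ k, u k) := by
  choose u' h1 using hu
  choose g' h2 using hg
  have v1 : ∀ a, MvPolynomial.eval₂Hom ψ (Empty.elim : Empty → S) (MvPolynomial.C a) = ψ a :=
    fun a => MvPolynomial.eval₂Hom_C _ _ a
  have := col_ext h (Empty.elim : Empty → M) (fun k => MvPolynomial.C (u' k))
    (fun k => MvPolynomial.C (g' k)) (fun t => t.elim) (MvPolynomial.eval₂Hom ψ Empty.elim) v1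
    (fun t => t.elim) ⊥ (Ideal.span (Set.range fun k => u k * z k - g k))
  simp only [v1, h1, h2] at this
  exact this (fun s => Ideal.mem_sup_right (Ideal.subset_span ⟨s, rfl⟩))
    (le_sup_right.trans (le_sat _ _))

/-- **the off diagonal entries** -/
theorem col_gma [Fintype I] [Fintype J] [Fintype K] {z : (I ⊕ J) ⊕ K → S} (h : Ext ψ z)
    (b₀ : I → P) (c₀ : J → P) (x : I → J → P) (b : I → S) (c : J → S)
    (hb : ∀ i, b i = ψ (b₀ i) + z (Sum.inl (Sum.inl i)))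
    (hc : ∀ j, c j = ψ (c₀ j) + z (Sum.inl (Sum.inr j))) (i₀ : I) (j₀ : J)
    (𝔠 : Ideal P) (hx : ∀ i j, x i₀ j₀ * x i j - x i j₀ * x i₀ j ∈ 𝔠) :
    Col ψ 𝔠 (Ideal.span (Set.range fun p : I × J => b p.1 * c p.2 - ψ (x p.1 p.2)))
      (ψ (x i₀ j₀) * b i₀) := by
  classical
  let W : MvPolynomial (Option K) P := MvPolynomial.C (b₀ i₀) + MvPolynomial.X none
  let j : Option K → (I ⊕ J) ⊕ K := fun o => o.elim (Sum.inl (Sum.inl i₀)) Sum.inr
  let e : (I ⊕ J) ⊕ K → MvPolynomial (Option K) P :=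
    Sum.elim (Sum.elim (fun _ => MvPolynomial.C (x i₀ j₀)) fun _ => W) fun _ => 1
  let g : (I ⊕ J) ⊕ K → MvPolynomial (Option K) P :=
    Sum.elim (Sum.elim (fun i => MvPolynomial.C (x i j₀) * W -
      MvPolynomial.C (x i₀ j₀) * MvPolynomial.C (b₀ i))
      fun j => MvPolynomial.C (x i₀ j) - W * MvPolynomial.C (c₀ j)) fun k => MvPolynomial.X (some k)
  let ev : MvPolynomial (Option K) P →+* S := MvPolynomial.eval₂Hom ψ fun t => z (j t)
  have v1 : ∀ a, ev (MvPolynomial.C a) = ψ a := fun a => MvPolynomial.eval₂Hom_C _ _ a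
  have v2 : ∀ t, ev (MvPolynomial.X t) = z (j t) := fun t => MvPolynomial.eval₂Hom_X' _ _ t
  have hW : ev W = b i₀ := by
    rw [hb, map_add, v1, v2]
    rfl
  have r1 : ∀ i, ev (e (Sum.inl (Sum.inl i))) * z (Sum.inl (Sum.inl i)) -
      ev (g (Sum.inl (Sum.inl i))) = ψ (x i₀ j₀) * b i - ψ (x i j₀) * b i₀ := fun i => by
    show ev (MvPolynomial.C (x i₀ j₀)) * _ - ev (MvPolynomial.C (x i j₀) * W -
      MvPolynomial.C (x i₀ j₀) * MvPolynomial.C (b₀ i)) = _
    rw [map_sub, map_mul, map_mul, hW, v1, v1, v1, hb i]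
    ring
  have r2 : ∀ k, ev (e (Sum.inl (Sum.inr k))) * z (Sum.inl (Sum.inr k)) -
      ev (g (Sum.inl (Sum.inr k))) = b i₀ * c k - ψ (x i₀ k) := fun k => by
    show ev W * _ - ev (MvPolynomial.C (x i₀ k) - W * MvPolynomial.C (c₀ k)) = _
    rw [map_sub, map_mul, hW, v1, v1, hc k]
    ring
  have r3 : ∀ k, ev (e (Sum.inr k)) = 1 := fun k => map_one ev
  have n1 : ∀ i k, b i * c k - ψ (x i k) ∈ Ideal.span (Set.range fun p : I × J =>
      b p.1 * c p.2 - ψ (x p.1 p.2)) := fun i k => Ideal.subset_span ⟨(i, k), rfl⟩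
  have d1 : ∀ s, ev (e s) ∣ ψ (x i₀ j₀) * b i₀ := by
    rintro ((i | k) | k)
    · exact (v1 _).symm ▸ dvd_mul_right _ _
    · exact hW.symm ▸ dvd_mul_left _ _
    · exact (r3 k).symm ▸ one_dvd _
  refine (col_ext h j e g ?_ ev v1 v2 𝔠 _ ?_ ?_).dvd (m := Fintype.card ((I ⊕ J) ⊕ K)) ?_
  · rintro (_ | k)
    · show MvPolynomial.C (x i₀ j₀) * (MvPolynomial.C (b₀ i₀) + MvPolynomial.X none) -
        MvPolynomial.C (x i₀ j₀) * MvPolynomial.C (b₀ i₀) =
          MvPolynomial.C (x i₀ j₀) * MvPolynomial.X (none : Option K)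
      ring
    · exact (one_mul _).symm
  · rintro ((i | k) | k)
    · rw [r1]
      refine Ideal.mem_sup_right ?_
      convert Ideal.sub_mem _ (Ideal.mul_mem_left _ (b i₀) (n1 i j₀))
        (Ideal.mul_mem_left _ (b i) (n1 i₀ j₀)) using 1
      ring
    · rw [r2]
      exact Ideal.mem_sup_right (n1 i₀ k)
    · rw [r3, one_mul]
      show _ - ev (MvPolynomial.X (some k)) ∈ _
      rw [v2]
      exact (sub_self (z (Sum.inr k))).symm ▸ zero_mem _
  · refine Ideal.span_le.2 ?_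
    rintro _ ⟨⟨i, k⟩, rfl⟩
    have d2 : ψ (x i₀ j₀) * b i₀ ∣ ∏ s, ev (e s) := by
      have := Finset.prod_dvd_prod_of_subset
        ({Sum.inl (Sum.inl i₀), Sum.inl (Sum.inr j₀)} : Finset ((I ⊕ J) ⊕ K)) Finset.univ
        (fun s => ev (e s)) (Finset.subset_univ _)
      rw [Finset.prod_pair (by simp)] at this
      exact (v1 (x i₀ j₀)) ▸ hW ▸ this
    refine sat_dvd d2 ⟨1, ?_⟩
    have a1 := Ideal.subset_span (s := Set.range fun s => ev (e s) * z s - ev (g s))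
      ⟨Sum.inl (Sum.inl i), r1 i⟩
    have a2 := Ideal.subset_span (s := Set.range fun s => ev (e s) * z s - ev (g s))
      ⟨Sum.inl (Sum.inr k), r2 k⟩
    have a3 := Ideal.mem_map_of_mem ψ (hx i k)
    rw [map_sub, map_mul, map_mul] at a3
    convert Ideal.sub_mem _ (Ideal.mem_sup_right (Ideal.add_mem _
      (Ideal.mul_mem_left _ (b i₀ * c k) a1)
      (Ideal.mul_mem_left _ (ψ (x i j₀) * b i₀) a2)))
      (Ideal.mem_sup_left (Ideal.mul_mem_left _ (b i₀) a3)) using 1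
    ring
  · rw [← Finset.card_univ, ← Finset.prod_const]
    exact Finset.prod_dvd_prod_of_dvd _ _ fun s _ => d1 s

/-- an extension in two steps -/
theorem ext_split {z : τ ⊕ M → S} (h : Ext ψ z) : ∃ ψ₂ : MvPowerSeries τ P →+* S,
    Ext ψ₂ (fun m => z (Sum.inr m)) ∧ ψ₂.comp C = ψ ∧ ∀ t, ψ₂ (X t) = z (Sum.inl t) := by
  obtain ⟨E, p1, p2⟩ := h
  refine ⟨(E.toRingHom.comp (sumEquiv τ M P).symm.toRingHom).comp C,
    ⟨(sumEquiv τ M P).symm.trans E, fun _ => rfl, fun m => ?_⟩, RingHom.ext fun a => ?_, fun t => ?_⟩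
  · rw [← sumEquiv_X_inr, RingEquiv.trans_apply, RingEquiv.symm_apply_apply, p2]
  · show E ((sumEquiv τ M P).symm (C (C a))) = _
    rw [← sumEquiv_C, RingEquiv.symm_apply_apply, p1]
  · show E ((sumEquiv τ M P).symm (C (X t))) = _
    rw [← sumEquiv_X_inl, RingEquiv.symm_apply_apply, p2]

/-- **the framed chart**: off diagonal entries `I ⊕ J`, free variables `K`, graphs `M` -/
theorem col_chart [Fintype I] [Fintype J] [Fintype K] [Fintype M] {z : ((I ⊕ J) ⊕ K) ⊕ M → S}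
    (h : Ext ψ z) (b₀ : I → P) (c₀ : J → P) (x : I → J → P) (b : I → S) (c : J → S)
    (hb : ∀ i, b i = ψ (b₀ i) + z (Sum.inl (Sum.inl (Sum.inl i))))
    (hc : ∀ j, c j = ψ (c₀ j) + z (Sum.inl (Sum.inl (Sum.inr j)))) (i₀ : I) (j₀ : J)
    (𝔠 : Ideal P) (hx : ∀ i j, x i₀ j₀ * x i j - x i j₀ * x i₀ j ∈ 𝔠) (u g : M → S)
    (hug : ∀ A : Subring S, (∀ a, ψ a ∈ A) → (∀ t, z (Sum.inl t) ∈ A) →
      (∀ w ∈ A, IsUnit w → ∃ w' ∈ A, w * w' = 1) → ∀ m, u m ∈ A ∧ g m ∈ A) :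
    Col ψ 𝔠 (Ideal.span (Set.range fun p : I × J => b p.1 * c p.2 - ψ (x p.1 p.2)) ⊔
      Ideal.span (Set.range fun m => u m * z (Sum.inr m) - g m))
      (ψ (x i₀ j₀) * b i₀ * ∏ m, u m) := by
  obtain ⟨ψ₂, e2, q1, q2⟩ := ext_split h
  have q3 : ∀ a, ψ₂ (C a) = ψ a := fun a => RingHom.congr_fun q1 a
  haveI : IsNoetherianRing (MvPowerSeries ((I ⊕ J) ⊕ K) P) := inferInstance
  have k := hug ψ₂.range (fun a => ⟨C a, q3 a⟩) (fun t => ⟨X t, q2 t⟩) (by
    rintro _ ⟨w, rfl⟩ hw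
    obtain ⟨E, p1, -⟩ := e2
    rw [← p1, MulEquiv.isUnit_map, isUnit_iff_constantCoeff, constantCoeff_C] at hw
    obtain ⟨w', e⟩ := hw.exists_right_inv
    exact ⟨ψ₂ w', ⟨w', rfl⟩, by rw [← map_mul, e, map_one]⟩)
  have := (col_gma (ext_C ((I ⊕ J) ⊕ K)) b₀ c₀ x (fun i => C (b₀ i) + X (Sum.inl (Sum.inl i)))
    (fun j => C (c₀ j) + X (Sum.inl (Sum.inr j))) (fun _ => rfl) (fun _ => rfl) i₀ j₀ 𝔠 hx).comp
    (col_graph e2 u g (fun m => (k m).1) fun m => (k m).2)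
  rw [q1, Ideal.map_span, ← Set.range_comp] at this
  convert this using 5
  · simp only [Function.comp, map_sub, map_mul, map_add, q3, q2, hb, hc]
  · rw [map_mul, map_add, q3, q3, q2, hb]

/-- the form used by the patching argument -/
theorem Col.pt {A B : Type} [CommRing A] [CommRing B] {φ : A →+* B} {c : Ideal A} {N : Ideal B}
    {δ : B} (h : Col φ c N δ) (p : Ideal B) [p.IsPrime] (hδ : δ ∉ p) : Pt.Col φ c N p :=
  fun d hc u v hv => h.at p hδ d hc u v hv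

end Vale.Agent.P022G.Flat
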