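import Vale.Agent.P022G.Flat3

/-!
# P022G: the colon property of the framed chart, some variables being put equal to zero
-/

set_option linter.all false

noncomputable section

namespace Vale.Agent.P022G.Flat

open MvPowerSeries _root_.P022G.Sum

variable {P S I J K M : Type} [CommRing P] [CommRing S] [IsNoetherianRing P] {ψ : P →+* S}

/-- **the off diagonal entries** -/
theorem col_gma0 [Fintype I] [Fintype J] [Fintype K] {z : (I ⊕ J) ⊕ K → S} (h : Ext ψ z)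
    (b₀ : I → P) (c₀ : J → P) (x : I → J → P) (b : I → S) (c : J → S)
    (hb : ∀ i, b i = ψ (b₀ i) + z (Sum.inl (Sum.inl i)))
    (hc : ∀ j, c j = ψ (c₀ j) + z (Sum.inl (Sum.inr j))) (i₀ : I) (j₀ : J)
    (𝔠 : Ideal P) (hx : ∀ i j, x i₀ j₀ * x i j - x i j₀ * x i₀ j ∈ 𝔠) (p : K → Prop) :
    Col ψ 𝔠 (Ideal.span (Set.range fun p : I × J => b p.1 * c p.2 - ψ (x p.1 p.2)) ⊔
      Ideal.span (Set.range fun k : {k // p k} => z (Sum.inr k.1))) (ψ (x i₀ j₀) * b i₀) := by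
  classical
  let W : MvPolynomial (Option {k // ¬ p k}) P := MvPolynomial.C (b₀ i₀) + MvPolynomial.X none
  let j : Option {k // ¬ p k} → (I ⊕ J) ⊕ K := fun o => o.elim (Sum.inl (Sum.inl i₀)) fun k => Sum.inr k.1
  let e : (I ⊕ J) ⊕ K → MvPolynomial (Option {k // ¬ p k}) P :=
    Sum.elim (Sum.elim (fun _ => MvPolynomial.C (x i₀ j₀)) fun _ => W) fun _ => 1
  let g : (I ⊕ J) ⊕ K → MvPolynomial (Option {k // ¬ p k}) P :=
    Sum.elim (Sum.elim (fun i => MvPolynomial.C (x i j₀) * W -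
      MvPolynomial.C (x i₀ j₀) * MvPolynomial.C (b₀ i))
      fun j => MvPolynomial.C (x i₀ j) - W * MvPolynomial.C (c₀ j)) fun k =>
        if h : p k then 0 else MvPolynomial.X (some ⟨k, h⟩)
  let ev : MvPolynomial (Option {k // ¬ p k}) P →+* S := MvPolynomial.eval₂Hom ψ fun t => z (j t)
  have v1 : ∀ a, ev (MvPolynomial.C a) = ψ a := fun a => MvPolynomial.eval₂Hom_C _ _ a
  have v2 : ∀ t, ev (MvPolynomial.X t) = z (j t) := fun t => MvPolynomial.eval₂Hom_X' _ _ t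
  have hW : ev W = b i₀ := by
    rw [hb, map_add, v1, v2]
    rfl
  have r1 : ∀ i, ev (e (Sum.inl (Sum.inl i))) * z (Sum.inl (Sum.inl i)) -
      ev (g (Sum.inl (Sum.inl i))) = ψ (x i₀ j₀) * b i - ψ (x i j₀) * b i₀ := fun i => by
    show ev (MvPolynomial.C (x i₀ j₀)) * _ - ev (MvPolynomial.C (x i j₀) * W -
      MvPolynomial.C (x i₀ j₀) * MvPolynomial.C (b₀ i)) = _
    rw [map_sub, map_mul, map_mul, hW, v1, v1, v1, hb i]
    ring
  have r2 : ∀ k, ev (e (Sum.inl (Sum.inr k))) * z (Sum.inl (Sum.inr k)) -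
      ev (g (Sum.inl (Sum.inr k))) = b i₀ * c k - ψ (x i₀ k) := fun k => by
    show ev W * _ - ev (MvPolynomial.C (x i₀ k) - W * MvPolynomial.C (c₀ k)) = _
    rw [map_sub, map_mul, hW, v1, v1, hc k]
    ring
  have r3 : ∀ k, ev (e (Sum.inr k)) = 1 := fun k => map_one ev
  have r4 : ∀ k, p k → ev (g (Sum.inr k)) = 0 := fun k hk =>
    (congrArg ev (dif_pos hk)).trans (map_zero ev)
  have n1 : ∀ i k, b i * c k - ψ (x i k) ∈ Ideal.span (Set.range fun p : I × J =>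
      b p.1 * c p.2 - ψ (x p.1 p.2)) := fun i k => Ideal.subset_span ⟨(i, k), rfl⟩
  have d1 : ∀ s, ev (e s) ∣ ψ (x i₀ j₀) * b i₀ := by
    rintro ((i | k) | k)
    · exact (v1 _).symm ▸ dvd_mul_right _ _
    · exact hW.symm ▸ dvd_mul_left _ _
    · exact (r3 k).symm ▸ one_dvd _
  refine (col_ext h j e g ?_ ev v1 v2 𝔠 _ ?_ ?_).dvd (m := Fintype.card ((I ⊕ J) ⊕ K)) ?_
  · rintro (_ | k)
    · show MvPolynomial.C (x i₀ j₀) * (MvPolynomial.C (b₀ i₀) + MvPolynomial.X none) -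
        MvPolynomial.C (x i₀ j₀) * MvPolynomial.C (b₀ i₀) =
          MvPolynomial.C (x i₀ j₀) * MvPolynomial.X (none : Option {k // ¬ p k})
      ring
    · exact (dif_neg k.2).trans (one_mul _).symm
  · rintro ((i | k) | k)
    · rw [r1]
      refine Ideal.mem_sup_right (Ideal.mem_sup_left ?_)
      convert Ideal.sub_mem _ (Ideal.mul_mem_left _ (b i₀) (n1 i j₀))
        (Ideal.mul_mem_left _ (b i) (n1 i₀ j₀)) using 1
      ring
    · rw [r2]
      exact Ideal.mem_sup_right (Ideal.mem_sup_left (n1 i₀ k))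
    · rw [r3, one_mul]
      by_cases hk : p k
      · rw [r4 k hk, sub_zero]
        exact Ideal.mem_sup_right (Ideal.mem_sup_right (Ideal.subset_span ⟨⟨k, hk⟩, rfl⟩))
      · have : g (Sum.inr k) = MvPolynomial.X (some ⟨k, hk⟩) := dif_neg hk
        rw [this, v2]
        exact (sub_self (z (Sum.inr k))).symm ▸ zero_mem _
  · refine sup_le (Ideal.span_le.2 ?_) (Ideal.span_le.2 ?_)
    swap
    · rintro _ ⟨k, rfl⟩
      exact le_sat _ _ (Ideal.mem_sup_right (Ideal.subset_span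
        ⟨Sum.inr k.1, by beta_reduce; rw [r3, one_mul, r4 k.1 k.2, sub_zero]⟩))
    rintro _ ⟨⟨i, k⟩, rfl⟩
    have d2 : ψ (x i₀ j₀) * b i₀ ∣ ∏ s, ev (e s) := by
      have := Finset.prod_dvd_prod_of_subset
        ({Sum.inl (Sum.inl i₀), Sum.inl (Sum.inr j₀)} : Finset ((I ⊕ J) ⊕ K)) Finset.univ
        (fun s => ev (e s)) (Finset.subset_univ _)
      rw [Finset.prod_pair (by simp)] at this
      exact (v1 (x i₀ j₀)) ▸ hW ▸ this
    refine sat_dvd d2 ⟨1, ?_⟩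
    have a1 := Ideal.subset_span (s := Set.range fun s => ev (e s) * z s - ev (g s))
      ⟨Sum.inl (Sum.inl i), r1 i⟩
    have a2 := Ideal.subset_span (s := Set.range fun s => ev (e s) * z s - ev (g s))
      ⟨Sum.inl (Sum.inr k), r2 k⟩
    have a3 := Ideal.mem_map_of_mem ψ (hx i k)
    rw [map_sub, map_mul, map_mul] at a3
    convert Ideal.sub_mem _ (Ideal.mem_sup_right (Ideal.add_mem _
      (Ideal.mul_mem_left _ (b i₀ * c k) a1)
      (Ideal.mul_mem_left _ (ψ (x i j₀) * b i₀) a2)))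
      (Ideal.mem_sup_left (Ideal.mul_mem_left _ (b i₀) a3)) using 1
    ring
  · rw [← Finset.card_univ, ← Finset.prod_const]
    exact Finset.prod_dvd_prod_of_dvd _ _ fun s _ => d1 s

/-- **the framed chart**: off diagonal entries `I ⊕ J`, free variables `K`, graphs `M` -/
theorem col_chart0 [Fintype I] [Fintype J] [Fintype K] [Fintype M] {z : ((I ⊕ J) ⊕ K) ⊕ M → S}
    (h : Ext ψ z) (b₀ : I → P) (c₀ : J → P) (x : I → J → P) (b : I → S) (c : J → S)
    (hb : ∀ i, b i = ψ (b₀ i) + z (Sum.inl (Sum.inl (Sum.inl i))))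
    (hc : ∀ j, c j = ψ (c₀ j) + z (Sum.inl (Sum.inl (Sum.inr j)))) (i₀ : I) (j₀ : J)
    (𝔠 : Ideal P) (hx : ∀ i j, x i₀ j₀ * x i j - x i j₀ * x i₀ j ∈ 𝔠) (p : K → Prop)
    (u g : M → S)
    (hug : ∀ A : Subring S, (∀ a, ψ a ∈ A) → (∀ t, z (Sum.inl t) ∈ A) →
      (∀ w ∈ A, IsUnit w → ∃ w' ∈ A, w * w' = 1) → ∀ m, u m ∈ A ∧ g m ∈ A) :
    Col ψ 𝔠 (Ideal.span (Set.range fun p : I × J => b p.1 * c p.2 - ψ (x p.1 p.2)) ⊔
      Ideal.span (Set.range fun k : {k // p k} => z (Sum.inl (Sum.inr k.1))) ⊔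
      Ideal.span (Set.range fun m => u m * z (Sum.inr m) - g m))
      (ψ (x i₀ j₀) * b i₀ * ∏ m, u m) := by
  obtain ⟨ψ₂, e2, q1, q2⟩ := ext_split h
  have q3 : ∀ a, ψ₂ (C a) = ψ a := fun a => RingHom.congr_fun q1 a
  haveI : IsNoetherianRing (MvPowerSeries ((I ⊕ J) ⊕ K) P) := inferInstance
  have k := hug ψ₂.range (fun a => ⟨C a, q3 a⟩) (fun t => ⟨X t, q2 t⟩) (by
    rintro _ ⟨w, rfl⟩ hw
    obtain ⟨E, p1, -⟩ := e2
    rw [← p1, MulEquiv.isUnit_map, isUnit_iff_constantCoeff, constantCoeff_C] at hw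
    obtain ⟨w', e⟩ := hw.exists_right_inv
    exact ⟨ψ₂ w', ⟨w', rfl⟩, by rw [← map_mul, e, map_one]⟩)
  have := (col_gma0 (ext_C ((I ⊕ J) ⊕ K)) b₀ c₀ x (fun i => C (b₀ i) + X (Sum.inl (Sum.inl i)))
    (fun j => C (c₀ j) + X (Sum.inl (Sum.inr j))) (fun _ => rfl) (fun _ => rfl) i₀ j₀ 𝔠 hx p).comp
    (col_graph e2 u g (fun m => (k m).1) fun m => (k m).2)
  rw [q1, Ideal.map_sup, Ideal.map_span, Ideal.map_span, ← Set.range_comp, ← Set.range_comp] at this
  convert this using 6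
  · simp only [Function.comp, map_sub, map_mul, map_add, q3, q2, hb, hc]
  · exact (q2 _).symm
  · rw [map_mul, map_add, q3, q3, q2, hb]

end Vale.Agent.P022G.Flat
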