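import Mathlib

/-! Linear algebra over a discrete valuation ring: kernel counts modulo `t^N` and minors. -/

set_option linter.all false

namespace P022G.Jac

open Matrix

variable {A : Type*} [CommRing A]

/-- solutions modulo the ideal `J` of the linear system with rows `m i` -/
def Ker (J : Ideal A) {I G : Type*} [Fintype G] (m : I → G → A) : Set (G → A ⧸ J) :=
  {v | ∀ i, ∑ j, Ideal.Quotient.mk J (m i j) * v j = 0}

/-- the minor with rows `k` and columns `sg` -/
def mnr {I G : Type*} (m : I → G → A) {s : ℕ} (k : Fin s → I) (sg : Fin s → G) : A :=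
  (Matrix.of fun a b => m (k a) (sg b)).det

theorem mnr_step {I G : Type*} (m : I → G → A) (i0 : I) (j0 : G) (c : I → A)
    (hc : ∀ i, m i j0 = c i * m i0 j0) {s : ℕ} (k : Fin s → I) (sg : Fin s → G) :
    mnr m (Fin.cons i0 k : Fin (s + 1) → I) (Fin.cons j0 sg : Fin (s + 1) → G) =
      m i0 j0 * mnr (fun i j => m i j - c i * m i0 j) k sg := by
  classical
  unfold mnr
  set M : Matrix (Fin (s + 1)) (Fin (s + 1)) A :=
    Matrix.of fun a b => m ((Fin.cons i0 k : Fin (s + 1) → I) a)
      ((Fin.cons j0 sg : Fin (s + 1) → G) b) with hM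
  set M' : Matrix (Fin (s + 1)) (Fin (s + 1)) A :=
    Matrix.of fun a b => M a b -
      (Fin.cons 0 (fun a => c (k a)) : Fin (s + 1) → A) a * M 0 b with hM'
  have h1 : M.det = M'.det := by
    refine Matrix.det_eq_of_forall_row_eq_smul_add_const
      (Fin.cons 0 (fun a => c (k a)) : Fin (s + 1) → A) 0 (by simp) ?_
    intro i j
    simp [hM']
  rw [h1, Matrix.det_succ_column_zero, Fin.sum_univ_succ]
  have h2 : ∀ a : Fin s, M' a.succ 0 = 0 := by
    intro a
    simp [hM', hM, hc (k a)]
  simp only [h2, mul_zero, zero_mul, Finset.sum_const_zero, add_zero]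
  have h3 : M' 0 0 = m i0 j0 := by simp [hM', hM]
  rw [h3]
  simp only [Fin.val_zero, pow_zero, one_mul]
  congr 2

/-- pivot step: the kernel of the reduced system injects into the kernel -/
theorem card_step (J : Ideal A) [Finite (A ⧸ J)] {I G : Type*} [Fintype G] [DecidableEq G]
    (m : I → G → A) (i0 : I) (j0 : G) (c : I → A) (b : G → A)
    (hc : ∀ i, m i j0 = c i * m i0 j0) (hb : ∀ j, m i0 j = m i0 j0 * b j) :
    Nat.card (Ker J (fun i (j : {j // j ≠ j0}) => m i j - c i * m i0 j)) ≤
      Nat.card (Ker J m) := by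
  classical
  let ext : ({j // j ≠ j0} → A ⧸ J) → (G → A ⧸ J) := fun v j =>
    if h : j = j0 then - ∑ j' : {j // j ≠ j0}, Ideal.Quotient.mk J (b j') * v j' else v ⟨j, h⟩
  have hsum : ∀ (v : {j // j ≠ j0} → A ⧸ J) (i : I),
      ∑ j, Ideal.Quotient.mk J (m i j) * ext v j =
        ∑ j : {j // j ≠ j0}, Ideal.Quotient.mk J (m i j - c i * m i0 j) * v j := by
    intro v i
    rw [Fintype.sum_eq_add_sum_subtype_ne _ j0]
    have e0 : ext v j0 = - ∑ j' : {j // j ≠ j0}, Ideal.Quotient.mk J (b j') * v j' := by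
      simp [ext]
    have e1 : ∀ j : {j // j ≠ j0}, ext v j = v j := by
      intro j
      simp [ext, j.2]
    simp only [e0, e1]
    rw [mul_neg, Finset.mul_sum, ← Finset.sum_neg_distrib, ← Finset.sum_add_distrib]
    refine Finset.sum_congr rfl fun j _ => ?_
    rw [hc i, hb j.1]
    simp only [map_sub, map_mul]
    ring
  refine Nat.card_le_card_of_injective
    (fun v => ⟨ext v.1, fun i => by rw [hsum]; exact v.2 i⟩) ?_
  intro v w h
  have h' : ext v.1 = ext w.1 := congrArg Subtype.val h
  apply Subtype.ext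
  funext j
  have := congrFun h' j.1
  simpa [ext, j.2] using this

theorem card_zero (J : Ideal A) {I G : Type*} [Fintype G] (m : I → G → A)
    (h : ∀ i j, m i j ∈ J) : Nat.card (Ker J m) = Nat.card (A ⧸ J) ^ Fintype.card G := by
  have : Ker J m = Set.univ := by
    ext v
    simp only [Ker, Set.mem_setOf_eq, Set.mem_univ, iff_true]
    intro i
    refine Finset.sum_eq_zero fun j _ => ?_
    rw [Ideal.Quotient.eq_zero_iff_mem.2 (h i j), zero_mul]
  rw [this, Nat.card_congr (Equiv.Set.univ _), Nat.card_fun, Nat.card_eq_fintype_card (α := G)]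

theorem card_tors (J : Ideal A) [Finite (A ⧸ J)] (d y : A) (hd : d ∣ y)
    [Finite (A ⧸ Ideal.span {y})] :
    Nat.card {r : A ⧸ J // Ideal.Quotient.mk J d * r = 0} ≤ Nat.card (A ⧸ Ideal.span {y}) := by
  let f : (A ⧸ J) →ₗ[A ⧸ J] (A ⧸ J) := LinearMap.mulLeft (A ⧸ J) (Ideal.Quotient.mk J d)
  have h1 : Nat.card (LinearMap.ker f) * Nat.card (LinearMap.range f) = Nat.card (A ⧸ J) := by
    rw [Submodule.card_eq_card_quotient_mul_card (LinearMap.ker f),
      Nat.card_congr f.quotKerEquivRange.toEquiv]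
  have h2 : Nat.card (LinearMap.range f) * Nat.card ((A ⧸ J) ⧸ LinearMap.range f) =
      Nat.card (A ⧸ J) := (Submodule.card_eq_card_quotient_mul_card (LinearMap.range f)).symm
  have hpos : 0 < Nat.card (LinearMap.range f) := Nat.card_pos
  have h3 : Nat.card (LinearMap.ker f) = Nat.card ((A ⧸ J) ⧸ LinearMap.range f) := by
    apply Nat.eq_of_mul_eq_mul_right hpos
    rw [h1, mul_comm, h2]
  have h4 : Nat.card {r : A ⧸ J // Ideal.Quotient.mk J d * r = 0} =
      Nat.card (LinearMap.ker f) := Nat.card_congr (Equiv.subtypeEquivRight fun r => by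
        simp [f])
  rw [h4, h3]
  let g : (A ⧸ Ideal.span {y}) → ((A ⧸ J) ⧸ LinearMap.range f) :=
    fun r => Submodule.Quotient.mk (Ideal.Quotient.mk J r.out)
  refine Nat.card_le_card_of_surjective g ?_
  intro z
  obtain ⟨z, rfl⟩ := Submodule.Quotient.mk_surjective _ z
  obtain ⟨z, rfl⟩ := Ideal.Quotient.mk_surjective z
  refine ⟨Ideal.Quotient.mk _ z, ?_⟩
  simp only [g]
  rw [Submodule.Quotient.eq]
  have : (Ideal.Quotient.mk (Ideal.span {y}) z).out - z ∈ Ideal.span {y} := by
    rw [← Ideal.Quotient.eq]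
    exact Ideal.Quotient.mk_out _
  obtain ⟨c, hc⟩ := hd.trans (Ideal.mem_span_singleton.1 this)
  refine ⟨Ideal.Quotient.mk J c, ?_⟩
  simp only [f, LinearMap.mulLeft_apply]
  rw [← map_mul, ← hc, map_sub]

/-- UP: a minor dividing `y` bounds the kernel modulo any ideal. -/
theorem up (J : Ideal A) [Finite (A ⧸ J)] {I G : Type*} [Fintype G] (m : I → G → A) {s : ℕ}
    (k : Fin s → I) (sg : Fin s → G) (hsg : Function.Injective sg) (y : A)
    [Finite (A ⧸ Ideal.span {y})] (hy : mnr m k sg ∣ y) :
    Nat.card (Ker J m) ≤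
      Nat.card (A ⧸ J) ^ (Fintype.card G - s) * Nat.card (A ⧸ Ideal.span {y}) ^ s := by
  classical
  let T := {r : A ⧸ J // Ideal.Quotient.mk J (mnr m k sg) * r = 0}
  let Gc := {j : G // j ∉ Set.range sg}
  let res : Ker J m → (Gc → A ⧸ J) := fun v j => v.1 j.1
  let bs : Ker J m → Ker J m := fun v => Classical.choose (⟨v, rfl⟩ : ∃ w, res w = res v)
  have hbs : ∀ v, res (bs v) = res v := fun v =>
    Classical.choose_spec (⟨v, rfl⟩ : ∃ w, res w = res v)
  have hbs' : ∀ v w, res v = res w → bs v = bs w := by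
    intro v w h
    simp only [bs, h]
  have htors : ∀ (v w : Ker J m), res w = res v → ∀ b : Fin s,
      Ideal.Quotient.mk J (mnr m k sg) * (v.1 (sg b) - w.1 (sg b)) = 0 := by
    intro v w h b
    let M : Matrix (Fin s) (Fin s) (A ⧸ J) :=
      (Ideal.Quotient.mk J).mapMatrix (Matrix.of fun a b => m (k a) (sg b))
    let u : Fin s → A ⧸ J := fun b => v.1 (sg b) - w.1 (sg b)
    have hM : M *ᵥ u = 0 := by
      funext a
      have h0 : ∑ j, Ideal.Quotient.mk J (m (k a) j) * (v.1 j - w.1 j) = 0 := by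
        simp only [mul_sub, Finset.sum_sub_distrib, v.2 (k a), w.2 (k a), sub_zero]
      have h1 : ∑ j, Ideal.Quotient.mk J (m (k a) j) * (v.1 j - w.1 j) =
          ∑ j ∈ Finset.univ.image sg, Ideal.Quotient.mk J (m (k a) j) * (v.1 j - w.1 j) := by
        symm
        refine Finset.sum_subset (Finset.subset_univ _) fun j _ hj => ?_
        have hj' : j ∉ Set.range sg := by simpa using hj
        have : w.1 j = v.1 j := congrFun h ⟨j, hj'⟩
        rw [this, sub_self, mul_zero]
      rw [h1, Finset.sum_image (fun a _ b _ e => hsg e)] at h0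
      simpa [M, u, Matrix.mulVec, dotProduct] using h0
    have hdet : M.det = Ideal.Quotient.mk J (mnr m k sg) := by
      rw [mnr, RingHom.map_det]
    have h2 : M.det • u = 0 := by
      have : M.adjugate *ᵥ (M *ᵥ u) = M.det • u := by
        rw [Matrix.mulVec_mulVec, Matrix.adjugate_mul, Matrix.smul_mulVec, Matrix.one_mulVec]
      rw [← this, hM, Matrix.mulVec_zero]
    have := congrFun h2 b
    simpa [hdet, u] using this
  let F : Ker J m → (Gc → A ⧸ J) × (Fin s → T) := fun v =>
    (res v, fun b => ⟨v.1 (sg b) - (bs v).1 (sg b), htors v (bs v) (hbs v) b⟩)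
  have hF : Function.Injective F := by
    intro v w h
    have h1 : res v = res w := congrArg Prod.fst h
    have h2 := congrArg Prod.snd h
    apply Subtype.ext
    funext j
    by_cases hj : j ∈ Set.range sg
    · obtain ⟨b, rfl⟩ := hj
      have h3 : v.1 (sg b) - (bs v).1 (sg b) = w.1 (sg b) - (bs w).1 (sg b) :=
        congrArg Subtype.val (congrFun h2 b)
      rw [hbs' v w h1] at h3
      exact sub_left_injective h3
    · exact congrFun h1 ⟨j, hj⟩
  have hGc : Nat.card Gc = Fintype.card G - s := by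
    rw [Nat.card_eq_fintype_card, Fintype.card_subtype_compl, Set.card_range_of_injective hsg,
      Fintype.card_fin]
  refine (Nat.card_le_card_of_injective F hF).trans ?_
  rw [Nat.card_prod, Nat.card_fun, Nat.card_fun, hGc, Nat.card_eq_fintype_card (α := Fin s),
    Fintype.card_fin]
  exact Nat.mul_le_mul_left _ (Nat.pow_le_pow_left (card_tors J _ y hy) s)

section dvr
variable [IsDomain A] [IsDiscreteValuationRing A]

theorem exists_pivot {I G : Type*} (m : I → G → A) (x : A) (h : ¬ ∀ i j, x ∣ m i j) :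
    ∃ i0 j0, m i0 j0 ∣ x ∧ m i0 j0 ≠ 0 ∧ ∀ i j, m i0 j0 ∣ m i j := by
  classical
  push Not at h
  obtain ⟨i1, j1, h1⟩ := h
  let S : Set ℕ∞ := {e | ∃ i j, IsDiscreteValuationRing.addVal A (m i j) = e}
  have hS : S.Nonempty := ⟨_, i1, j1, rfl⟩
  obtain ⟨e, ⟨i0, j0, he⟩, hmin⟩ := wellFounded_lt.has_min S hS
  have hd : ∀ i j, m i0 j0 ∣ m i j := by
    intro i j
    rw [← IsDiscreteValuationRing.addVal_le_iff_dvd, he]
    exact not_lt.1 (hmin _ ⟨i, j, rfl⟩)
  have hx : m i1 j1 ∣ x := (ValuationRing.dvd_total x (m i1 j1)).resolve_left h1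
  refine ⟨i0, j0, (hd i1 j1).trans hx, ?_, hd⟩
  intro h0
  have := hd i1 j1
  rw [h0, zero_dvd_iff] at this
  exact h1 (this ▸ dvd_zero x)

/-- JAC: a small kernel modulo `x` gives a minor dividing `x ^ s`. -/
theorem jac (x : A) [Finite (A ⧸ Ideal.span {x})] (s : ℕ) :
    ∀ {I G : Type*} [Fintype G] (m : I → G → A), s ≤ Fintype.card G →
      Nat.card (Ker (Ideal.span {x}) m) <
        Nat.card (A ⧸ Ideal.span {x}) ^ (Fintype.card G - s + 1) →
      ∃ (k : Fin s → I) (sg : Fin s → G), Function.Injective sg ∧ mnr m k sg ∣ x ^ s := by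
  induction s with
  | zero =>
    intro I G _ m _ _
    exact ⟨Fin.elim0, Fin.elim0, fun a => a.elim0, by simp [mnr]⟩
  | succ s ih =>
    intro I G _ m hs h
    classical
    by_cases hall : ∀ i j, x ∣ m i j
    · exfalso
      rw [card_zero _ m fun i j => Ideal.mem_span_singleton.2 (hall i j)] at h
      have hpos : 0 < Nat.card (A ⧸ Ideal.span {x}) := Nat.card_pos
      have : Fintype.card G - (s + 1) + 1 ≤ Fintype.card G := by omega
      exact absurd (Nat.pow_le_pow_right hpos this) (not_le.2 h)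
    · obtain ⟨i0, j0, hx, -, hd⟩ := exists_pivot m x hall
      choose c hc using fun i => hd i j0
      choose b hb using fun j => hd i0 j
      have hc' : ∀ i, m i j0 = c i * m i0 j0 := fun i => by rw [hc i, mul_comm]
      have hcard : Fintype.card {j // j ≠ j0} = Fintype.card G - 1 := by
        simp [Fintype.card_subtype_compl]
      obtain ⟨k, sg, hinj, hdv⟩ := ih (fun i (j : {j // j ≠ j0}) => m i j - c i * m i0 j)
        (by omega) (lt_of_le_of_lt (card_step _ m i0 j0 c b hc' hb) (by
          have : Fintype.card {j // j ≠ j0} - s + 1 = Fintype.card G - (s + 1) + 1 := by omega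
          rw [this]; exact h))
      refine ⟨Fin.cons i0 k, Fin.cons j0 (fun a => (sg a).1), ?_, ?_⟩
      · rw [Fin.cons_injective_iff]
        refine ⟨?_, fun a a' e => hinj (Subtype.ext e)⟩
        rintro ⟨a, ha⟩
        exact (sg a).2 ha
      · rw [mnr_step m i0 j0 c hc' k, pow_succ']
        exact mul_dvd_mul hx hdv

/-- LOW: if all minors of size `s+1` vanish, the kernel modulo any ideal is large. -/
theorem low (J : Ideal A) [Finite (A ⧸ J)] (s : ℕ) :
    ∀ {I G : Type*} [Fintype G] (m : I → G → A),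
      (∀ (k : Fin (s + 1) → I) (sg : Fin (s + 1) → G), Function.Injective sg → mnr m k sg = 0) →
      Nat.card (A ⧸ J) ^ (Fintype.card G - s) ≤ Nat.card (Ker J m) := by
  induction s with
  | zero =>
    intro I G _ m h
    have : ∀ i j, m i j ∈ J := by
      intro i j
      have := h (fun _ => i) (fun _ => j) (fun a b _ => Fin.ext (by omega))
      simp [mnr] at this
      rw [this]; exact J.zero_mem
    rw [card_zero J m this]; simp
  | succ s ih =>
    intro I G _ m h
    classical
    have hpos : 0 < Nat.card (A ⧸ J) := Nat.card_pos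
    by_cases hall : ∀ i j, (0 : A) ∣ m i j
    · rw [card_zero J m fun i j => by rw [zero_dvd_iff.1 (hall i j)]; exact J.zero_mem]
      exact Nat.pow_le_pow_right hpos (by omega)
    · obtain ⟨i0, j0, -, hne, hd⟩ := exists_pivot m 0 hall
      choose c hc using fun i => hd i j0
      choose b hb using fun j => hd i0 j
      have hc' : ∀ i, m i j0 = c i * m i0 j0 := fun i => by rw [hc i, mul_comm]
      have hcard : Fintype.card {j // j ≠ j0} = Fintype.card G - 1 := by
        simp [Fintype.card_subtype_compl]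
      refine le_trans ?_ (card_step J m i0 j0 c b hc' hb)
      have := ih (fun i (j : {j // j ≠ j0}) => m i j - c i * m i0 j) (by
        intro k sg hinj
        have h0 := h (Fin.cons i0 k) (Fin.cons j0 (fun a => (sg a).1)) (by
          rw [Fin.cons_injective_iff]
          refine ⟨?_, fun a a' e => hinj (Subtype.ext e)⟩
          rintro ⟨a, ha⟩
          exact (sg a).2 ha)
        rw [mnr_step m i0 j0 c hc' k] at h0
        exact (mul_eq_zero.1 h0).resolve_left hne)
      have e : Fintype.card G - (s + 1) = Fintype.card {j // j ≠ j0} - s := by omega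
      rw [e]; exact this

end dvr

end P022G.Jac
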