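import Mathlib

/-! The kernel of a polynomial on `N[[z]]` is killed by a power of its leading coefficient. -/

open TensorProduct

namespace P022G.Kerf

section Seq

variable {R : Type*} [CommRing R] {N : Type*} [AddCommGroup N] [Module R N]

/-- Solutions of the recurrence with coefficients `c 0, …, c d`. -/
def Rec (N : Type*) [AddCommGroup N] [Module R N] (c : ℕ → R) (d : ℕ) : Submodule R (ℕ → N) where
  carrier := {t | ∀ m, ∑ j ∈ Finset.range (d + 1), c j • t (m + j) = 0}
  add_mem' := by
    intro s t hs ht m
    simp only [Pi.add_apply, smul_add, Finset.sum_add_distrib]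
    rw [hs m, ht m, add_zero]
  zero_mem' := by
    intro m
    simp
  smul_mem' := by
    intro r t ht m
    have h := congrArg (fun x => r • x) (ht m)
    simp only [Finset.smul_sum, smul_zero] at h
    rw [← h]
    refine Finset.sum_congr rfl fun j _ => ?_
    rw [Pi.smul_apply, smul_comm]

/-- Sequences that start with `d` zeros. -/
def Zer (R N : Type*) [CommRing R] [AddCommGroup N] [Module R N] (d : ℕ) :
    Submodule R (ℕ → N) where
  carrier := {t | ∀ i < d, t i = 0}
  add_mem' := by
    intro s t hs ht i hi
    rw [Pi.add_apply, hs i hi, ht i hi, add_zero]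
  zero_mem' := fun _ _ => rfl
  smul_mem' := by
    intro r t ht i hi
    rw [Pi.smul_apply, ht i hi, smul_zero]

theorem back0 {c : ℕ → R} {d : ℕ} {t : ℕ → N} (ht : t ∈ Rec N c d) (b : R) (m : ℕ)
    (h : ∀ i < d, b • t (m + 1 + i) = 0) : (b * c 0) • t m = 0 := by
  have h1 := congrArg (fun x => b • x) (ht m)
  simp only [Finset.sum_range_succ', smul_add, Finset.smul_sum, smul_zero, add_zero] at h1
  have h2 : ∑ j ∈ Finset.range d, b • c (j + 1) • t (m + (j + 1)) = 0 := by
    refine Finset.sum_eq_zero fun j hj => ?_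
    have e : m + (j + 1) = m + 1 + j := by omega
    rw [smul_comm, e, h j (Finset.mem_range.1 hj), smul_zero]
  rw [h2, zero_add] at h1
  rw [mul_smul, h1]

theorem backs {c : ℕ → R} {d : ℕ} {t : ℕ → N} (ht : t ∈ Rec N c d) (J : ℕ) :
    (∀ i < d, t (J + i) = 0) → ∀ i < d, c 0 ^ J • t i = 0 := by
  have key : ∀ (J : ℕ) (b : R), (∀ i < d, b • t (J + i) = 0) →
      ∀ i < d, (b * c 0 ^ J) • t i = 0 := by
    intro J
    induction J with
    | zero =>
      intro b h i hi
      have := h i hi
      rwa [pow_zero, mul_one, ← Nat.zero_add i]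
    | succ J ih =>
      intro b h i hi
      have h1 : ∀ i < d, (b * c 0) • t (J + i) = 0 := by
        intro i hi
        rcases i with _ | i
        · exact back0 ht b J h
        · have e : J + (i + 1) = J + 1 + i := by omega
          rw [mul_comm, mul_smul, e, h i (by omega), smul_zero]
      have h2 := ih (b * c 0) h1 i hi
      rwa [mul_assoc, ← pow_succ'] at h2
  intro h i hi
  have := key J 1 (fun i hi => by rw [h i hi, smul_zero]) i hi
  rwa [one_mul] at this

/-- The window of length `d` at `m`. -/
def win (R N : Type*) [CommRing R] [AddCommGroup N] [Module R N] (d m : ℕ) :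
    (ℕ → N) →ₗ[R] (Fin d → N) :=
  LinearMap.funLeft R N fun i : Fin d => m + i.1

theorem win_mono (c : ℕ → R) (d : ℕ) :
    Monotone fun m => (Rec N c d ⊓ Zer R N d).map (win R N d m) := by
  refine monotone_nat_of_le_succ fun m => ?_
  rintro _ ⟨t, ⟨ht, hz⟩, rfl⟩
  refine ⟨fun k => Nat.casesOn k 0 t, ⟨?_, ?_⟩, ?_⟩
  · intro k
    rcases k with _ | k
    · rw [Finset.sum_range_succ']
      have : ∑ j ∈ Finset.range d, c (j + 1) • (Nat.casesOn (0 + (j + 1)) 0 t : N) = 0 := by
        refine Finset.sum_eq_zero fun j hj => ?_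
        have e : 0 + (j + 1) = j + 1 := by omega
        rw [e]
        show c (j + 1) • t j = 0
        rw [hz j (Finset.mem_range.1 hj), smul_zero]
      rw [this, zero_add]
      exact smul_zero _
    · rw [← ht k]
      refine Finset.sum_congr rfl fun j _ => ?_
      have e : k + 1 + j = (k + j) + 1 := by omega
      rw [e]
  · intro i hi
    rcases i with _ | i
    · rfl
    · exact hz i (by omega)
  · funext i
    show (Nat.casesOn (m + 1 + i.1) 0 t : N) = t (m + i.1)
    have e : m + 1 + i.1 = (m + i.1) + 1 := by omega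
    rw [e]

theorem rec_kill [IsNoetherian R N] (c : ℕ → R) (d : ℕ) :
    ∃ J : ℕ, ∀ t ∈ Rec N c d ⊓ Zer R N d, ∀ p, c 0 ^ J • t p = 0 := by
  obtain ⟨J, hJ⟩ := (monotone_stabilizes_iff_noetherian.2
    (inferInstance : IsNoetherian R (Fin d → N))) ⟨_, win_mono (N := N) c d⟩
  refine ⟨J + 1, fun t ht p => ?_⟩
  have hw : ∀ q, ∀ i < d, c 0 ^ J • t (q + i) = 0 := by
    intro q i hi
    have h1 : win R N d (J + q) t ∈ (Rec N c d ⊓ Zer R N d).map (win R N d J) := by
      have := hJ (J + q) (by omega)
      have h2 : (Rec N c d ⊓ Zer R N d).map (win R N d J) =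
          (Rec N c d ⊓ Zer R N d).map (win R N d (J + q)) := this
      rw [h2]
      exact ⟨t, ht, rfl⟩
    obtain ⟨s, ⟨hs, hz⟩, he⟩ := h1
    have hq : (fun k => t (q + k)) ∈ Rec N c d := by
      intro m
      rw [← ht.1 (q + m)]
      refine Finset.sum_congr rfl fun j _ => ?_
      rw [add_assoc]
    have h3 := backs ((Rec N c d).sub_mem hq hs) J (fun i hi => by
      have h4 : s (J + i) = t (J + q + i) := congrFun he ⟨i, hi⟩
      have e : q + (J + i) = J + q + i := by omega
      show t (q + (J + i)) - s (J + i) = 0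
      rw [h4, e, sub_self]) i hi
    have h5 : (((fun k => t (q + k)) - s : ℕ → N)) i = t (q + i) := by
      show t (q + i) - s i = _
      rw [hz i hi, sub_zero]
    rwa [h5] at h3
  rw [pow_succ]
  exact back0 ht.1 _ p (hw (p + 1))

/-- Sequence form. -/
theorem seq [IsNoetherian R N] (f : Polynomial R) : ∃ J : ℕ, ∀ n : ℕ → N,
    (∀ m, ∑ j ∈ Finset.range (m + 1), f.coeff j • n (m - j) = 0) →
      ∀ i, f.leadingCoeff ^ J • n i = 0 := by
  obtain ⟨J, hJ⟩ := rec_kill (N := N) (fun j => f.coeff (f.natDegree - j)) f.natDegree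
  refine ⟨J, fun n hn i => ?_⟩
  have h := hJ (fun k => if k < f.natDegree then 0 else n (k - f.natDegree)) ⟨?_, ?_⟩
    (f.natDegree + i)
  · rw [if_neg (by omega), Nat.add_sub_cancel_left] at h
    exact h
  · intro m
    have h1 := hn m
    let g : ℕ → N := fun i => f.coeff i • (if i ≤ m then n (m - i) else 0)
    have e1 : ∑ i ∈ Finset.range (m + 1), g i = 0 := by
      rw [← h1]
      refine Finset.sum_congr rfl fun j hj => ?_
      have := Finset.mem_range.1 hj
      simp only [g]
      rw [if_pos (by omega)]
    have e2 : ∑ i ∈ Finset.range (m + 1), g i =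
        ∑ i ∈ Finset.range (m + f.natDegree + 1), g i := by
      refine Finset.sum_subset (Finset.range_subset_range.2 (by omega)) fun j _ hj => ?_
      have : ¬ j < m + 1 := fun h => hj (Finset.mem_range.2 h)
      simp only [g]
      rw [if_neg (by omega), smul_zero]
    have e3 : ∑ i ∈ Finset.range (f.natDegree + 1), g i =
        ∑ i ∈ Finset.range (m + f.natDegree + 1), g i := by
      refine Finset.sum_subset (Finset.range_subset_range.2 (by omega)) fun j _ hj => ?_
      have : ¬ j < f.natDegree + 1 := fun h => hj (Finset.mem_range.2 h)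
      simp only [g]
      rw [Polynomial.coeff_eq_zero_of_natDegree_lt (by omega), zero_smul]
    rw [e2, ← e3, ← Finset.sum_range_reflect g] at e1
    refine Eq.trans ?_ e1
    refine Finset.sum_congr rfl fun j hj => ?_
    have := Finset.mem_range.1 hj
    simp only [g, Nat.add_sub_cancel]
    by_cases hc : m + j < f.natDegree
    · rw [if_pos hc, if_neg (by omega)]
    · rw [if_neg hc, if_pos (by omega)]
      have e : m + j - f.natDegree = m - (f.natDegree - j) := by omega
      rw [e]
  · intro k hk
    exact if_pos hk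

end Seq

section Tens

variable {P : Type*} [CommRing P]

/-- Coefficients of an element of `P[[z]] ⊗ N`. -/
noncomputable def co (P : Type*) [CommRing P] (N : Type*) [AddCommGroup N] [Module P N] :
    PowerSeries P ⊗[P] N →ₗ[P] (ℕ → N) :=
  LinearMap.pi fun i => (TensorProduct.lid P N).toLinearMap ∘ₗ
    LinearMap.rTensor N (PowerSeries.coeff i)

variable {N : Type*} [AddCommGroup N] [Module P N]

theorem co_tmul (s : PowerSeries P) (n : N) (i : ℕ) :
    co P N (s ⊗ₜ n) i = PowerSeries.coeff i s • n := by
  simp [co]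

theorem co_smul (s : PowerSeries P) (x : PowerSeries P ⊗[P] N) (m : ℕ) :
    co P N (s • x) m = ∑ j ∈ Finset.range (m + 1), PowerSeries.coeff j s • co P N x (m - j) := by
  induction x with
  | zero => simp
  | tmul u n =>
    rw [TensorProduct.smul_tmul', co_tmul, smul_eq_mul, PowerSeries.coeff_mul,
      Finset.Nat.sum_antidiagonal_eq_sum_range_succ_mk, Finset.sum_smul]
    refine Finset.sum_congr rfl fun j _ => ?_
    rw [co_tmul, mul_smul]
  | add x y hx hy =>
    rw [smul_add, map_add, Pi.add_apply, hx, hy, ← Finset.sum_add_distrib]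
    refine Finset.sum_congr rfl fun j _ => ?_
    rw [map_add, Pi.add_apply, smul_add]

theorem co_map {M : Type*} [AddCommGroup M] [Module P M] (g : M →ₗ[P] N)
    (x : PowerSeries P ⊗[P] M) (i : ℕ) :
    co P N (LinearMap.lTensor (PowerSeries P) g x) i = g (co P M x i) := by
  induction x with
  | zero => simp
  | tmul u n => rw [LinearMap.lTensor_tmul, co_tmul, co_tmul, map_smul]
  | add x y hx hy => simp only [map_add, Pi.add_apply, hx, hy]

theorem co_surj [Module.Finite P N] : Function.Surjective (co P N) := by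
  obtain ⟨k, g, hg⟩ := Module.Finite.exists_fin' P N
  intro n
  choose w hw using fun i => hg (n i)
  refine ⟨∑ a : Fin k, (PowerSeries.mk fun i => w i a) ⊗ₜ g (Pi.single a 1), ?_⟩
  funext i
  rw [map_sum, Finset.sum_apply, ← hw i]
  simp only [co_tmul, PowerSeries.coeff_mk, ← map_smul]
  rw [← map_sum]
  refine congrArg g ?_
  funext b
  simp [Finset.sum_apply, Pi.single_apply]

theorem co_inj_free (k : ℕ) : Function.Injective (co P (Fin k → P)) := by
  rw [injective_iff_map_eq_zero]
  intro x hx
  have h : ∀ (x : PowerSeries P ⊗[P] (Fin k → P)) (a : Fin k) (i : ℕ),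
      PowerSeries.coeff i (TensorProduct.piScalarRight P P (PowerSeries P) (Fin k) x a) =
        co P (Fin k → P) x i a := by
    intro x a i
    induction x with
    | zero => simp
    | tmul u n =>
      rw [co_tmul, TensorProduct.piScalarRight_apply, TensorProduct.piScalarRightHom_tmul]
      simp [mul_comm]
    | add x y hx hy => simp only [map_add, Pi.add_apply, hx, hy]
  apply (TensorProduct.piScalarRight P P (PowerSeries P) (Fin k)).injective
  rw [map_zero]
  funext a
  ext i
  rw [h, hx]
  simp

theorem co_inj [IsNoetherianRing P] [Module.Finite P N] : Function.Injective (co P N) := by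
  obtain ⟨k, g, hg⟩ := Module.Finite.exists_fin' P N
  rw [injective_iff_map_eq_zero]
  intro x hx
  obtain ⟨y, rfl⟩ := LinearMap.lTensor_surjective (PowerSeries P) hg x
  have h1 : ∀ i, co P (Fin k → P) y i ∈ LinearMap.ker g := by
    intro i
    rw [LinearMap.mem_ker, ← co_map, hx]
    rfl
  obtain ⟨w, hw⟩ := co_surj (P := P) (N := LinearMap.ker g) fun i => ⟨_, h1 i⟩
  have h2 : y = LinearMap.lTensor (PowerSeries P) (LinearMap.ker g).subtype w := by
    apply co_inj_free k
    funext i
    rw [co_map, hw]
    rfl
  rw [h2, ← LinearMap.comp_apply, ← LinearMap.lTensor_comp, LinearMap.comp_ker_subtype,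
    LinearMap.lTensor_zero, LinearMap.zero_apply]

/-- `P[[z]]` is flat over a noetherian ring. -/
theorem flat_ps [IsNoetherianRing P] : Module.Flat P (PowerSeries P) := by
  rw [Module.Flat.iff_lTensor_injective']
  intro I
  rw [injective_iff_map_eq_zero]
  intro x hx
  apply co_inj (P := P) (N := I)
  funext i
  apply Subtype.ext
  have := co_map I.subtype x i
  rw [hx] at this
  simpa using this.symm

/-- Tensor form: the kernel of `f` on `P[[z]] ⊗ N`. -/
theorem kerf [IsNoetherianRing P] [Module.Finite P N] (f : Polynomial P) :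
    ∃ J : ℕ, ∀ x : PowerSeries P ⊗[P] N, (f : PowerSeries P) • x = 0 →
      f.leadingCoeff ^ J • x = 0 := by
  obtain ⟨J, hJ⟩ := seq (N := N) f
  refine ⟨J, fun x hx => ?_⟩
  apply co_inj (P := P) (N := N)
  funext i
  rw [map_smul, map_zero]
  refine hJ (co P N x) (fun m => ?_) i
  have := co_smul (f : PowerSeries P) x m
  rw [hx, map_zero] at this
  simpa only [Polynomial.coeff_coe, Pi.zero_apply] using this.symm

end Tens

end P022G.Kerf
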