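import Vale.Agent.P022D.L2.Rel
import Vale.Agent.P022D.L2c.Defs

/-!
# P022G: the relation of Hilbert type presents the maximal pro-2 quotient
-/

set_option linter.all false

noncomputable section

namespace Vale.Agent.P022G.Loc1

open Filter Vale.Agent.P022D.L2 Vale.Agent.P022D.L2.RelP
open Vale.Agent.P022D.L2c (Hm RANK)

section cay

variable {Q : Type} [Group Q]

/-- sum of an edge function along a path in the Cayley graph -/
def Pl (x : Fin 3 → Q) : Wd → (Q × Fin 3 → ZMod 2) →ₗ[ZMod 2] (Q → ZMod 2)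
  | [] => 0
  | i :: w => LinearMap.funLeft _ _ (fun q => (q, i)) +
      LinearMap.funLeft _ _ (fun q => q * x i) ∘ₗ Pl x w

theorem Pl_nil (x : Fin 3 → Q) (u : Q × Fin 3 → ZMod 2) (q : Q) : Pl x [] u q = 0 := rfl

theorem Pl_cons (x : Fin 3 → Q) (i : Fin 3) (w : Wd) (u : Q × Fin 3 → ZMod 2) (q : Q) :
    Pl x (i :: w) u q = u (q, i) + Pl x w u (q * x i) := rfl

theorem Pl_tr (x : Fin 3 → Q) (h : Q) (w : Wd) (u : Q × Fin 3 → ZMod 2) : ∀ q : Q,
    Pl x w (fun p => u (h * p.1, p.2)) q = Pl x w u (h * q) := by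
  induction w with
  | nil => intro q; rfl
  | cons i w ih => intro q; rw [Pl_cons, Pl_cons, ih, mul_assoc]

variable [Fintype Q]

theorem S1 (x : Fin 3 → Q) (w : Wd) (u : Q × Fin 3 → ZMod 2) :
    ∑ q, Pl x w u q = ∑ j, mA j w * ∑ q, u (q, j) := by
  induction w with
  | nil => simp [Pl_nil, mA, fx]
  | cons i w ih =>
    simp only [Pl_cons, Finset.sum_add_distrib, mA_cons, add_mul, ite_mul, one_mul, zero_mul,
      Finset.sum_ite_eq, Finset.mem_univ, if_true]
    rw [← ih]
    exact congrArg _ (Equiv.sum_comp (Equiv.mulRight (x i)) (fun q => Pl x w u q))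

theorem S2 (x : Fin 3 → Q) (a : Q → ZMod 2) (ha : ∀ p q, a (p * q) = a p + a q) (w : Wd)
    (u : Q × Fin 3 → ZMod 2) :
    ∑ q, a q * Pl x w u q = ∑ j, mA j w * ∑ q, a q * u (q, j) +
      ∑ i, a (x i) * ∑ j, mC i j w * ∑ q, u (q, j) := by
  induction w with
  | nil => simp [Pl_nil, mA, fx, mC]
  | cons i w ih =>
    have e : ∑ q, a q * Pl x w u (q * x i) =
        ∑ q, a q * Pl x w u q + a (x i) * ∑ q, Pl x w u q := by
      rw [Finset.mul_sum, ← Finset.sum_add_distrib,
        ← Equiv.sum_comp (Equiv.mulRight (x i)) (fun q => a q * Pl x w u q + a (x i) * Pl x w u q)]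
      refine Finset.sum_congr rfl fun q _ => ?_
      simp only [Equiv.coe_mulRight, ha]
      have : (2 : ZMod 2) = 0 := rfl
      linear_combination (-(a (x i) * Pl x w u (q * x i))) * this
    simp only [Pl_cons, mul_add, Finset.sum_add_distrib]
    rw [e, ih, S1]
    simp only [mA_cons, mC, add_mul, ite_mul, one_mul, zero_mul, Finset.sum_add_distrib,
      Finset.sum_ite_eq, Finset.mem_univ, if_true, mul_add, Finset.sum_ite_irrel,
      Finset.sum_const_zero, mul_ite, mul_zero]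
    ring

theorem ann (hQ : IsPGroup 2 Q) (x : Fin 3 → Q) (gen : ∀ q, ∃ w, q = ev x w) (w : Wd)
    (hA : ∀ j, mA j w = 0) (hC : ∀ i j, mC i j w = if i = hp j then 1 else 0)
    (l : Q → ZMod 2) (hl : ∀ u, ∑ q, l q * Pl x w u q = 0) (h1 : l 1 = 0) : l = 0 := by
  classical
  by_contra hne
  have two : ∀ a : ZMod 2, a + a = 0 := by decide
  let S : AddSubgroup (Q → ZMod 2) :=
    { carrier := {l | (∀ u, ∑ q, l q * Pl x w u q = 0) ∧ l 1 = 0}
      add_mem' := fun {a b} ha hb => ⟨fun u => by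
        simp only [Pi.add_apply, add_mul, Finset.sum_add_distrib, ha.1 u, hb.1 u, add_zero],
        by rw [Pi.add_apply, ha.2, hb.2, add_zero]⟩
      zero_mem' := ⟨fun u => by simp, rfl⟩
      neg_mem' := fun {a} ha => ⟨fun u => by
        simp only [Pi.neg_apply, neg_mul, Finset.sum_neg_distrib, ha.1 u, neg_zero],
        by rw [Pi.neg_apply, ha.2, neg_zero]⟩ }
  have st : ∀ (h : Q) (a : S), (fun q => a.1 (h⁻¹ * q) + a.1 h⁻¹) ∈ S := by
    intro h a
    refine ⟨fun u => ?_, by simp only [mul_one, two]⟩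
    simp only [add_mul, Finset.sum_add_distrib]
    rw [← Finset.mul_sum, S1]
    simp only [hA, zero_mul, Finset.sum_const_zero, mul_zero, add_zero]
    rw [← a.2.1 (fun p => u (h * p.1, p.2)),
      ← Equiv.sum_comp (Equiv.mulLeft h) (fun q => a.1 (h⁻¹ * q) * Pl x w u q)]
    refine Finset.sum_congr rfl fun q _ => ?_
    rw [Pl_tr, Equiv.coe_mulLeft, inv_mul_cancel_left]
  letI : MulAction Q S :=
    { smul := fun h a => ⟨_, st h a⟩
      one_smul := fun a => Subtype.ext (funext fun q => by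
        show a.1 (1⁻¹ * q) + a.1 1⁻¹ = a.1 q
        rw [inv_one, one_mul, a.2.2, add_zero])
      mul_smul := fun h k a => Subtype.ext (funext fun q => by
        show a.1 ((h * k)⁻¹ * q) + a.1 (h * k)⁻¹ =
          (a.1 (k⁻¹ * (h⁻¹ * q)) + a.1 k⁻¹) + (a.1 (k⁻¹ * h⁻¹) + a.1 k⁻¹)
        rw [mul_inv_rev, mul_assoc]
        linear_combination -two (a.1 k⁻¹)) }
  have sm : ∀ (h : Q) (a : S) q, (h • a).1 q = a.1 (h⁻¹ * q) + a.1 h⁻¹ := fun _ _ _ => rfl
  haveI : Fact (Nat.Prime 2) := ⟨Nat.prime_two⟩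
  have dv : 2 ∣ Nat.card S := by
    have : addOrderOf (⟨l, hl, h1⟩ : S) = 2 :=
      addOrderOf_eq_prime (Subtype.ext (funext fun q => by
        show (2 • l) q = 0
        rw [two_nsmul, Pi.add_apply, two])) (fun e => hne (congrArg Subtype.val e))
    exact (dvd_of_eq this.symm).trans (addOrderOf_dvd_natCard _)
  obtain ⟨a, ha, h0⟩ := hQ.exists_fixed_point_of_prime_dvd_card_of_fixed_point S dv
    (a := 0) (fun h => Subtype.ext (funext fun q => by rw [sm]; exact add_zero _))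
  have add : ∀ p q, a.1 (p * q) = a.1 p + a.1 q := by
    intro p q
    have := congrFun (congrArg Subtype.val (ha p⁻¹)) q
    rw [sm, inv_inv] at this
    linear_combination this - two (a.1 p)
  have hx : ∀ j, a.1 (x (hp j)) = 0 := by
    intro j
    have := a.2.1 (fun p => if p.1 = 1 then (if p.2 = j then 1 else 0) else 0)
    rw [S2 x a.1 add] at this
    simpa [hA, hC] using this
  have hx' : ∀ j, a.1 (x j) = 0 := fun j => by
    have : j = hp (hp j) := by revert j; decide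
    rw [this]; exact hx _
  refine h0 (Subtype.ext (funext fun q => ?_))
  obtain ⟨v, rfl⟩ := gen q
  show 0 = _
  induction v with
  | nil => exact a.2.2.symm
  | cons i v ih => rw [ev_cons, add, hx', ← ih, add_zero]

theorem rank (hQ : IsPGroup 2 Q) (x : Fin 3 → Q) (gen : ∀ q, ∃ w, q = ev x w) (w : Wd)
    (hA : ∀ j, mA j w = 0) (hC : ∀ i j, mC i j w = if i = hp j then 1 else 0) :
    Module.finrank (ZMod 2) (LinearMap.ker (Pl x w)) ≤ 2 * Fintype.card Q + 1 := by
  classical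
  haveI : Fact (Nat.Prime 2) := ⟨Nat.prime_two⟩
  let d : Q → ZMod 2 := fun j => if 1 = j then 1 else 0
  have top : LinearMap.range (Pl x w) ⊔ Submodule.span (ZMod 2) {d} = ⊤ := by
    by_contra hne
    obtain ⟨φ, h0, hφ⟩ := Submodule.exists_le_ker_of_lt_top _ (lt_top_iff_ne_top.2 hne)
    have e : ∀ v : Q → ZMod 2, φ v = ∑ q, φ (fun j => if q = j then 1 else 0) * v q := fun v => by
      rw [LinearMap.pi_apply_eq_sum_univ]
      exact Finset.sum_congr rfl fun q _ => by rw [smul_eq_mul, mul_comm]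
    have := ann hQ x gen w hA hC (fun q => φ (fun j => if q = j then 1 else 0))
      (fun u => by rw [← e]; exact hφ (Submodule.mem_sup_left ⟨u, rfl⟩))
      (hφ (Submodule.mem_sup_right (Submodule.mem_span_singleton_self d)))
    refine h0 (LinearMap.ext fun v => ?_)
    rw [e]
    exact Finset.sum_eq_zero fun q _ => by rw [congrFun this q]; exact zero_mul _
  have h1 := Submodule.finrank_add_le_finrank_add_finrank (LinearMap.range (Pl x w))
    (Submodule.span (ZMod 2) {d})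
  rw [top, finrank_top, Module.finrank_fintype_fun_eq_card] at h1
  have h2 : Module.finrank (ZMod 2) (Submodule.span (ZMod 2) {d}) ≤ 1 := by
    simpa using finrank_span_le_card (R := ZMod 2) ({d} : Set (Q → ZMod 2))
  have h3 := (Pl x w).finrank_range_add_finrank_ker
  rw [Module.finrank_fintype_fun_eq_card, Fintype.card_prod, Fintype.card_fin] at h3
  omega

end cay

/-- the wreath product of the group of order two with `Q` -/
@[ext] structure Wr (Q : Type) where
  f : Q → ZMod 2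
  p : Q

section wr

variable {Q : Type} [Group Q]

instance : Monoid (Wr Q) where
  mul a b := ⟨fun q => a.f q + b.f (q * a.p), a.p * b.p⟩
  one := ⟨0, 1⟩
  mul_assoc a b c := Wr.ext (funext fun q => by
    show a.f q + b.f (q * a.p) + c.f (q * (a.p * b.p)) =
      a.f q + (b.f (q * a.p) + c.f (q * a.p * b.p))
    rw [add_assoc, mul_assoc]) (mul_assoc _ _ _)
  one_mul a := Wr.ext (funext fun q => by
    show 0 + a.f (q * 1) = a.f q
    rw [zero_add, mul_one]) (one_mul _)
  mul_one a := Wr.ext (funext fun q => add_zero _) (mul_one _)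

theorem Wr.mul_f (a b : Wr Q) (q : Q) : (a * b).f q = a.f q + b.f (q * a.p) := rfl
theorem Wr.mul_p (a b : Wr Q) : (a * b).p = a.p * b.p := rfl

theorem Wr.pow_p (a : Wr Q) (n : ℕ) : (a ^ n).p = a.p ^ n := by
  induction n with
  | zero => rw [pow_zero, pow_zero]; rfl
  | succ n ih => rw [pow_succ, pow_succ, Wr.mul_p, ih]

theorem Wr.two (hQ : IsPGroup 2 Q) (a : Wr Q) : ∃ k : ℕ, a ^ 2 ^ k = 1 := by
  obtain ⟨k, hk⟩ := hQ a.p
  have e : (a ^ 2 ^ k).p = 1 := by rw [Wr.pow_p, hk]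
  refine ⟨k + 1, ?_⟩
  rw [pow_succ, pow_mul, pow_two]
  refine Wr.ext (funext fun q => ?_) (by rw [Wr.mul_p, e]; exact mul_one _)
  rw [Wr.mul_f, e, mul_one]
  exact (by decide : ∀ a : ZMod 2, a + a = 0) _

theorem ev_wr (X : Fin 3 → Wr Q) (w : Wd) :
    ev X w = ⟨Pl (fun i => (X i).p) w (fun p => (X p.2).f p.1), ev (fun i => (X i).p) w⟩ := by
  induction w with
  | nil => rfl
  | cons i w ih => rw [ev_cons, ih, ev_cons]; rfl

end wr

variable {G : Type} [Group G] [TopologicalSpace G] [IsTopologicalGroup G]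

section sh

variable {Q : Type} [Group Q] (ρ : G →* Q) (t : Q → G) (ht : ∀ q, ρ (t q) = q)

/-- the transfer element -/
def tr (γ : G) (q : Q) : ρ.ker :=
  ⟨t q * γ * (t (q * ρ γ))⁻¹, by rw [MonoidHom.mem_ker]; simp [ht]⟩

/-- the Shapiro homomorphism -/
def kap (b : Hm (ZMod 2) ρ.ker) (f : Q → ZMod 2) : G →* Wr Q where
  toFun γ := ⟨fun q => b.1 (tr ρ t ht γ q) + (f q + f (q * ρ γ)), ρ γ⟩
  map_one' := Wr.ext (funext fun q => by
    have e : tr ρ t ht 1 q = 1 := Subtype.ext (by simp [tr])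
    have k := b.2.2 1 1
    rw [one_mul] at k
    show b.1 (tr ρ t ht 1 q) + (f q + f (q * ρ 1)) = 0
    rw [e, map_one, mul_one]
    linear_combination (by decide : ∀ a : ZMod 2, a + a = 0) (f q) - k) (map_one ρ)
  map_mul' γ δ := Wr.ext (funext fun q => by
    have e : tr ρ t ht (γ * δ) q = tr ρ t ht γ q * tr ρ t ht δ (q * ρ γ) :=
      Subtype.ext (by simp [tr, mul_assoc])
    show b.1 (tr ρ t ht (γ * δ) q) + (f q + f (q * ρ (γ * δ))) =
      b.1 (tr ρ t ht γ q) + (f q + f (q * ρ γ)) +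
        (b.1 (tr ρ t ht δ (q * ρ γ)) + (f (q * ρ γ) + f (q * ρ γ * ρ δ)))
    rw [e, b.2.2, map_mul, mul_assoc]
    linear_combination -(by decide : ∀ a : ZMod 2, a + a = 0) (f (q * ρ γ))) (map_mul ρ γ δ)

theorem kap_two [Finite Q] (hQ : IsPGroup 2 Q) (ho : IsOpen (ρ.ker : Set G))
    (b : Hm (ZMod 2) ρ.ker) (f : Q → ZMod 2) : Two (kap ρ t ht b f) := by
  refine ⟨?_, fun x => Wr.two hQ _⟩
  have oV : IsOpen (Subtype.val '' {n : ρ.ker | b.1 n = 0}) :=
    ho.isOpenMap_subtype_val _ (b.2.1.isOpen_fiber 0)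
  have e : {x | kap ρ t ht b f x = 1} =
      ⋂ q : Q, (fun γ => t q * γ * (t q)⁻¹) ⁻¹' (Subtype.val '' {n : ρ.ker | b.1 n = 0}) := by
    ext γ
    have two : ∀ a : ZMod 2, a + a = 0 := by decide
    simp only [Set.mem_setOf_eq, Set.mem_iInter, Set.mem_preimage]
    constructor
    · intro h q
      have h1 : ρ γ = 1 := congrArg Wr.p h
      have h2 : b.1 (tr ρ t ht γ q) + (f q + f (q * ρ γ)) = 0 := congrFun (congrArg Wr.f h) q
      rw [h1, mul_one, two, add_zero] at h2
      exact ⟨_, h2, by simp [tr, h1]⟩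
    · intro h
      have h1 : ρ γ = 1 := by
        obtain ⟨n, -, hn⟩ := h 1
        have := n.2
        rw [hn, MonoidHom.mem_ker] at this
        simpa [ht] using this
      refine Wr.ext (funext fun q => ?_) h1
      obtain ⟨n, h2, hn⟩ := h q
      have e : tr ρ t ht γ q = n := Subtype.ext (by rw [hn]; simp [tr, h1])
      show b.1 (tr ρ t ht γ q) + (f q + f (q * ρ γ)) = 0
      rw [e, h1, mul_one, two, add_zero]; exact h2
  rw [e]
  exact isOpen_iInter_of_finite fun q => oV.preimage (by fun_prop)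

/-- the values on the generators -/
def Psi (g : Fin 3 → G) :
    (Hm (ZMod 2) ρ.ker × (Q → ZMod 2)) →ₗ[ZMod 2] (Q × Fin 3 → ZMod 2) where
  toFun v p := (kap ρ t ht v.1 v.2 (g p.2)).f p.1
  map_add' v v' := funext fun p => by
    show (v.1.1 _ + v'.1.1 _) + ((v.2 _ + v'.2 _) + (v.2 _ + v'.2 _)) =
      v.1.1 _ + (v.2 _ + v.2 _) + (v'.1.1 _ + (v'.2 _ + v'.2 _))
    ring
  map_smul' c v := funext fun p => by
    show c * v.1.1 _ + (c * v.2 _ + c * v.2 _) = c * (v.1.1 _ + (v.2 _ + v.2 _))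
    ring

end sh

/-- every solution on the Cayley graph comes from a continuous cocycle -/
theorem surj (hR : RANK G) {g : Fin 3 → G} {U : Ultrafilter Wd} (hU : Rel U) (hH : Holds g U)
    {Q : Type} [Group Q] [Finite Q] (hQ : IsPGroup 2 Q) (ρ : G →* Q)
    (ho : IsOpen (ρ.ker : Set G)) (gen : ∀ q, ∃ w, q = ev (fun i => ρ (g i)) w)
    (u : Q × Fin 3 → ZMod 2) (hu : ∀ᶠ w in (U : Filter Wd), Pl (fun i => ρ (g i)) w u = 0) :
    ∃ κ : G →* Wr Q, Two κ ∧ ∀ i, κ (g i) = ⟨fun q => u (q, i), ρ (g i)⟩ := by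
  classical
  haveI : Fact (Nat.Prime 2) := ⟨Nat.prime_two⟩
  letI := Fintype.ofFinite Q
  have sj : Function.Surjective ρ := fun q => by
    obtain ⟨w, rfl⟩ := gen q
    exact ⟨_, (ev_map ρ g w).symm⟩
  obtain ⟨t, ht, t1⟩ : ∃ t : Q → G, (∀ q, ρ (t q) = q) ∧ t 1 = 1 := by
    choose t ht using sj
    refine ⟨fun q => (t 1)⁻¹ * t q, fun q => by simp [ht], by simp⟩
  have cd := hR.2 ρ.ker ho
  have ix : ρ.ker.index = Fintype.card Q := by
    rw [Subgroup.index_ker, MonoidHom.range_eq_top.2 sj, Subgroup.card_top, Nat.card_eq_fintype_card]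
  haveI : Finite (Hm (ZMod 2) ρ.ker) := Nat.finite_of_card_ne_zero (by rw [cd]; positivity)
  have rk : Module.finrank (ZMod 2) (Hm (ZMod 2) ρ.ker) = Fintype.card Q + 2 := by
    have := Module.natCard_eq_pow_finrank (K := ZMod 2) (V := Hm (ZMod 2) ρ.ker)
    rw [cd, ix, Nat.card_zmod] at this
    exact (Nat.pow_right_injective le_rfl this).symm
  have hh := fun v : Hm (ZMod 2) ρ.ker × (Q → ZMod 2) =>
    hH (Wr Q) (kap ρ t ht v.1 v.2) (kap_two ρ t ht hQ ho v.1 v.2)
  obtain ⟨w, ⟨hA, hC⟩, h1, h2⟩ :=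
    (hU.mag.and (hu.and (Filter.eventually_all.2 fun v => (hh v).1))).exists
  have le : LinearMap.range (Psi ρ t ht g) ≤ LinearMap.ker (Pl (fun i => ρ (g i)) w) := by
    rintro _ ⟨v, rfl⟩
    have := h2 v
    rw [ev_wr] at this
    exact congrArg Wr.f this
  have kr : Module.finrank (ZMod 2) (LinearMap.ker (Psi ρ t ht g)) ≤ 1 := by
    let φ : LinearMap.ker (Psi ρ t ht g) →ₗ[ZMod 2] ZMod 2 :=
      { toFun := fun v => v.1.2 1
        map_add' := fun _ _ => rfl
        map_smul' := fun _ _ => rfl }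
    refine (LinearMap.finrank_le_finrank_of_injective (f := φ)
      ((injective_iff_map_eq_zero _).2 fun v hv => ?_)).trans (Module.finrank_self _).le
    have z : ∀ γ, v.1.1.1 (tr ρ t ht γ 1) + v.1.2 (ρ γ) = 0 := fun γ => by
      obtain ⟨w', hw⟩ := (hh v.1).2 γ
      rw [ev_wr] at hw
      have k := congrFun (congrArg Wr.f hw) 1
      have k2 : (fun p : Q × Fin 3 => (kap ρ t ht v.1.1 v.1.2 (g p.2)).f p.1) = 0 := v.2
      have k3 : v.1.2 1 = 0 := hv
      change v.1.1.1 (tr ρ t ht γ 1) + (v.1.2 1 + v.1.2 (1 * ρ γ)) = Pl _ w' _ 1 at k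
      rwa [k2, map_zero, k3, zero_add, one_mul] at k
    have b0 : ∀ n, v.1.1.1 n = 0 := fun n => by
      have k := z n
      have e : ρ n = 1 := n.2
      have e2 : tr ρ t ht n 1 = n := Subtype.ext (by simp [tr, e, t1])
      have k3 : v.1.2 1 = 0 := hv
      rwa [e, e2, k3, add_zero] at k
    refine Subtype.ext (Prod.ext (Subtype.ext (funext b0)) (funext fun q => ?_))
    have k := z (t q)
    rwa [b0, ht, zero_add] at k
  have h3 := (Psi ρ t ht g).finrank_range_add_finrank_ker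
  rw [Module.finrank_prod, rk, Module.finrank_fintype_fun_eq_card] at h3
  have h4 := rank hQ _ gen w hA hC
  have eq := Submodule.eq_of_le_of_finrank_le le (by omega)
  obtain ⟨v, hv⟩ : u ∈ LinearMap.range (Psi ρ t ht g) := by rw [eq]; exact h1
  exact ⟨_, kap_two ρ t ht hQ ho v.1 v.2, fun i => Wr.ext (funext fun q => congrFun hv (q, i)) rfl⟩

theorem step (hR : RANK G) {g : Fin 3 → G} {U : Ultrafilter Wd} (hU : Rel U) (hH : Holds g U)
    {E Q : Type} [Group E] [Group Q] [Finite Q] (hQ : IsPGroup 2 Q) (π : E →* Q) (z : E)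
    (hz : ∀ y, z * y = y * z) (z2 : z * z = 1) (z1 : z ≠ 1) (hk : ∀ y, π y = 1 → y = 1 ∨ y = z)
    (e : Fin 3 → E) (he : ∀ᶠ w in (U : Filter Wd), ev e w = 1) (gen : ∀ y, ∃ w, y = ev e w)
    (sj : Function.Surjective π) (ρ : G →* Q) (ho : IsOpen (ρ.ker : Set G))
    (hρ : ∀ i, ρ (g i) = π (e i)) :
    ∃ φ : G →* E, IsOpen (φ.ker : Set G) ∧ ∀ i, φ (g i) = e i := by
  classical
  have evp : ∀ w, ev (fun i => ρ (g i)) w = π (ev e w) := fun w => by
    rw [← ev_map]; exact congrArg (fun X => ev X w) (funext hρ)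
  choose s hs using id sj
  let ι : ZMod 2 → E := fun a => if a = 0 then 1 else z
  have ι0 : ι 0 = 1 := if_pos rfl
  have ι1 : ι 1 = z := if_neg (by decide)
  have cs : ∀ a : ZMod 2, a = 0 ∨ a = 1 := by decide
  have ιa : ∀ a b, ι (a + b) = ι a * ι b := fun a b => by
    rcases cs a with rfl | rfl
    · rw [zero_add, ι0, one_mul]
    · rcases cs b with rfl | rfl
      · rw [add_zero, ι0, mul_one]
      · rw [ι1, z2]; exact ι0
  have ιc : ∀ a y, ι a * y = y * ι a := fun a y => by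
    rcases cs a with rfl | rfl
    · rw [ι0, one_mul, mul_one]
    · rw [ι1, hz]
  have ex : ∀ p : Q × Fin 3, ∃ a, s p.1 * e p.2 = ι a * s (p.1 * ρ (g p.2)) := fun p => by
    rcases hk (s p.1 * e p.2 * (s (p.1 * ρ (g p.2)))⁻¹) (by simp [hs, hρ]) with h | h
    · exact ⟨0, by rw [ι0, ← h, inv_mul_cancel_right]⟩
    · exact ⟨1, by rw [ι1, ← h, inv_mul_cancel_right]⟩
  choose u hu using ex
  have path : ∀ w q, s q * ev e w =
      ι (Pl (fun i => ρ (g i)) w u q) * s (q * ev (fun i => ρ (g i)) w) := by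
    intro w
    induction w with
    | nil => intro q; rw [ev_nil, ev_nil, Pl_nil, ι0, one_mul, mul_one, mul_one]
    | cons i w ih =>
      intro q
      rw [ev_cons, ev_cons, Pl_cons, ιa, ← mul_assoc, hu (q, i), mul_assoc, ih, mul_assoc,
        mul_assoc]
  obtain ⟨κ, hκ, hg⟩ := surj hR hU hH hQ ρ ho
    (fun q => by obtain ⟨y, rfl⟩ := sj q; obtain ⟨w, rfl⟩ := gen y; exact ⟨w, (evp w).symm⟩) u
    (he.mono fun w hw => funext fun q => by
      have k := path w q
      rw [evp, hw, map_one, mul_one, mul_one] at k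
      have k2 := mul_right_cancel ((one_mul _).trans k)
      rcases cs (Pl (fun i => ρ (g i)) w u q) with h | h
      · exact h
      · rw [h, ι1] at k2; exact absurd k2.symm z1)
  let ψ : Wr Q → E := fun a => (s 1)⁻¹ * (ι (a.f 1) * s (1 * a.p))
  have key : ∀ w, ψ (ev (fun i => κ (g i)) w) = ev e w := fun w => by
    rw [ev_wr]
    simp only [hg]
    show (s 1)⁻¹ * (ι (Pl _ w u 1) * _) = _
    rw [← path, inv_mul_cancel_left]
  have wd := (hH _ κ hκ).2
  let φ : G →* E :=
    { toFun := fun γ => ψ (κ γ)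
      map_one' := by rw [map_one]; exact key []
      map_mul' := fun γ δ => by
        obtain ⟨w, hw⟩ := wd γ
        obtain ⟨w', hw'⟩ := wd δ
        rw [map_mul, hw, hw', ← ev_app, key, key, key, ev_app] }
  refine ⟨φ, Subgroup.isOpen_of_mem_nhds _ (g := 1) (Filter.mem_of_superset
    (hκ.1.mem_nhds (map_one κ)) fun γ hγ => ?_), fun i => ?_⟩
  · show ψ (κ γ) = 1
    rw [show κ γ = 1 from hγ]; exact key []
  · have := key [i]
    rwa [ev_cons, ev_cons, ev_nil, ev_nil, mul_one, mul_one] at this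

theorem pres0 (hR : RANK G) {g : Fin 3 → G} {U : Ultrafilter Wd} (hU : Rel U) (hH : Holds g U)
    (n : ℕ) : ∀ (E : Type) [Group E] [Finite E], Nat.card E = n → IsPGroup 2 E →
    ∀ e : Fin 3 → E, (∀ᶠ w in (U : Filter Wd), ev e w = 1) → (∀ y, ∃ w, y = ev e w) →
    ∃ φ : G →* E, IsOpen (φ.ker : Set G) ∧ ∀ i, φ (g i) = e i := by
  induction n using Nat.strong_induction_on with
  | _ n ih =>
  intro E _ _ hn hE e he gen
  haveI : Fact (Nat.Prime 2) := ⟨Nat.prime_two⟩
  rcases subsingleton_or_nontrivial E with h | h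
  · exact ⟨1, by rw [MonoidHom.ker_one]; exact isOpen_univ, fun i => Subsingleton.elim _ _⟩
  haveI := hE.center_nontrivial
  obtain ⟨k, hk0, hk⟩ := (hE.to_subgroup (Subgroup.center E)).nontrivial_iff_card.1 inferInstance
  obtain ⟨z, hz⟩ := exists_prime_orderOf_dvd_card' (G := Subgroup.center E) 2
    (by rw [hk]; exact dvd_pow_self 2 hk0.ne')
  have oz : orderOf (z : E) = 2 := by rw [Subgroup.orderOf_coe, hz]
  have zc : ∀ y, (z : E) * y = y * z := fun y => (Subgroup.mem_center_iff.1 z.2 y).symm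
  have z2 : (z : E) * z = 1 := by rw [← pow_two, ← oz, pow_orderOf_eq_one]
  have z1 : (z : E) ≠ 1 := fun h => by rw [h, orderOf_one] at oz; exact absurd oz (by decide)
  let Z : Subgroup E :=
    { carrier := {y | y = 1 ∨ y = z}
      one_mem' := Or.inl rfl
      mul_mem' := by
        rintro a b (rfl | rfl) (rfl | rfl)
        · exact Or.inl (one_mul _)
        · exact Or.inr (one_mul _)
        · exact Or.inr (mul_one _)
        · exact Or.inl z2
      inv_mem' := by
        rintro a (rfl | rfl)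
        · exact Or.inl inv_one
        · exact Or.inr (inv_eq_of_mul_eq_one_right z2) }
  haveI : Z.Normal := ⟨by
    rintro a (rfl | rfl) y
    · exact Or.inl (by simp)
    · exact Or.inr (by rw [← zc, mul_inv_cancel_right])⟩
  have lt : Nat.card (E ⧸ Z) < n := by
    have e1 := Subgroup.card_eq_card_quotient_mul_card_subgroup Z
    haveI : Nontrivial Z := ⟨⟨⟨z, Or.inr rfl⟩, 1, fun h => z1 (congrArg Subtype.val h)⟩⟩
    have e2 : 1 < Nat.card Z := Finite.one_lt_card
    have e3 : 0 < Nat.card (E ⧸ Z) := Nat.card_pos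
    rw [← hn, e1]; nlinarith
  have sj := QuotientGroup.mk'_surjective Z
  obtain ⟨ρ, ho, hρ⟩ := ih _ lt (E ⧸ Z) rfl (hE.to_quotient Z) (fun i => QuotientGroup.mk' Z (e i))
    (he.mono fun w hw => by rw [ev_map, hw, map_one])
    (fun q => by
      obtain ⟨y, rfl⟩ := sj q; obtain ⟨w, rfl⟩ := gen y; exact ⟨w, (ev_map _ e w).symm⟩)
  exact step hR hU hH (hE.to_quotient Z) (QuotientGroup.mk' Z) z zc z2 z1
    (fun y hy => (QuotientGroup.eq_one_iff y).1 hy) e he gen sj ρ ho hρ

/-- **the presentation**: a solution of the relation in a finite 2-group is a continuous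
homomorphism -/
theorem pres (hR : RANK G) {g : Fin 3 → G} {U : Ultrafilter Wd} (hU : Rel U) (hH : Holds g U)
    (E : Type) [Group E] [Finite E] (hE : IsPGroup 2 E) (e : Fin 3 → E)
    (he : ∀ᶠ w in (U : Filter Wd), ev e w = 1) :
    ∃ φ : G →* E, IsOpen (φ.ker : Set G) ∧ ∀ i, φ (g i) = e i := by
  let M : Submonoid E :=
    { carrier := {y | ∃ w, y = ev e w}
      one_mem' := ⟨[], rfl⟩
      mul_mem' := by
        rintro _ _ ⟨w, rfl⟩ ⟨w', rfl⟩
        exact ⟨w ++ w', (ev_app _ _ _).symm⟩ }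
  let H : Subgroup E :=
    { M with
      inv_mem' := fun {y} hy => by
        have h0 : 0 < orderOf y := orderOf_pos y
        have : y⁻¹ = y ^ (orderOf y - 1) := by
          rw [inv_eq_iff_mul_eq_one, ← pow_succ', Nat.sub_add_cancel h0, pow_orderOf_eq_one]
        rw [this]; exact M.pow_mem hy _ }
  let e' : Fin 3 → H := fun i => ⟨e i, [i], by rw [ev_cons, ev_nil, mul_one]⟩
  have ee : ∀ w, ((ev e' w : H) : E) = ev e w := fun w => (ev_map H.subtype e' w).symm
  obtain ⟨φ, ho, hφ⟩ := pres0 hR hU hH _ H rfl (hE.to_subgroup H) e'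
    (he.mono fun w hw => Subtype.ext ((ee w).trans hw))
    (fun y => y.2.imp fun w hw => Subtype.ext (hw.trans (ee w).symm))
  refine ⟨H.subtype.comp φ, Subgroup.isOpen_mono (H₁ := φ.ker) (fun x hx => ?_) ho,
    fun i => congrArg Subtype.val (hφ i)⟩
  rw [MonoidHom.mem_ker] at hx ⊢
  rw [MonoidHom.comp_apply, hx, map_one]

end Vale.Agent.P022G.Loc1
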