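import Vale.Agent.P022D.L2.Defs
import Vale.Agent.P022D.L2c.Defs

/-! P022G, row LOC1: a two cocycle inflated from a 2-group which vanishes on the relation is a
coboundary. -/

set_option linter.all false

noncomputable section

namespace Vale.Agent.P022G.Loc1H20

open Filter Module
open Vale.Agent.P022D.L2 (Wd ev mA mC hp Rel Two Holds fx)
open Vale.Agent.P022D.L2c (Hm)

theorem ev_nil {M : Type*} [Monoid M] (X : Fin 3 → M) : ev X [] = 1 := rfl

theorem ev_cons {M : Type*} [Monoid M] (X : Fin 3 → M) (i : Fin 3) (w : Wd) :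
    ev X (i :: w) = X i * ev X w := by simp [ev]

theorem ev_map {M N : Type*} [Monoid M] [Monoid N] (f : M →* N) (X : Fin 3 → M) (w : Wd) :
    ev (fun i => f (X i)) w = f (ev X w) := by
  induction w with
  | nil => simp [ev_nil]
  | cons i w ih => rw [ev_cons, ev_cons, ih, map_mul]

/-- the cocycle of the free monoid with values in the functions on `Q` -/
def Cw {Q M : Type} [Group Q] [AddCommGroup M] (x : Fin 3 → Q) (m : Fin 3 → Q → M) :
    Wd → Q → M
  | [] => 0
  | i :: w => fun u => m i u + Cw x m w (u * x i)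

/-- the cochain of the free monoid with coboundary `z` and values `y` on the letters -/
def Fw {G M : Type} [Group G] [AddCommGroup M] (g : Fin 3 → G) (a : G →* AddMonoid.End M)
    (z : G → G → M) (y : Fin 3 → M) : Wd → M
  | [] => z 1 1
  | i :: w => y i + a (g i) (Fw g a z y w) + z (g i) (ev g w)

section fox

variable {Q : Type} [Group Q] (x : Fin 3 → Q)

theorem Cw_map {M N : Type} [AddCommGroup M] [AddCommGroup N] (l : M →+ N) (m : Fin 3 → Q → M)
    (w : Wd) (u : Q) : Cw x (fun i v => l (m i v)) w u = l (Cw x m w u) := by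
  induction w generalizing u with
  | nil => simp [Cw]
  | cons i w ih => simp only [Cw, map_add, ih]

theorem Cw_left {M : Type} [AddCommGroup M] (m : Fin 3 → Q → M) (v : Q) (w : Wd) (u : Q) :
    Cw x (fun i t => m i (v * t)) w u = Cw x m w (v * u) := by
  induction w generalizing u with
  | nil => simp [Cw]
  | cons i w ih => simp only [Cw, ih, mul_assoc]

/-- the Fox map -/
def Ph (w : Wd) : (Fin 3 → Q → ZMod 2) →ₗ[ZMod 2] (Q → ZMod 2) where
  toFun m := Cw x m w
  map_add' m m' := by
    induction w with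
    | nil => simp [Cw]
    | cons i w ih => funext u; simp only [Cw, ih, Pi.add_apply]; ring
  map_smul' c m := by
    induction w with
    | nil => simp [Cw]
    | cons i w ih =>
      funext u
      simp only [Cw, Pi.smul_apply, smul_eq_mul, RingHom.id_apply] at ih ⊢
      rw [ih]; simp only [Pi.smul_apply, smul_eq_mul]; ring

variable [Fintype Q]

theorem sum_Cw (m : Fin 3 → Q → ZMod 2) (w : Wd) :
    ∑ u, Cw x m w u = ∑ j, mA j w * ∑ u, m j u := by
  induction w with
  | nil => simp [Cw, mA, fx]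
  | cons i w ih =>
    simp only [Cw, Finset.sum_add_distrib]
    rw [Fintype.sum_equiv (Equiv.mulRight (x i)) (fun u => Cw x m w (u * x i)) (Cw x m w)
      (fun _ => rfl), ih]
    simp only [mA, fx, one_mul, add_mul, Finset.sum_add_distrib, ite_mul, zero_mul,
      Finset.sum_ite_eq, Finset.mem_univ, if_true]

theorem pair_add [DecidableEq Q] (l : Q → ZMod 2) (hl : ∀ u v, l (u * v) = l u + l v) (j : Fin 3)
    (w : Wd) :
    ∑ u, l u * Cw x (fun i u => if i = j ∧ u = 1 then 1 else 0) w u = ∑ k, l (x k) * mC k j w := by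
  have l1 : l 1 = 0 := by
    have := hl 1 1
    rw [mul_one] at this
    linear_combination -this
  have t2 : ∀ t : ZMod 2, t + t = 0 := by decide
  induction w with
  | nil => simp [Cw, mC]
  | cons i w ih =>
    simp only [Cw, mul_add, Finset.sum_add_distrib, mC]
    have e1 : ∑ u, l u * (if i = j ∧ u = 1 then (1 : ZMod 2) else 0) = 0 :=
      Finset.sum_eq_zero fun u _ => by
        split_ifs with h
        · rw [h.2, l1, zero_mul]
        · rw [mul_zero]
    have e2 : ∑ u, l u * Cw x (fun i u => if i = j ∧ u = 1 then (1 : ZMod 2) else 0) w (u * x i) =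
        ∑ u, (l u + l (x i)) * Cw x (fun i u => if i = j ∧ u = 1 then (1 : ZMod 2) else 0) w u :=
      Fintype.sum_equiv (Equiv.mulRight (x i)) _ _ fun u => by
        simp only [Equiv.coe_mulRight]
        rw [hl, add_assoc, t2, add_zero]
    have e3 : ∑ k, mA k w * ∑ u : Q, (if k = j ∧ u = 1 then (1 : ZMod 2) else 0) = mA j w := by
      rw [Finset.sum_eq_single j]
      · simp
      · intro k _ hk; simp [hk]
      · simp
    rw [e1, e2, zero_add]
    simp only [add_mul, Finset.sum_add_distrib]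
    rw [ih, ← Finset.mul_sum, sum_Cw, e3]
    simp

theorem ann0 (h2 : IsPGroup 2 Q) (hg : ∀ u, ∃ w, u = ev x w) (w : Wd) (hA : ∀ j, mA j w = 0)
    (hC : ∀ i j, mC i j w = if i = hp j then 1 else 0) (l : Q → ZMod 2) (l1 : l 1 = 0)
    (hl : ∀ m, ∑ u, l u * Cw x m w u = 0) : l = 0 := by
  classical
  have t2 : ∀ t : ZMod 2, t + t = 0 := by decide
  let N : AddSubgroup (Q → ZMod 2) :=
    { carrier := {l | l 1 = 0 ∧ ∀ m, ∑ u, l u * Cw x m w u = 0}
      add_mem' := fun {a b} ha hb => ⟨by rw [Pi.add_apply, ha.1, hb.1, add_zero], fun m => by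
        simp only [Pi.add_apply, add_mul, Finset.sum_add_distrib, ha.2 m, hb.2 m, add_zero]⟩
      zero_mem' := ⟨rfl, fun m => by simp⟩
      neg_mem' := fun {a} ha => ⟨by rw [Pi.neg_apply, ha.1, neg_zero], fun m => by
        simp only [Pi.neg_apply, neg_mul, Finset.sum_neg_distrib, ha.2 m, neg_zero]⟩ }
  have st : ∀ (v : Q) (a : N), (fun u => a.1 (v⁻¹ * u) + a.1 v⁻¹) ∈ N := fun v a => by
    refine ⟨by simp only [mul_one, t2], fun m => ?_⟩
    simp only [add_mul, Finset.sum_add_distrib]
    rw [← Finset.mul_sum, sum_Cw]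
    simp only [hA, zero_mul, Finset.sum_const_zero, mul_zero, add_zero]
    rw [← a.2.2 (fun i t => m i (v * t))]
    refine Fintype.sum_equiv (Equiv.mulLeft v⁻¹) _ _ fun u => ?_
    simp only [Equiv.coe_mulLeft, Cw_left, mul_inv_cancel_left]
  letI : MulAction Q N :=
    { smul := fun v a => ⟨_, st v a⟩
      one_smul := fun a => Subtype.ext (funext fun u => by
        change a.1 (1⁻¹ * u) + a.1 1⁻¹ = a.1 u
        rw [inv_one, one_mul, a.2.1, add_zero])
      mul_smul := fun v v' a => Subtype.ext (funext fun u => by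
        change a.1 ((v * v')⁻¹ * u) + a.1 (v * v')⁻¹ =
          (a.1 (v'⁻¹ * (v⁻¹ * u)) + a.1 v'⁻¹) + (a.1 (v'⁻¹ * v⁻¹) + a.1 v'⁻¹)
        rw [mul_inv_rev, mul_assoc]
        linear_combination -(t2 (a.1 v'⁻¹))) }
  by_contra hne
  have ho : addOrderOf (⟨l, l1, hl⟩ : N) = 2 := by
    refine addOrderOf_eq_prime ?_ fun h => hne (congrArg Subtype.val h)
    exact Subtype.ext (funext fun u => by
      change (2 • l) u = 0
      rw [two_nsmul, Pi.add_apply, t2])
  have hd : 2 ∣ Nat.card N := by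
    have := addOrderOf_dvd_natCard (⟨l, l1, hl⟩ : N)
    rwa [ho] at this
  have h0 : (0 : N) ∈ MulAction.fixedPoints Q N := fun v => Subtype.ext (funext fun u => by
    change (0 : Q → ZMod 2) (v⁻¹ * u) + (0 : Q → ZMod 2) v⁻¹ = (0 : Q → ZMod 2) u
    simp)
  obtain ⟨b, hb, hb0⟩ := h2.exists_fixed_point_of_prime_dvd_card_of_fixed_point N hd h0
  have ad : ∀ u v, b.1 (u * v) = b.1 u + b.1 v := fun u v => by
    have e : b.1 (u⁻¹⁻¹ * v) + b.1 u⁻¹⁻¹ = b.1 v := congrFun (congrArg Subtype.val (hb u⁻¹)) v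
    rw [inv_inv] at e
    linear_combination e - t2 (b.1 u)
  have hx : ∀ k, b.1 (x k) = 0 := fun k => by
    have e := pair_add x b.1 ad (hp k) w
    rw [b.2.2] at e
    have hh : hp (hp k) = k := by fin_cases k <;> rfl
    simp only [hC, hh, mul_ite, mul_one, mul_zero, Finset.sum_ite_eq', Finset.mem_univ,
      if_true] at e
    exact e.symm
  refine hb0 (Subtype.ext (funext fun u => ?_))
  obtain ⟨w', rfl⟩ := hg u
  change (0 : ZMod 2) = b.1 (ev x w')
  induction w' with
  | nil => exact b.2.1.symm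
  | cons i w' ih => rw [ev_cons, ad, hx, zero_add, ih]

theorem card_ker (h2 : IsPGroup 2 Q) (hg : ∀ u, ∃ w, u = ev x w) (w : Wd) (hA : ∀ j, mA j w = 0)
    (hC : ∀ i j, mC i j w = if i = hp j then 1 else 0) :
    Nat.card (LinearMap.ker (Ph x w)) ≤ 2 ^ (2 * Fintype.card Q + 1) := by
  classical
  let A := (LinearMap.range (Ph x w)).dualAnnihilator
  let ev1 : A →ₗ[ZMod 2] ZMod 2 :=
    { toFun := fun l => l.1 (Pi.single 1 1)
      map_add' := fun _ _ => rfl
      map_smul' := fun _ _ => rfl }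
  have ex : ∀ (l : Dual (ZMod 2) (Q → ZMod 2)) (φ : Q → ZMod 2),
      l φ = ∑ u, l (Pi.single u 1) * φ u := fun l φ => by
    conv_lhs => rw [← Finset.univ_sum_single φ, map_sum]
    refine Finset.sum_congr rfl fun u _ => ?_
    rw [mul_comm, ← smul_eq_mul, ← map_smul, ← Pi.single_smul, smul_eq_mul, mul_one]
  have inj : Function.Injective ev1 := by
    rw [injective_iff_map_eq_zero]
    intro l hl
    have h := ann0 x h2 hg w hA hC (fun u => l.1 (Pi.single u 1)) hl fun m => by
      rw [← ex]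
      exact (Submodule.mem_dualAnnihilator _).1 l.2 _ ⟨m, rfl⟩
    refine Subtype.ext (LinearMap.ext fun φ => ?_)
    rw [ex]
    exact Finset.sum_eq_zero fun u _ => by rw [congrFun h u]; exact zero_mul _
  have h1 := LinearMap.finrank_le_finrank_of_injective inj
  have h3 := Subspace.finrank_add_finrank_dualAnnihilator_eq (LinearMap.range (Ph x w))
  have h4 := LinearMap.finrank_range_add_finrank_ker (Ph x w)
  rw [finrank_self] at h1
  rw [Module.finrank_fintype_fun_eq_card] at h3
  rw [Module.finrank_pi_fintype] at h4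
  simp only [Module.finrank_fintype_fun_eq_card, Finset.sum_const, Finset.card_univ,
    Fintype.card_fin, smul_eq_mul] at h4
  rw [Module.natCard_eq_pow_finrank (K := ZMod 2), Nat.card_zmod]
  refine Nat.pow_le_pow_right two_pos ?_
  change finrank (ZMod 2) A ≤ 1 at h1
  change _ + finrank (ZMod 2) A = _ at h3
  omega

end fox

section grp

variable {G : Type} [Group G] [TopologicalSpace G] [IsTopologicalGroup G]
  {Q : Type} [Group Q] {g : Fin 3 → G} {U : Ultrafilter Wd}

/-- locally constant cocycles with values in the functions on `Q` -/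
def Zc {M : Type} [AddCommGroup M] (π : G →* Q) (c : G → Q → M) : Prop :=
  IsLocallyConstant c ∧ ∀ x y u, c (x * y) u = c x u + c y (u * π x)

theorem Zc.one {M : Type} [AddCommGroup M] {π : G →* Q} {c : G → Q → M} (h : Zc π c) :
    c 1 = 0 := funext fun u => by
  have := h.2 1 1 u
  rw [mul_one, map_one, mul_one] at this
  exact left_eq_add.1 this

theorem Zc.word {M : Type} [AddCommGroup M] {π : G →* Q} {c : G → Q → M} (h : Zc π c) (w : Wd) :
    c (ev g w) = Cw (fun i => π (g i)) (fun i => c (g i)) w := by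
  induction w with
  | nil => exact h.one
  | cons i w ih => funext u; rw [ev_cons, h.2, ih]; rfl

theorem aff (hH : Holds g U) {π : G →* Q} (hπ : Two π) {M : Type} [AddCommGroup M]
    (h2 : ∀ m : M, m + m = 0) {c : G → Q → M} (h : Zc π c) :
    (∀ᶠ w in (U : Filter Wd), c (ev g w) = 0 ∧ π (ev g w) = 1) ∧
      ∀ x, ∃ w, c x = c (ev g w) ∧ π x = π (ev g w) := by
  let ρ : G →* Function.End (Q → M) × Q :=
    { toFun := fun x => (fun φ u => φ (u * π x) + c x u, π x)
      map_one' := Prod.ext (funext fun φ => funext fun u => by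
        change φ (u * π 1) + c 1 u = φ u
        rw [h.one, map_one, mul_one]; exact add_zero _) (map_one π)
      map_mul' := fun x y => Prod.ext (funext fun φ => funext fun u => by
        change φ (u * π (x * y)) + c (x * y) u =
          (φ (u * π x * π y) + c y (u * π x)) + c x u
        rw [h.2, map_mul, mul_assoc]; abel) (map_mul π x y) }
  have r0 : ∀ x y, ρ x = ρ y → c x = c y ∧ π x = π y := fun x y e =>
    ⟨funext fun u => by
      have : (0 : Q → M) (u * π x) + c x u = (0 : Q → M) (u * π y) + c y u :=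
        congrFun (congrFun (congrArg Prod.fst e) 0) u
      simpa using this, congrArg Prod.snd e⟩
  have r1 : ∀ x, c x = 0 → π x = 1 → ρ x = 1 := fun x h0 h1 =>
    Prod.ext (funext fun φ => funext fun u => by
      change φ (u * π x) + c x u = φ u
      rw [h0, h1, mul_one]; exact add_zero _) h1
  have hT : Two ρ := by
    constructor
    · have : {x | ρ x = 1} = {x | c x = 0} ∩ {x | π x = 1} := by
        ext x
        constructor
        · intro hx
          have := r0 x 1 (hx.trans (map_one ρ).symm)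
          exact ⟨this.1.trans h.one, this.2.trans (map_one π)⟩
        · exact fun hx => r1 x hx.1 hx.2
      rw [this]
      exact (h.1.isOpen_fiber 0).inter hπ.1
    · intro x
      obtain ⟨k, hk⟩ := hπ.2 x
      rw [← map_pow] at hk
      refine ⟨k + 1, ?_⟩
      rw [← map_pow, pow_succ, pow_mul, pow_two]
      refine r1 _ (funext fun u => ?_) (by rw [map_mul, hk, mul_one])
      rw [h.2, hk, mul_one]; exact h2 _
  obtain ⟨a, b⟩ := hH _ ρ hT
  refine ⟨a.mono fun w hw => ?_, fun x => (b x).imp fun w hw => r0 _ _ (by rw [hw, ev_map])⟩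
  rw [ev_map] at hw
  have := r0 _ 1 (hw.trans (map_one ρ).symm)
  exact ⟨this.1.trans h.one, this.2.trans (map_one π)⟩

theorem lc_of {π : G →* Q} (hπ : IsOpen {x | π x = 1}) : IsLocallyConstant π := by
  refine (IsLocallyConstant.iff_exists_open _).2 fun x => ⟨(fun y => x⁻¹ * y) ⁻¹' {x | π x = 1},
    hπ.preimage (by fun_prop), by simp, fun y hy => ?_⟩
  have : π (x⁻¹ * y) = 1 := hy
  rw [map_mul, map_inv, inv_mul_eq_one] at this
  exact this.symm

theorem card_Z [Fintype Q] {π : G →* Q} (hπ : IsOpen {x | π x = 1}) (hs : Function.Surjective π)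
    (hrk : Nat.card (Hm (ZMod 2) π.ker) = 2 ^ (π.ker.index + 2))
    [Finite {c : G → Q → ZMod 2 // Zc π c}] :
    2 ^ (2 * Fintype.card Q + 1) ≤ Nat.card {c : G → Q → ZMod 2 // Zc π c} := by
  classical
  have t2 : ∀ t : ZMod 2, t + t = 0 := by decide
  choose σ hσ using hs
  have lc := lc_of hπ
  let κ : Q → G → π.ker := fun u x => ⟨σ u * x * (σ (u * π x))⁻¹, by
    rw [MonoidHom.mem_ker, map_mul, map_mul, map_inv, hσ, hσ, mul_inv_cancel]⟩
  have kc : ∀ u, Continuous (κ u) := fun u => Continuous.subtype_mk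
    ((continuous_const.mul continuous_id).mul
      (lc.comp fun v => (σ (u * v))⁻¹).continuous) _
  have km : ∀ u x y, κ u (x * y) = κ u x * κ (u * π x) y := fun u x y => Subtype.ext (by
    change σ u * (x * y) * (σ (u * π (x * y)))⁻¹ =
      σ u * x * (σ (u * π x))⁻¹ * (σ (u * π x) * y * (σ (u * π x * π y))⁻¹)
    rw [map_mul, ← mul_assoc u]; group)
  let ex : ({u : Q // u ≠ 1} → ZMod 2) → Q → ZMod 2 := fun φ u => if h : u = 1 then 0 else φ ⟨u, h⟩
  let F : Hm (ZMod 2) π.ker × ({u : Q // u ≠ 1} → ZMod 2) → {c : G → Q → ZMod 2 // Zc π c} :=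
    fun p => ⟨fun x u => p.1.1 (κ u x) + ex p.2 (u * π x) + ex p.2 u, by
      refine (IsLocallyConstant.iff_continuous _).2 (continuous_pi fun u => ?_)
      exact (((p.1.2.1.comp_continuous (kc u)).add
        (lc.comp fun v => ex p.2 (u * v))).add (IsLocallyConstant.const _)).continuous,
      fun x y u => by
        simp only [km, p.1.2.2, map_mul, mul_assoc]
        linear_combination -(t2 (ex p.2 (u * π x)))⟩
  have inj : Function.Injective F := by
    intro p p' e
    have e0 : ∀ x u, p.1.1 (κ u x) + ex p.2 (u * π x) + ex p.2 u =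
        p'.1.1 (κ u x) + ex p'.2 (u * π x) + ex p'.2 u :=
      fun x u => congrFun (congrFun (congrArg Subtype.val e) x) u
    have e1 : p.1 = p'.1 := Subtype.ext (funext fun h => by
      have hk : π ((σ 1)⁻¹ * h * σ 1) = 1 := by
        rw [map_mul, map_mul, map_inv, hσ, (MonoidHom.mem_ker).1 h.2]; simp
      have := e0 ((σ 1)⁻¹ * h * σ 1) 1
      have hκ : κ 1 ((σ 1)⁻¹ * h * σ 1) = h := Subtype.ext (by
        change σ 1 * ((σ 1)⁻¹ * h * σ 1) * (σ (1 * π ((σ 1)⁻¹ * h * σ 1)))⁻¹ = h
        rw [hk, mul_one]; group)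
      rw [hκ, hk, mul_one] at this
      linear_combination this - t2 (ex p.2 1) + t2 (ex p'.2 1))
    refine Prod.ext e1 (funext fun u => ?_)
    have := e0 (σ u.1) 1
    rw [e1, hσ, one_mul] at this
    simp only [ex, dif_neg u.2, dif_pos, add_zero] at this
    exact add_left_cancel this
  have hi : π.ker.index = Fintype.card Q := by
    rw [Subgroup.index_ker, MonoidHom.range_eq_top.2 fun u => ⟨σ u, hσ u⟩, Subgroup.card_top,
      Nat.card_eq_fintype_card]
  have hc := Nat.card_le_card_of_injective F inj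
  rw [Nat.card_prod, hrk, hi, Nat.card_fun, Nat.card_zmod, Nat.card_eq_fintype_card,
    Fintype.card_subtype_compl, Fintype.card_subtype_eq, ← pow_add] at hc
  have hp : 0 < Fintype.card Q := Fintype.card_pos
  rwa [show Fintype.card Q + 2 + (Fintype.card Q - 1) = 2 * Fintype.card Q + 1 by omega] at hc

theorem ext2 [Fintype Q] (hR : Rel U) (hH : Holds g U) {π : G →* Q} (hπ : Two π)
    (hs : Function.Surjective π)
    (hrk : Nat.card (Hm (ZMod 2) π.ker) = 2 ^ (π.ker.index + 2)) :
    ∀ᶠ w in (U : Filter Wd), ∀ m : Fin 3 → Q → ZMod 2, Cw (fun i => π (g i)) m w = 0 →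
      ∃ c, Zc π c ∧ ∀ i, c (g i) = m i := by
  have t2 : ∀ t : ZMod 2, t + t = 0 := by decide
  have inj : Function.Injective fun (c : {c : G → Q → ZMod 2 // Zc π c}) (i : Fin 3) =>
      c.1 (g i) := by
    intro c c' e
    have hz : Zc π (c.1 - c'.1) := ⟨c.2.1.sub c'.2.1, fun x y u => by
      simp only [Pi.sub_apply, c.2.2, c'.2.2]; ring⟩
    refine Subtype.ext (funext fun x => sub_eq_zero.1 ?_)
    obtain ⟨w, hw, -⟩ := (aff hH hπ t2 hz).2 x
    have e' : (fun i => (c.1 - c'.1) (g i)) = 0 := funext fun i => sub_eq_zero.2 (congrFun e i)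
    rw [← Pi.sub_apply, hw, hz.word, e']
    exact map_zero (Ph _ w)
  haveI : Finite {c : G → Q → ZMod 2 // Zc π c} := Finite.of_injective _ inj
  have h1 : ∀ᶠ w in (U : Filter Wd), ∀ c : {c : G → Q → ZMod 2 // Zc π c}, c.1 (ev g w) = 0 :=
    eventually_all.2 fun c => (aff hH hπ t2 c.2).1.mono fun w hw => hw.1
  have h2 : IsPGroup 2 Q := fun u => by
    obtain ⟨x, rfl⟩ := hs u
    exact hπ.2 x
  have hg : ∀ u, ∃ w, u = ev (fun i => π (g i)) w := fun u => by
    obtain ⟨x, rfl⟩ := hs u
    exact (hH Q π hπ).2 x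
  filter_upwards [h1, hR.mag] with w hw hm m h0
  let E : {c : G → Q → ZMod 2 // Zc π c} → LinearMap.ker (Ph (fun i => π (g i)) w) :=
    fun c => ⟨fun i => c.1 (g i), (c.2.word w).symm.trans (hw c)⟩
  have Ei : Function.Injective E := fun c c' e => inj (congrArg Subtype.val e)
  have hb := Ei.bijective_of_nat_card_le
    ((card_ker _ h2 hg w hm.1 hm.2).trans (card_Z hπ.1 hs hrk))
  obtain ⟨c, hc⟩ := hb.2 ⟨m, h0⟩
  exact ⟨c.1, c.2, fun i => congrFun (congrArg Subtype.val hc) i⟩

theorem extM [Fintype Q] (hR : Rel U) (hH : Holds g U) {π : G →* Q} (hπ : Two π)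
    (hs : Function.Surjective π)
    (hrk : Nat.card (Hm (ZMod 2) π.ker) = 2 ^ (π.ker.index + 2))
    (M : Type) [AddCommGroup M] (h2 : ∀ m : M, m + m = 0) :
    ∀ᶠ w in (U : Filter Wd), ∀ m : Fin 3 → Q → M, Cw (fun i => π (g i)) m w = 0 →
      ∃ c, Zc π c ∧ ∀ i, c (g i) = m i := by
  classical
  letI : Module (ZMod 2) M := AddCommGroup.zmodModule fun m => by rw [two_nsmul, h2]
  filter_upwards [ext2 hR hH hπ hs hrk] with w hw m h0
  let K := LinearMap.ker (Ph (fun i => π (g i)) w)
  obtain ⟨p, hp⟩ := LinearMap.exists_leftInverse_of_injective K.subtype (Submodule.ker_subtype K)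
  have hp' : ∀ k : K, p k.1 = k := fun k => LinearMap.congr_fun hp k
  let δ : Fin 3 × Q → Fin 3 → Q → ZMod 2 := fun s i u => if s = (i, u) then 1 else 0
  choose c hc hc' using fun s : Fin 3 × Q => hw (p (δ s)).1 (p (δ s)).2
  refine ⟨fun x u => ∑ s, c s x u • m s.1 s.2, ⟨?_, fun x y u => ?_⟩, fun i => funext fun u => ?_⟩
  · have : IsLocallyConstant fun x s => c s x :=
      (IsLocallyConstant.iff_continuous _).2 (continuous_pi fun s => (hc s).1.continuous)
    exact this.comp fun (d : Fin 3 × Q → Q → ZMod 2) u => ∑ s, d s u • m s.1 s.2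
  · simp only [(hc _).2, add_smul, Finset.sum_add_distrib]
  · rw [← sub_eq_zero, ← Module.forall_dual_apply_eq_zero_iff (ZMod 2)]
    intro l
    have hk : (fun i v => l (m i v)) ∈ K := funext fun v => by
      have := Cw_map (fun i => π (g i)) l.toAddMonoidHom m w v
      rw [h0] at this
      exact this.trans (map_zero l)
    have e1 : (fun i v => l (m i v)) = ∑ s : Fin 3 × Q, l (m s.1 s.2) • δ s := by
      funext i v
      simp [δ, Finset.sum_apply]
    have e2 := congrArg Subtype.val (hp' ⟨_, hk⟩)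
    change (p fun i v => l (m i v)).1 = fun i v => l (m i v) at e2
    have e3 := congrFun (congrFun e2 i) u
    rw [e1, map_sum] at e3
    rw [map_sub, map_sum, sub_eq_zero, ← e3]
    simp only [hc', map_smul, Submodule.coe_sum, Submodule.coe_smul, Finset.sum_apply,
      Pi.smul_apply, smul_eq_mul, mul_comm]

/-- **LOC1** -/
theorem loc1 [CompactSpace G] (hR : Rel U) (hH : Holds g U)
    (hrk : ∀ H : Subgroup G, IsOpen (H : Set G) → Nat.card (Hm (ZMod 2) H) = 2 ^ (H.index + 2))
    {Q : Type} [Monoid Q] (q : G →* Q) (hq : Two q)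
    {M : Type} [AddCommGroup M] (h2 : ∀ m : M, m + m = 0) (a : G →* AddMonoid.End M)
    (z : G → G → M) (ha : ∀ h, q h = 1 → a h = 1)
    (hl : ∀ h, q h = 1 → ∀ x y, z (x * h) y = z x y)
    (hr : ∀ h, q h = 1 → ∀ x y, z x (y * h) = z x y)
    (hz : ∀ x y w, z x y + z (x * y) w = a x (z y w) + z x (y * w)) (y : Fin 3 → M)
    (hW : ∀ᶠ w in (U : Filter Wd), Fw g a z y w = z 1 1) :
    ∃ f : G → M, IsLocallyConstant f ∧ (∀ x x', f (x * x') = f x + a x (f x') + z x x') ∧
      ∀ i, f (g i) = y i := by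
  classical
  let H := q.ker
  have hHo : IsOpen (H : Set G) := hq.1
  haveI : Finite (G ⧸ H) := Subgroup.quotient_finite_of_isOpen H hHo
  letI : Fintype (G ⧸ H) := Fintype.ofFinite _
  let π : G →* G ⧸ H := QuotientGroup.mk' H
  have hk : π.ker = H := QuotientGroup.ker_mk' H
  have hk' : ∀ x, π x = 1 ↔ q x = 1 := fun x => by
    rw [← MonoidHom.mem_ker, hk]; rfl
  have hs : Function.Surjective π := QuotientGroup.mk'_surjective H
  have hπ : Two π := ⟨by simp only [hk']; exact hq.1, fun x => (hq.2 x).imp fun k h => by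
    rw [← map_pow, hk', map_pow, h]⟩
  have eqv : ∀ x x', π x = π x' → a x = a x' ∧ (∀ t, z x t = z x' t) ∧ ∀ t, z t x = z t x' := by
    intro x x' e
    have h1 : q (x⁻¹ * x') = 1 := (hk' _).1 (by rw [map_mul, map_inv, e, inv_mul_cancel])
    have h3 : x' = x * (x⁻¹ * x') := by group
    refine ⟨?_, fun t => ?_, fun t => ?_⟩
    · rw [h3, map_mul a x, ha _ h1, mul_one]
    · rw [h3, hl _ h1]
    · rw [h3, hr _ h1]
  choose σ hσ using hs
  have s1 : a (σ 1) = 1 := ha _ ((hk' _).1 (hσ 1))
  have sm : ∀ u x, π (σ (u * π x)) = π (σ u * x) := fun u x => by rw [map_mul, hσ, hσ]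
  have z1 : ∀ x, z x 1 = a x (z 1 1) := fun x => by
    have := hz x 1 1
    simp only [mul_one] at this
    exact add_right_cancel this
  have neg : ∀ m : M, -m = m := fun m => neg_eq_of_add_eq_zero_left (h2 m)
  have hz' : ∀ u x t, z (σ u) (x * t) =
      z (σ u) x + z (σ (u * π x)) t + a (σ u) (z x t) := fun u x t => by
    rw [(eqv _ _ (sm u x)).2.1, hz, add_comm (a _ _), add_assoc, h2, add_zero]
  have am : ∀ u x m, a (σ (u * π x)) m = a (σ u) (a x m) := fun u x m => by
    rw [(eqv _ _ (sm u x)).1, map_mul]; rfl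
  have hC : ∀ w u, Cw (fun i => π (g i)) (fun i u => z (σ u) (g i) + a (σ u) (y i)) w u =
      z (σ u) (ev g w) + a (σ u) (Fw g a z y w) := by
    intro w
    induction w with
    | nil => intro u; rw [ev_nil, z1]; exact (h2 _).symm
    | cons i w ih =>
      intro u
      simp only [Cw, Fw, ev_cons, ih, hz', am, map_add]
      have := h2 (a (σ u) (z (g i) (ev g w)))
      rw [← sub_eq_zero, ← neg_zero, ← this]; abel
  obtain ⟨w, hw1, hw2, hw3⟩ := ((extM hR hH hπ (fun u => ⟨σ u, hσ u⟩) (hk.symm ▸ hrk H hHo)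
    M h2).and (hW.and (hH _ π hπ).1)).exists
  rw [ev_map] at hw3
  obtain ⟨c, hc, hcg⟩ := hw1 (fun i u => z (σ u) (g i) + a (σ u) (y i)) (funext fun u => by
    rw [hC, hw2, (eqv _ 1 (hw3.trans (map_one π).symm)).2.2, z1]; exact h2 _)
  have key : ∀ x u, c x u + z (σ u) x = a (σ u) (c x 1 + z (σ 1) x) := by
    have kw : ∀ w u, c (ev g w) u + z (σ u) (ev g w) = a (σ u) (Fw g a z y w) := fun w u => by
      rw [hc.word, show (fun i => c (g i)) = _ from funext hcg, hC, add_comm (z _ _), add_assoc,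
        h2, add_zero]
    intro x u
    obtain ⟨w, e1, e2⟩ := (aff hH hπ h2 hc).2 x
    rw [e1, (eqv _ _ e2).2.2, (eqv _ _ e2).2.2, kw, kw, s1]; rfl
  refine ⟨fun x => c x 1 + z (σ 1) x, ?_, fun x x' => ?_, fun i => ?_⟩
  · have h1 : (fun x => z (σ 1) x) = (fun v => z (σ 1) (σ v)) ∘ π :=
      funext fun x => (eqv _ _ (hσ (π x)).symm).2.2 _
    have h3 : IsLocallyConstant fun x => z (σ 1) x := by
      rw [h1]; exact (lc_of hπ.1).comp _
    exact (hc.1.comp fun φ => φ 1).add h3
  · have h1 := key x' (1 * π x)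
    rw [am, s1] at h1
    have h3 : a x (c x' 1 + z (σ 1) x') = c x' (1 * π x) + z (σ (1 * π x)) x' := h1.symm
    have h4 : (1 : AddMonoid.End M) (z x x') = z x x' := rfl
    simp only []
    rw [hc.2, hz', s1, h3, h4]; abel
  · simp only [hcg, s1]
    change z (σ 1) (g i) + y i + z (σ 1) (g i) = y i
    rw [add_comm _ (y i), add_assoc, h2, add_zero]

end grp

end Vale.Agent.P022G.Loc1H20
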