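import Vale.Agent.P022G.Loc1
import Vale.Agent.P022D.L2.Ar
import Vale.Agent.P022E.GW.Nil
import Vale.Agent.P022E.GW.Defs

/-!
# P022G: consequences of the presentation at the place 2
-/

set_option linter.all false

noncomputable section

namespace Vale.Agent.P022G.Loc1

open Filter NumberField Vale.Agent.P022D.L2 Vale.Agent.P022D.L2.RelP
open Vale.Agent.P022 Vale.Agent.P022.H443
open Vale.Agent.P022D.L2c (Hm RANK G2 Cob)
open Vale.Agent.P022D.W (dec)

variable {G : Type} [Group G] [TopologicalSpace G]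

/-- the maximal pro-2 quotient of `G` has generators `g` and the one relation `U` -/
structure Pr (g : Fin 3 → G) (U : Ultrafilter Wd) : Prop where
  rel : Rel U
  hol : Holds g U
  pre : ∀ (E : Type) [Group E] [Finite E], IsPGroup 2 E → ∀ e : Fin 3 → E,
    (∀ᶠ w in (U : Filter Wd), ev e w = 1) →
    ∃ φ : G →* E, IsOpen (φ.ker : Set G) ∧ ∀ i, φ (g i) = e i

theorem pr2 : ∃ (g : Fin 3 → G2) (U : Ultrafilter Wd), Pr g U := by
  obtain ⟨g, a, hL⟩ := P022D.L2.ar
  obtain ⟨U, hU, hH⟩ := relS _ g a hL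
  exact ⟨g, U, hU, hH, fun E _ _ hE e he => pres P022E.GW.Nil.rk2 hU hH E hE e he⟩

variable {g : Fin 3 → G} {U : Ultrafilter Wd}

theorem Pr.iso {G' : Type} [Group G'] [TopologicalSpace G'] (h : Pr g U) (j : G ≃ₜ* G') :
    Pr (fun i => j (g i)) U := by
  refine ⟨h.rel, fun M _ ρ hρ => ?_, fun E _ _ hE e he => ?_⟩
  · obtain ⟨h1, h2⟩ := h.hol M (ρ.comp j.toMulEquiv.toMonoidHom)
      ⟨hρ.1.preimage j.continuous, fun x => hρ.2 _⟩
    refine ⟨h1, fun x => ?_⟩
    obtain ⟨w, hw⟩ := h2 (j.symm x)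
    exact ⟨w, (congrArg ρ (j.apply_symm_apply x).symm).trans hw⟩
  · obtain ⟨φ, ho, hφ⟩ := h.pre E hE e he
    exact ⟨φ.comp j.symm.toMulEquiv.toMonoidHom, ho.preimage j.symm.continuous,
      fun i => (congrArg φ (j.symm_apply_apply (g i))).trans (hφ i)⟩

/-- **the decomposition group at 2** -/
theorem pr_dec {P : Ideal (𝓞 Qb)} (hP : P022E.GW.Ov 2 P) :
    ∃ (g : Fin 3 → dec P) (U : Ultrafilter Wd), Pr g U := by
  obtain ⟨j, jc, ji, jr⟩ := P022E.GW.Nil.ex_j 2 hP.2.1 hP.2.2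
  let f : G2 →* dec P := j.codRestrict _ fun v => jr ▸ ⟨v, rfl⟩
  have fb : Function.Bijective f := ⟨fun a b e => ji (congrArg Subtype.val e),
    fun ⟨g, g2⟩ => by
      obtain ⟨σ, rfl⟩ : g ∈ j.range := jr ▸ g2
      exact ⟨σ, rfl⟩⟩
  have fc : Continuous f := jc.subtype_mk _
  let e := (fc.homeoOfEquivCompactToT2 (f := Equiv.ofBijective f fb))
  obtain ⟨g, U, h⟩ := pr2
  exact ⟨_, U, h.iso
    { MulEquiv.ofBijective f fb with
      continuous_toFun := fc
      continuous_invFun := e.symm.continuous }⟩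

theorem Two.prod {M M' : Type} [Monoid M] [Monoid M'] {ρ : G →* M} {ρ' : G →* M'} (h : Two ρ)
    (h' : Two ρ') : Two (ρ.prod ρ') := by
  refine ⟨?_, fun x => ?_⟩
  · have : {x | ρ.prod ρ' x = 1} = {x | ρ x = 1} ∩ {x | ρ' x = 1} := Set.ext fun x => Prod.ext_iff
    rw [this]; exact h.1.inter h'.1
  · obtain ⟨k, hk⟩ := h.2 x
    obtain ⟨l, hl⟩ := h'.2 x
    refine ⟨k + l, Prod.ext ?_ ?_⟩
    · show ρ x ^ 2 ^ (k + l) = 1
      rw [pow_add, pow_mul, hk, one_pow]
    · show ρ' x ^ 2 ^ (k + l) = 1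
      rw [add_comm, pow_add, pow_mul, hl, one_pow]

/-- one word for two representations -/
theorem word2 (h : Holds g U) {M M' : Type} [Monoid M] [Monoid M'] {ρ : G →* M} {ρ' : G →* M'}
    (h1 : Two ρ) (h2 : Two ρ') (x : G) :
    ∃ w, ρ x = ev (fun i => ρ (g i)) w ∧ ρ' x = ev (fun i => ρ' (g i)) w := by
  obtain ⟨w, hw⟩ := (h _ _ (Two.prod h1 h2)).2 x
  rw [ev_map] at hw
  exact ⟨w, by rw [ev_map]; exact congrArg Prod.fst hw, by rw [ev_map]; exact congrArg Prod.snd hw⟩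

theorem uniq (h : Holds g U) {M : Type} [Monoid M] {ρ ρ' : G →* M} (h1 : Two ρ) (h2 : Two ρ')
    (e : ∀ i, ρ (g i) = ρ' (g i)) : ρ = ρ' := MonoidHom.ext fun x => by
  obtain ⟨w, a, b⟩ := word2 h h1 h2 x
  rw [a, b, funext e]

theorem Pr.mon0 (h : Pr g U) (M : Type) [Monoid M] [Finite M] (h2 : ∀ y : M, ∃ k, y ^ 2 ^ k = 1)
    (e : Fin 3 → M) (he : ∀ᶠ w in (U : Filter Wd), ev e w = 1) :
    ∃ φ : G →* M, Two φ ∧ ∀ i, φ (g i) = e i := by
  letI : Group M := groupOfIsUnit fun y => by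
    obtain ⟨k, hk⟩ := h2 y
    exact IsUnit.of_pow_eq_one hk (by positivity)
  obtain ⟨φ, ho, hφ⟩ := h.pre M h2 e he
  exact ⟨φ, ⟨ho, fun x => h2 _⟩, hφ⟩

/-- **solutions of the relation in a monoid** -/
theorem Pr.mon (h : Pr g U) {M : Type} [Monoid M] (e : Fin 3 → M)
    (fin : (Set.range (ev e)).Finite) (h2 : ∀ w, ∃ k, ev e w ^ 2 ^ k = 1)
    (he : ∀ᶠ w in (U : Filter Wd), ev e w = 1) : ∃ φ : G →* M, Two φ ∧ ∀ i, φ (g i) = e i := by
  let S : Submonoid M :=
    { carrier := Set.range (ev e)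
      one_mem' := ⟨[], rfl⟩
      mul_mem' := by
        rintro _ _ ⟨w, rfl⟩ ⟨w', rfl⟩
        exact ⟨w ++ w', ev_app _ _ _⟩ }
  haveI : Finite S := fin
  let e' : Fin 3 → S := fun i => ⟨e i, [i], by rw [ev_cons, ev_nil, mul_one]⟩
  have ee : ∀ w, ((ev e' w : S) : M) = ev e w := fun w => (ev_map S.subtype e' w).symm
  obtain ⟨φ, ho, hφ⟩ := h.mon0 S (by
      rintro ⟨_, w, rfl⟩
      exact (h2 w).imp fun k hk => Subtype.ext hk) e'
    (he.mono fun w hw => Subtype.ext ((ee w).trans hw))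
  refine ⟨S.subtype.comp φ, ⟨?_, fun x => (ho.2 x).imp fun k hk => congrArg Subtype.val hk⟩,
    fun i => congrArg Subtype.val (hφ i)⟩
  have : {x | S.subtype.comp φ x = 1} = {x | φ x = 1} := Set.ext fun x =>
    ⟨fun k => Subtype.ext k, fun k => congrArg Subtype.val (show φ x = 1 from k)⟩
  rw [this]; exact ho.1

/-- **lifting**: a representation lifts if lifts of the generators satisfy the relation -/
theorem Pr.lift (h : Pr g U) {M' M : Type} [Monoid M'] [Finite M'] [Monoid M] (π : M' →* M)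
    (hk : ∀ y, π y = 1 → ∃ k, y ^ 2 ^ k = 1) (ρ : G →* M) (hρ : Two ρ) (e : Fin 3 → M')
    (hl : ∀ i, π (e i) = ρ (g i)) (he : ∀ᶠ w in (U : Filter Wd), ev e w = 1) :
    ∃ φ : G →* M', Two φ ∧ (∀ i, φ (g i) = e i) ∧ ∀ x, π (φ x) = ρ x := by
  obtain ⟨φ, ho, hφ⟩ := h.mon e (Set.toFinite _) (fun w => by
    obtain ⟨k, h1⟩ := hρ.2 (ev g w)
    obtain ⟨l, h2⟩ := hk (ev e w ^ 2 ^ k) (by
      rw [map_pow, ← ev_map, funext hl, ev_map, h1])
    exact ⟨k + l, by rw [pow_add, pow_mul, h2]⟩) he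
  refine ⟨φ, ho, hφ, fun x => ?_⟩
  obtain ⟨w, a, b⟩ := word2 h.hol ho hρ x
  rw [a, b, ← ev_map]
  exact congrArg (fun X => ev X w) (funext fun i => by rw [hφ, hl])

/-- an action and a two cocycle -/
structure Dat (Q M : Type) [Monoid Q] [AddCommGroup M] where
  a : Q → M →+ M
  z : Q → Q → M
  a1 : ∀ m, a 1 m = m
  am : ∀ p q m, a (p * q) m = a p (a q m)
  zc : ∀ p q r, a p (z q r) + z p (q * r) = z (p * q) r + z p q

/-- the extension -/
@[ext] structure Ex {Q M : Type} [Monoid Q] [AddCommGroup M] (D : Dat Q M) where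
  m : M
  q : Q

section ex

variable {Q M : Type} [Monoid Q] [AddCommGroup M] (D : Dat Q M)

instance : Monoid (Ex D) where
  mul x y := ⟨x.m + D.a x.q y.m + D.z x.q y.q, x.q * y.q⟩
  one := ⟨-D.z 1 1, 1⟩
  mul_assoc x y w := Ex.ext (by
    show x.m + D.a x.q y.m + D.z x.q y.q + D.a (x.q * y.q) w.m + D.z (x.q * y.q) w.q =
      x.m + D.a x.q (y.m + D.a y.q w.m + D.z y.q w.q) + D.z x.q (y.q * w.q)
    rw [map_add, map_add, D.am, eq_sub_of_add_eq (D.zc x.q y.q w.q).symm]; abel) (mul_assoc _ _ _)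
  one_mul x := Ex.ext (by
    show -D.z 1 1 + D.a 1 x.m + D.z 1 x.q = x.m
    have := D.zc 1 1 x.q
    rw [D.a1, one_mul, one_mul, add_right_inj] at this
    rw [D.a1, this]; abel) (one_mul _)
  mul_one x := Ex.ext (by
    show x.m + D.a x.q (-D.z 1 1) + D.z x.q 1 = x.m
    have := D.zc x.q 1 1
    rw [mul_one, mul_one, add_left_inj] at this
    rw [map_neg, this]; abel) (mul_one _)

theorem Ex.mul_m (x y : Ex D) : (x * y).m = x.m + D.a x.q y.m + D.z x.q y.q := rfl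

/-- the projection -/
def Ex.pr : Ex D →* Q where
  toFun := Ex.q
  map_one' := rfl
  map_mul' _ _ := rfl

instance [Finite Q] [Finite M] : Finite (Ex D) :=
  Finite.of_injective (fun x : Ex D => (x.m, x.q)) fun _ _ h =>
    Ex.ext (congrArg Prod.fst h) (congrArg Prod.snd h)

end ex

/-- the value on a word of the cochain with boundary `z` and values `m` on the generators -/
def vl {M : Type} [AddCommGroup M] (a : G → M →+ M) (z : G → G → M) (g : Fin 3 → G)
    (m : Fin 3 → M) : Wd → M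
  | [] => -z 1 1
  | i :: w => m i + a (g i) (vl a z g m w) + z (g i) (ev g w)

/-- **LOC1**: a two cocycle which is inflated from a finite 2-group and whose value on the
relation vanishes is a coboundary -/
theorem Pr.cob [IsTopologicalGroup G] (h : Pr g U) {Q M : Type} [Monoid Q] [Finite Q]
    [AddCommGroup M] [Finite M] (h2 : ∀ x : M, x + x = 0) (ρ : G →* Q) (hρ : Two ρ)
    (a : G → M →+ M) (z : G → G → M) (am : ∀ p q m, a (p * q) m = a p (a q m))
    (a1 : ∀ p, ρ p = 1 → ∀ m, a p m = m)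
    (zi : ∀ p p' q q', ρ p = ρ p' → ρ q = ρ q' → z p q = z p' q')
    (zc : ∀ p q r, a p (z q r) + z p (q * r) = z (p * q) r + z p q) (m : Fin 3 → M)
    (hW : ∀ᶠ w in (U : Filter Wd), vl a z g m w = -z 1 1) :
    ∃ c : G → M, IsLocallyConstant c ∧ (∀ p q, c (p * q) = c p + a p (c q) + z p q) ∧
      ∀ i, c (g i) = m i := by
  have ai : ∀ p p', ρ p = ρ p' → a p = a p' := fun p p' e => AddMonoidHom.ext fun x => by
    have := am p' (p'⁻¹ * p) x
    rw [mul_inv_cancel_left, a1 (p'⁻¹ * p) (by rw [map_mul, e, ← map_mul, inv_mul_cancel, map_one])]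
      at this
    exact this
  let R := MonoidHom.mrange ρ
  let s : R → G := fun q => q.2.choose
  have hs : ∀ q : R, ρ (s q) = q := fun q => q.2.choose_spec
  have hm : ∀ p q : R, ρ (s (p * q)) = ρ (s p * s q) := fun p q => by
    rw [map_mul, hs, hs, hs]; rfl
  let D : Dat R M :=
    { a := fun q => a (s q)
      z := fun p q => z (s p) (s q)
      a1 := a1 _ (hs 1)
      am := fun p q x => by rw [ai _ _ (hm p q), am]
      zc := fun p q r => by
        rw [zi _ _ _ _ rfl (hm q r), zi _ _ _ _ (hm p q) rfl]; exact zc _ _ _ }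
  let r : G →* R := ρ.mrangeRestrict
  have hr : ∀ x, ρ (s (r x)) = ρ x := fun x => hs _
  have tr : Two r := ⟨by
    have : {x | r x = 1} = {x | ρ x = 1} := Set.ext fun x => Subtype.ext_iff
    rw [this]; exact hρ.1, fun x => (hρ.2 x).imp fun k hk => Subtype.ext hk⟩
  have z1 : D.z 1 1 = z 1 1 := zi _ _ _ _ ((hs 1).trans (map_one ρ).symm)
    ((hs 1).trans (map_one ρ).symm)
  let e : Fin 3 → Ex D := fun i => ⟨m i, r (g i)⟩
  have ee : ∀ w, ev e w = ⟨vl a z g m w, r (ev g w)⟩ := fun w => by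
    induction w with
    | nil => exact Ex.ext (congrArg Neg.neg z1) (map_one r).symm
    | cons i w ih =>
      rw [ev_cons, ih, ev_cons]
      refine Ex.ext ?_ (map_mul r _ _).symm
      show m i + a (s (r (g i))) _ + z (s (r (g i))) (s (r (ev g w))) = m i + a (g i) _ + _
      rw [ai _ _ (hr _), zi _ _ _ _ (hr _) (hr _)]
  obtain ⟨φ, ho, hφ, hp⟩ := h.lift (Ex.pr D) (fun y hy => ⟨1, by
      have q1 : y.q = 1 := hy
      rw [pow_one, pow_two]
      refine Ex.ext ?_ (by show y.q * y.q = 1; rw [q1, mul_one])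
      rw [Ex.mul_m, q1, D.a1, h2, zero_add]
      exact eq_neg_of_add_eq_zero_left (h2 _)⟩) r tr e (fun _ => rfl)
    ((hW.and (h.hol _ r tr).1).mono fun w hw => by
      rw [ee]
      exact Ex.ext (hw.1.trans (congrArg Neg.neg z1).symm) ((ev_map r g w).symm.trans hw.2))
  have hq : ∀ x, (φ x).q = r x := hp
  refine ⟨fun x => (φ x).m, ?_, fun p q => ?_, fun i => congrArg Ex.m (hφ i)⟩
  · refine (IsLocallyConstant.iff_eventually_eq _).2 fun x => ?_
    have o : IsOpen ((fun y => x⁻¹ * y) ⁻¹' {y | φ y = 1}) := ho.1.preimage (by fun_prop)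
    refine Filter.mem_of_superset (o.mem_nhds
      ((congrArg φ (inv_mul_cancel x)).trans (map_one φ))) fun y hy => ?_
    have k : φ y = φ x := by
      rw [← mul_inv_cancel_left x y, map_mul, show φ (x⁻¹ * y) = 1 from hy, mul_one]
    exact congrArg Ex.m k
  · show (φ (p * q)).m = _
    rw [map_mul, Ex.mul_m, hq, hq]
    show _ + a (s (r p)) _ + z (s (r p)) (s (r q)) = _
    rw [ai _ _ (hr _), zi _ _ _ _ (hr _) (hr _)]

/-- trivial coefficients -/
theorem Pr.cob0 [IsTopologicalGroup G] (h : Pr g U) {Q F : Type} [Monoid Q] [Finite Q]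
    [Field F] [Finite F] [CharP F 2] (ρ : G →* Q) (hρ : Two ρ) (z : G → G → F)
    (zi : ∀ p p' q q', ρ p = ρ p' → ρ q = ρ q' → z p q = z p' q')
    (zc : ∀ p q r, z q r + z p (q * r) = z (p * q) r + z p q) (m : Fin 3 → F)
    (hW : ∀ᶠ w in (U : Filter Wd), vl (fun _ => AddMonoidHom.id F) z g m w = -z 1 1) :
    z ∈ Cob F G := by
  obtain ⟨c, h1, h2, -⟩ := h.cob CharTwo.add_self_eq_zero ρ hρ (fun _ => AddMonoidHom.id F) z
    (fun _ _ _ => rfl) (fun _ _ _ => rfl) zi zc m hW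
  exact ⟨c, h1, h2⟩

end Vale.Agent.P022G.Loc1
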