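import Vale.Agent.P022G.Rows
import Vale.Agent.P022G.Loc.Det
import Vale.Agent.P022G.Tr.Defs

/-!
# P022G: the statements of the Galois side which need more hypotheses
-/

set_option linter.all false

noncomputable section

namespace Vale.Agent.P022G

open NumberField IsLocalRing MvPowerSeries Filter
open Vale.Agent.P022 Vale.Agent.P022G.R Vale.Agent.P022G.Loc
open Vale.Agent.P027M.S (Inert mx)
open Vale.Agent.P022D.Sel (M2 IsDec Ginf)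
open Vale.Agent.P022D.Core (PS io y1 Coef)
open Vale.Agent.P022E.Loc (Pl)
open Vale.Agent.P022E.GW (Ov Gn)
open Vale.Agent.P022E.As (Tg cc tt dd yy Gw Out2)
open Vale.Agent.P022G.Chain (Pd Cn)
open Vale.Agent.P022G.Ps (HD3)

/-- the additional hypotheses -/
structure Ex {O F : Type} [CommRing O] [Field F] {L : Pl O} {β : Type} {τ ι' : β → Type}
    (K : Kx O β τ ι' L.C) (S : Dat O F) (X : Finset ℕ) : Prop where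
  det : K.Det L S
  cz : Tr.Cz S X
  w : L.W.Nonempty

def TANV2 : Prop := All fun O F _ _ _ _ _ _ _ ϖ S L X as β τ ι' _ _ _ K ι _ G => Ex K S X →
  ∀ (V : Type) [CommRing V] [IsDomain V] [IsDiscreteValuationRing V] [CharP V 2]
    [IsAdicComplete (maximalIdeal V) V] [Finite (ResidueField V)] (t : V) (j : O →+* V)
    (ρ : GQ →* GL (Fin 2) V) (θ : PS O (Sy ι) →+* V), Irreducible t → G.Crv t j ρ θ →
    ∀ (r : ℕ) (q : Fin r → ℕ) (τ' : Fin r → GQ),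
      (∀ i, q i ∉ S.T ∧ ∃ P, Ov (q i) P ∧ Gn (q i) P (τ' i)) →
      ∀ θ0 : S0 O τ L ι S.T r →+* V, Cf K G r j ρ θ0 → ∀ N : ℕ,
      (_root_.P022G.Sel.TanS (_root_.P022G.Sel.rd (_root_.P022G.Sel.tI t N) ρ) S.T
        (Finset.univ.image q) L.D).Finite →
      Nat.card {v : Rs (ι ⊕ Fin r) S.T → V ⧸ _root_.P022G.Sel.tI t N //
          ∀ f : Kn K G r q τ', ∑ z, Ideal.Quotient.mk (_root_.P022G.Sel.tI t N)
            (θ0 (pderiv O (Sum.inr z) f.1)) * v z = 0} *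
        Nat.card (V ⧸ _root_.P022G.Sel.tI t N) ^ 4 ≤
      Nat.card (_root_.P022G.Sel.TanS (_root_.P022G.Sel.rd (_root_.P022G.Sel.tI t N) ρ) S.T
        (Finset.univ.image q) L.D)

def PCEX2 : Prop := All fun O F _ _ _ _ _ _ _ ϖ S L X as β τ ι' _ _ _ K ι _ G => Ex K S X →
  ∀ (V : Type) [CommRing V] [IsDomain V] [IsDiscreteValuationRing V] [CharP V 2]
    [IsAdicComplete (maximalIdeal V) V] [Finite (ResidueField V)] (t : V) (j : O →+* V)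
    (ρ : GQ →* GL (Fin 2) V) (θ : PS O (Sy ι) →+* V), Irreducible t → G.Crv t j ρ θ →
    _root_.P022G.Sel.Nice t ρ S.T L.D → _root_.P022G.Lb90.Shp t ρ → G.Irr (RingHom.ker θ) →
    ∃ r : ℕ, ∀ (n₀ : ℕ) (A : Finset ℕ), ∃ q : ℕ → Fin r → ℕ,
      (∀ n, Function.Injective (q n) ∧ ∀ i, Ar S (A ∪ S.T) (n + n₀) (q n i)) ∧
      ∀ τq : ℕ → Fin r → GQ, (∀ n i, ∃ P, Ov (q n i) P ∧ Inert P (τq n i)) →
        ∃ (s : ℕ) (Y : Pc (S := S) (ι := ι) K r s V), Y.Ok ∧ Y.G' = G ∧ Y.t = t ∧ Y.θA = θ ∧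
          Y.q = q ∧ Y.τq = τq

def PRESC2 : Prop := All fun O F _ _ _ _ _ _ _ ϖ S L X as β τ ι' _ _ _ K ι _ G => Ex K S X →
  ∀ (J : Finset L.C) (p : Ideal (PS O (Sy ι))), Chain.Cv p → G.IT ϖ J ≤ p → G.Irr p →
    ∃ E, Pd (G.IT ϖ J) 2 E ∧ E ≤ p

def CONNJ2 : Prop := All fun O F _ _ _ _ _ _ _ ϖ S L X as β τ ι' _ _ _ K ι _ G => Ex K S X →
  ∀ J : Finset L.C, (∀ a : L.C, (a : ℕ) ∈ X → a ∈ J) → Cn (G.IT ϖ J) 1

def ZED2 : Prop := All fun O F _ _ _ _ _ _ _ ϖ S L X as β τ ι' _ _ _ K ι _ G => Ex K S X →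
  ∃ Z, Pd G.aG 3 Z ∧ (∀ a : L.C, (a : ℕ) ∈ X → tauP G.rc id (G.iτ a) ⊆ Z) ∧
    ∀ f ∈ Z, constantCoeff f = 0

def SEED2 : Prop := All fun O F _ _ _ _ _ _ _ ϖ S L X as β τ ι' _ _ _ K ι _ G => Ex K S X →
  AllF ϖ S L S.T fun I Y0 W0 _ _ _ _ iJ => ∀ J : Finset L.C, (∀ a : L.C, (a : ℕ) ∈ X → a ∈ J) →
    ∃ E, Pd (G.IT ϖ J) 2 E ∧ G.An (Y0 (iJ J)) ≤ E

def PATCH2 : Prop := All fun O F _ _ _ _ _ _ _ ϖ S L X as β τ ι' _ _ _ K ι _ G => Ex K S X →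
  AllF ϖ S L S.T fun I Y0 W0 _ _ _ _ iJ => ∀ (J : Finset L.C) (p E E' : Ideal (PS O (Sy ι))),
    Chain.Cv p → (∀ h : as ∈ L.C, G.fr ⟨as, h⟩ ∈ p) → Pd (G.IT ϖ J) 2 E → Pd (G.IT ϖ J) 2 E' →
    E ≤ p → E' ≤ p → G.An (Y0 (iJ J)) ≤ E → G.An (Y0 (iJ J)) ≤ E'

open Classical in
def LOWER2 : Prop := All fun O F _ _ _ _ _ _ _ ϖ S L X as β τ ι' _ _ _ K ι _ G => Ex K S X →
  AllF ϖ S L S.T fun I Y0 W0 _ _ _ _ iJ => ∀ (J : Finset L.C) (a : L.C), (a : ℕ) ∈ X → a ∉ J →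
    ∀ p E E' : Ideal (PS O (Sy ι)), Chain.Cv p → (∀ h : as ∈ L.C, G.fr ⟨as, h⟩ ∈ p) →
    Pd (G.IT ϖ (insert a J)) 2 E → Pd (G.IT ϖ J) 2 E' → E ≤ p → E' ≤ p →
    G.An (Y0 (iJ (insert a J))) ≤ E → G.An (Y0 (iJ J)) ≤ E'

def FINAL2 : Prop := All fun O F _ _ _ _ _ _ _ ϖ S L X as β τ ι' _ _ _ K ι _ G => Ex K S X →
  AllF ϖ S (subL L X) (S.T \ X) fun I Y0 W0 _ _ _ _ iJ => ∀ Z p : Ideal (PS O (Sy ι)),
    Z.IsPrime → G.aG ≤ Z → (∀ a : L.C, (a : ℕ) ∈ X → tauP G.rc id (G.iτ a) ⊆ Z) → C ϖ ∉ Z →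
    Z ≤ p → Chain.Cv p → C ϖ ∈ p → (∀ h : as ∈ L.C, G.fr ⟨as, h⟩ ∈ p) →
    ∃ J : Finset L.C, G.IT ϖ J ≤ p ∧ (∀ a ∈ J, (a : ℕ) ∉ X) ∧
      ∀ E, Pd (G.IT ϖ J) 2 E → E ≤ p → G.An (Y0 (iJ (resJ X J))) ≤ E → G.An W0 ≤ Z

/-- the regular element can be replaced by its odd part -/
def ODD : Prop := ∀ (O F : Type) [CommRing O] [IsDomain O] [IsDiscreteValuationRing O] [Coef O]
  [Field F] [Finite F] [CharP F 2] (S : Dat O F) (L : Pl O) (X : Finset ℕ) (as : ℕ),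
  Cx S L X as → ∃ S' : Dat O F, S'.rb = S.rb ∧ S'.T = S.T ∧ Cx S' L X as ∧
    ∀ (Γ : Type) [Group Γ] [Finite Γ] (f : GQ →* Γ), IsOpen {g : GQ | f g = 1} →
      ∃ m : ℕ, Odd m ∧ f S'.g0 ^ m = 1

end Vale.Agent.P022G
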