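import Vale.Agent.P022G.Nice0
import Vale.Agent.P022.H443.Tri

/-! # P022G, block NICE, part 1: characters in characteristic two which are unramified outside `2` -/

set_option linter.all false

noncomputable section

namespace Vale.Agent.P022G.Nice

open NumberField Vale.Agent.P022 Vale.Agent.P022.C Vale.Agent.P022.H853 Vale.Agent.P022.H790.CT
open Vale.Agent.P022D.G (Inert)
open Vale.Agent.P022D.Sel (Ginf)

/-! ### the layers -/

/-- the elements which fix all roots of `X ^ 2 ^ n = r` -/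
def Lay (n : ℕ) (r : ℚ) : Subgroup GQ where
  carrier := {g | ∀ x : Qb, x ^ 2 ^ n = (r : Qb) → g x = x}
  mul_mem' {g h} hg hh x hx := by rw [AlgEquiv.mul_apply, hh x hx, hg x hx]
  one_mem' x hx := rfl
  inv_mem' {g} hg x hx := by
    have h : g⁻¹ (g x) = x := by rw [← AlgEquiv.mul_apply, inv_mul_cancel]; rfl
    rwa [hg x hx] at h

theorem lay_root {n : ℕ} {r : ℚ} (g : GQ) {x : Qb} (hx : x ^ 2 ^ n = (r : Qb)) :
    (g x) ^ 2 ^ n = (r : Qb) := by rw [← map_pow, hx, map_ratCast]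

theorem lay_nor (n : ℕ) (r : ℚ) : (Lay n r).Normal := ⟨fun g hg k x hx => by
  rw [AlgEquiv.mul_apply, AlgEquiv.mul_apply, hg _ (lay_root k⁻¹ hx), ← AlgEquiv.mul_apply,
    mul_inv_cancel]
  rfl⟩

theorem lay_op (n : ℕ) (r : ℚ) : IsOpen (Lay n r : Set GQ) := by
  classical
  have h1 : Algebra.IsAlgebraic ℚ Qb := AlgebraicClosure.isAlgebraic ℚ
  have e : (Lay n r : Set GQ) = ⋂ x ∈ (Polynomial.nthRoots (2 ^ n) (r : Qb)).toFinset,
      ((MulAction.stabilizer GQ x : Subgroup GQ) : Set GQ) := by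
    ext g
    simp only [Set.mem_iInter, Multiset.mem_toFinset,
      Polynomial.mem_nthRoots (show 0 < 2 ^ n by positivity)]
    rfl
  rw [e]
  exact isOpen_biInter_finset fun x _ => stabilizer_isOpen_of_isIntegral x

theorem pow_act {h : GQ} {x z : Qb} (hx : h x = z * x) (hz : h z = z) (k : ℕ) :
    (h ^ k) x = z ^ k * x := by
  induction k with
  | zero => simp
  | succ k ih => rw [pow_succ', AlgEquiv.mul_apply, ih, map_mul, map_pow, hz, hx]; ring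

theorem lay_two (n : ℕ) {r : ℚ} (hr : r ≠ 0) (g : GQ) : g ^ 2 ^ (n + n) ∈ Lay n r := by
  intro x hx
  have r0 : (r : Qb) ≠ 0 := by exact_mod_cast hr
  have x0 : x ≠ 0 := by
    rintro rfl
    rw [zero_pow (by positivity)] at hx
    exact r0 hx.symm
  have hz : ((g ^ 2 ^ n) x / x) ^ 2 ^ n = 1 := by rw [div_pow, lay_root _ hx, hx, div_self r0]
  have h1 : (g ^ 2 ^ n) ((g ^ 2 ^ n) x / x) = (g ^ 2 ^ n) x / x := by
    have e := cyc_spec (g ^ 2 ^ n) hz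
    rw [e, pow_eq_pow_of_modEq (val_of_one (u := cyc (2 ^ n) (g ^ 2 ^ n))
      (by rw [map_pow, unit_pow])) hz, pow_one]
  rw [pow_add, pow_mul, pow_act (div_mul_cancel₀ _ x0).symm h1, hz, one_mul]

theorem inf_le1 : Ginf ≤ Lay 2 2 := fun g hg x hx => hg 2 x (Or.inr (by exact_mod_cast hx))

theorem inf_le2 : Ginf ≤ Lay 3 (-4) := fun g hg x hx => by
  obtain ⟨z, hz⟩ := IsAlgClosed.exists_pow_nat_eq (2 : Qb) (n := 4) (by norm_num)
  have z0 : z ≠ 0 := by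
    rintro rfl
    norm_num at hz
  have hx' : x ^ 8 = -4 := by exact_mod_cast hx
  have h1 : g z = z := hg 2 z (Or.inr hz)
  have h2 : g (x / z) = x / z := hg 4 _ (Or.inl (by
    rw [div_pow, div_eq_one_iff_eq (pow_ne_zero _ z0), show (2 : ℕ) ^ 4 = 8 * 2 from rfl, pow_mul,
      hx', show (8 * 2 : ℕ) = 4 * 4 from rfl, pow_mul, hz]
    norm_num))
  rw [map_div₀, h1] at h2
  exact (div_left_inj' z0).1 h2

theorem gd1 : Gd (Lay 2 2) := ⟨lay_nor _ _, lay_op _ _, fun g => ⟨_, lay_two 2 (by norm_num) g⟩,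
  fun l hl h2 σ hσ => inf_le1 (inert_inf hl h2 hσ)⟩

theorem gd2 : Gd (Lay 3 (-4)) := ⟨lay_nor _ _, lay_op _ _,
  fun g => ⟨_, lay_two 3 (by norm_num) g⟩, fun l hl h2 σ hσ => inf_le2 (inert_inf hl h2 hσ)⟩

theorem act8 {g : GQ} {a : ℕ} (hg : (cyc 8 g : ZMod 8) = a) (ha : a < 8) {z : Qb}
    (hz : z ^ 8 = 1) : g z = z ^ a := by
  rw [cyc_spec g hz, hg, ZMod.val_cast_of_lt ha]

theorem sq1 {s : GQ} (hs : (cyc 8 s : ZMod 8) = 3) : s * s ∈ Lay 2 2 := by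
  intro x hx
  have hx' : x ^ 4 = 2 := by exact_mod_cast hx
  have x0 : x ≠ 0 := by
    rintro rfl
    norm_num at hx'
  have hz : (s x / x) ^ 4 = 1 := by
    rw [div_pow, ← map_pow, hx', map_ofNat, div_self (by norm_num)]
  have h1 := act8 (a := 3) hs (by norm_num) (z := s x / x) (by
    rw [show (8 : ℕ) = 4 * 2 from rfl, pow_mul, hz, one_pow])
  have h2 : s x = s x / x * x := (div_mul_cancel₀ _ x0).symm
  rw [AlgEquiv.mul_apply, h2, map_mul, h1]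
  linear_combination x * hz + (s x / x) ^ 3 * h2

theorem sq2 {s : GQ} (hs : (cyc 8 s : ZMod 8) = 5) : s * s ∈ Lay 3 (-4) := by
  intro x hx
  have hx' : x ^ 8 = -4 := by exact_mod_cast hx
  obtain ⟨i, hi⟩ := IsAlgClosed.exists_pow_nat_eq (-1 : Qb) (n := 2) (by norm_num)
  have h1 : s i = i := by
    rw [act8 (a := 5) hs (by norm_num) (z := i) (by
      rw [show (8 : ℕ) = 2 * 4 from rfl, pow_mul, hi]; norm_num)]
    linear_combination (i ^ 3 - i) * hi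
  have h2 : (x ^ 2 - (1 + i)) * (x ^ 2 - (1 - i)) * (x ^ 2 + (1 + i)) * (x ^ 2 + (1 - i)) = 0 := by
    linear_combination hx' + (i ^ 2 - 2 * x ^ 4 - 3) * hi
  have h3 : s (x ^ 2) = x ^ 2 := by
    rcases mul_eq_zero.1 h2 with h | h
    · rcases mul_eq_zero.1 h with h | h
      · rcases mul_eq_zero.1 h with h | h
        · rw [sub_eq_zero.1 h, map_add, map_one, h1]
        · rw [sub_eq_zero.1 h, map_sub, map_one, h1]
      · rw [eq_neg_of_add_eq_zero_left h, map_neg, map_add, map_one, h1]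
    · rw [eq_neg_of_add_eq_zero_left h, map_neg, map_sub, map_one, h1]
  rw [map_pow] at h3
  rw [AlgEquiv.mul_apply]
  rcases sq_eq_sq_iff_eq_or_eq_neg.1 h3 with h | h
  · rw [h, h]
  · rw [h, map_neg, h, neg_neg]

/-- the kernel of the square of the cyclotomic character -/
def Cyq (n : ℕ) : Subgroup GQ := ((powMonoidHom 2).comp (cyc (2 ^ n))).ker

theorem mem_cyq {n : ℕ} {g : GQ} : g ∈ Cyq n ↔ cyc (2 ^ n) g ^ 2 = 1 := Iff.rfl

theorem gd0 (n : ℕ) : Gd (Cyq n) where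
  nor := MonoidHom.normal_ker _
  op := Subgroup.isOpen_mono (H₁ := (cyc (2 ^ n)).ker) (fun g hg => by
    rw [mem_cyq, show cyc (2 ^ n) g = 1 from hg, one_pow]) (isOpen_cyc _)
  two g := ⟨n, by rw [mem_cyq, map_pow, unit_pow, one_pow]⟩
  unr l hl h2 σ hσ := by
    obtain ⟨P, hP, hlP, hx⟩ := hσ
    rw [mem_cyq, mem_H2.1 (inert_H2 hl h2 hP hlP hx) n, one_pow]

theorem conj_cyq (n : ℕ) {c : GQ} (hc : IsConj c) : c ∈ Cyq n := by
  rw [mem_cyq, ← map_pow, sq, H20.conj_sq hc, map_one]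

/-- a Frobenius element at an odd prime is not `±1` in the cyclotomic tower -/
theorem frob_cyq {a : ℕ} (ha : a.Prime) (h2 : a ≠ 2) {φ : GQ} (hφ : IsFrob a φ) :
    ∃ n, φ ∉ Cyq n := by
  refine ⟨a ^ 2, fun h => ?_⟩
  have h1 : (cyc (2 ^ a ^ 2) φ : ZMod (2 ^ a ^ 2)) = a :=
    cyc_frob ha (fun hd => h2 ((Nat.prime_dvd_prime_iff_eq ha Nat.prime_two).1
      (ha.dvd_of_dvd_pow hd))) hφ
  have h3 := congrArg Units.val (mem_cyq.1 h)
  rw [Units.val_pow_eq_pow_val, h1, Units.val_one] at h3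
  have h4 : a ^ 2 ≡ 1 [MOD 2 ^ a ^ 2] := by
    apply (ZMod.natCast_eq_natCast_iff _ _ _).1
    push_cast
    exact h3
  have h5 : a ^ 2 < 2 ^ a ^ 2 := Nat.lt_two_pow_self
  have h6 : 1 < a ^ 2 := Nat.one_lt_pow (by norm_num) ha.one_lt
  have := Nat.ModEq.eq_of_lt_of_lt h4 h5 (by omega)
  omega

/-! ### characters -/

section ch

variable {B : Type} [CommRing B] [IsDomain B] [CharP B 2] {m : Ideal B}

theorem frob_sub (x : B) (k : ℕ) : x ^ 2 ^ k - 1 = (x - 1) ^ 2 ^ k := by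
  haveI : Fact (Nat.Prime 2) := ⟨Nat.prime_two⟩
  rw [sub_pow_char_pow, one_pow]

theorem pw_mem {x : B} (h : x - 1 ∈ m) (k : ℕ) : x ^ 2 ^ k - 1 ∈ m ^ k := by
  rw [frob_sub]
  exact Ideal.pow_le_pow_right (Nat.lt_two_pow_self).le (Ideal.pow_mem_pow h _)

theorem eq_one_of_pw {x : B} {k : ℕ} (h : x ^ 2 ^ k = 1) : x = 1 := by
  have := frob_sub x k
  rw [h, sub_self] at this
  exact sub_eq_zero.1 (pow_eq_zero_iff (by positivity) |>.1 this.symm)

theorem odd_mem {I : Ideal B} {x : B} {o k : ℕ} (ho : Odd o) (h1 : x ^ o - 1 ∈ I)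
    (h2 : x ^ 2 ^ k - 1 ∈ I) : x - 1 ∈ I := by
  rw [← Ideal.Quotient.eq, map_one] at h1 h2 ⊢
  rw [map_pow] at h1 h2
  have := pow_gcd_eq_one.2 ⟨h1, h2⟩
  rwa [show Nat.gcd o (2 ^ k) = 1 from (Nat.coprime_two_right.2 ho).pow_right k, pow_one] at this

/-- the data: a character of `M` which is `1` modulo `m` -/
structure Dt (m : Ideal B) (M : Subgroup GQ) (y : GQ → B) : Prop where
  sep : ∀ x : B, (∀ k, x ∈ m ^ k) → x = 0
  nor : M.Normal
  sq : ∀ g, g * g ∈ M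
  mul : ∀ g ∈ M, ∀ h ∈ M, y (g * h) = y g * y h
  one : y 1 = 1
  res : ∀ g ∈ M, y g - 1 ∈ m
  opn : ∀ k, ∃ U : Subgroup GQ, IsOpen (U : Set GQ) ∧ ∀ v ∈ U, v ∈ M ∧ y v - 1 ∈ m ^ k
  cj : ∀ s, ∀ g ∈ M, y (s * g * s⁻¹) = y g ∨ y (s * g * s⁻¹) * y g = 1
  unr : ∀ l : ℕ, l.Prime → l ≠ 2 → ∀ σ, Inert l σ → σ ∈ M ∧ y σ = 1

variable {M : Subgroup GQ} {y : GQ → B}

theorem Dt.pow (D : Dt m M y) {g : GQ} (hg : g ∈ M) (n : ℕ) : y (g ^ n) = y g ^ n := by
  induction n with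
  | zero => rw [pow_zero, pow_zero, D.one]
  | succ n ih => rw [pow_succ, D.mul _ (M.pow_mem hg n) _ hg, ih, pow_succ]

theorem Dt.inv (D : Dt m M y) {g : GQ} (hg : g ∈ M) : y g⁻¹ * y g = 1 := by
  rw [← D.mul _ (M.inv_mem hg) _ hg, inv_mul_cancel, D.one]

theorem inv_mem' {I : Ideal B} {a b : B} (h : a * b = 1) (hb : b - 1 ∈ I) : a - 1 ∈ I := by
  rw [show a - 1 = -a * (b - 1) by linear_combination h]
  exact I.mul_mem_left _ hb

/-- the kernel modulo `m ^ k` -/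
def Dt.N (D : Dt m M y) (k : ℕ) : Subgroup GQ where
  carrier := {g | g ∈ M ∧ y g - 1 ∈ m ^ k}
  mul_mem' {g h} hg hh := ⟨M.mul_mem hg.1 hh.1, by
    rw [D.mul _ hg.1 _ hh.1, show y g * y h - 1 = y g * (y h - 1) + (y g - 1) by ring]
    exact add_mem (Ideal.mul_mem_left _ _ hh.2) hg.2⟩
  one_mem' := ⟨M.one_mem, by rw [D.one, sub_self]; exact zero_mem _⟩
  inv_mem' {g} hg := ⟨M.inv_mem hg.1, inv_mem' (D.inv hg.1) hg.2⟩

theorem Dt.mem (D : Dt m M y) (k : ℕ) {g : GQ} (hg : g ∈ M) (h : y g = 1) : g ∈ D.N k :=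
  ⟨hg, by rw [h, sub_self]; exact zero_mem _⟩

theorem Dt.gd (D : Dt m M y) (k : ℕ) : Gd (D.N k) where
  nor := ⟨fun g hg s => ⟨D.nor.conj_mem g hg.1 s, by
    rcases D.cj s g hg.1 with h | h
    · rw [h]; exact hg.2
    · exact inv_mem' h hg.2⟩⟩
  op := by
    obtain ⟨U, hU, h⟩ := D.opn k
    exact Subgroup.isOpen_mono (H₁ := U) h hU
  two g := ⟨k + 1, by
    rw [pow_succ', pow_mul, pow_two]
    exact ⟨M.pow_mem (D.sq g) _, by rw [D.pow (D.sq g)]; exact pw_mem (D.res _ (D.sq g)) k⟩⟩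
  unr l hl h2 σ hσ := D.mem k (D.unr l hl h2 σ hσ).1 (D.unr l hl h2 σ hσ).2

theorem Dt.cong (D : Dt m M y) {k : ℕ} {h g : GQ} (hh : h ∈ M) (e : h⁻¹ * g ∈ D.N k) :
    y g - y h ∈ m ^ k := by
  have e1 : y g = y h * y (h⁻¹ * g) := by rw [← D.mul _ hh _ e.1, mul_inv_cancel_left]
  rw [show y g - y h = y h * (y (h⁻¹ * g) - 1) by rw [e1]; ring]
  exact Ideal.mul_mem_left _ _ e.2

theorem Dt.fin (D : Dt m M y) {V : Subgroup GQ} (hV : Gd V) {q φ : GQ} (hq : q ∈ M)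
    (cy : ∀ k, ∀ h ∈ M, ∃ n : ℕ, h⁻¹ * q ^ n ∈ D.N k ⊓ V) (hφ : φ ∈ M) (hφV : φ ∉ V)
    (h1 : y φ = 1) : ∀ h ∈ M, y h = 1 := by
  obtain ⟨j, hj⟩ := hV.two q
  have a : ∀ k, y q ^ 2 ^ j - 1 ∈ m ^ k := fun k => by
    obtain ⟨n, e1, e2⟩ := cy k φ hφ
    have hn : q ^ n ∉ V := fun h => hφV (by
      have := V.mul_mem h (V.inv_mem e2)
      rwa [mul_inv_rev, inv_inv, mul_inv_cancel_left] at this)
    have n0 : n ≠ 0 := by
      rintro rfl
      exact hn (by rw [pow_zero]; exact V.one_mem)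
    obtain ⟨i, o, ho, rfl⟩ := Nat.exists_eq_two_pow_mul_odd n0
    have hij : i ≤ j := by
      by_contra hlt
      obtain ⟨d, rfl⟩ := Nat.exists_eq_add_of_le (not_le.1 hlt).le
      exact hn (by rw [pow_add, mul_assoc, pow_mul]; exact V.pow_mem hj _)
    obtain ⟨d, rfl⟩ := Nat.exists_eq_add_of_le hij
    have e3 := D.cong hφ e1
    rw [h1, D.pow hq, pow_mul] at e3
    have e4 := odd_mem (k := k) ho e3 (by
      rw [← pow_mul, mul_comm, pow_mul]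
      exact Ideal.mem_of_dvd _ (sub_one_dvd_pow_sub_one _ _) (pw_mem (D.res q hq) k))
    rw [pow_add, pow_mul]
    exact Ideal.mem_of_dvd _ (sub_one_dvd_pow_sub_one _ _) e4
  have b : y q = 1 := eq_one_of_pw (sub_eq_zero.1 (D.sep _ a))
  intro h hh
  refine (sub_eq_zero.1 (D.sep _ fun k => ?_)).symm
  obtain ⟨n, e1, -⟩ := cy k h hh
  have e3 := D.cong hh e1
  rwa [D.pow hq, b, one_pow] at e3

theorem sq_one {x : B} (h : x * x = 1) : x = 1 := eq_one_of_pw (k := 1) (by rw [pow_one, sq, h])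

theorem ex_cg : ∃ c γ : GQ, IsConj c ∧ (cyc 8 γ : ZMod 8) = 5 := by
  obtain ⟨γ, hγ⟩ := cyc_surj 8 (ZMod.unitOfCoprime 5 (by norm_num))
  obtain ⟨c, hc⟩ := H443.exists_isConj
  exact ⟨c, γ, hc, by rw [hγ]; rfl⟩

/-- **characters of `G_ℚ`** -/
theorem Dt.top (D : Dt m ⊤ y) {φ : GQ} {n : ℕ} (hφ : φ ∉ Cyq n) (h1 : y φ = 1) (g : GQ) :
    y g = 1 := by
  obtain ⟨c, γ, hc, hγ⟩ := ex_cg
  have yc : y c = 1 := sq_one (by rw [← D.mul _ trivial _ trivial, H20.conj_sq hc, D.one])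
  refine D.fin (gd0 n) (q := γ) trivial (fun k h _ => ?_) trivial hφ h1 g trivial
  have hN := (D.gd k).inf (gd0 n)
  have cN : c ∈ D.N k ⊓ Cyq n := ⟨D.mem k trivial yc, conj_cyq n hc⟩
  obtain ⟨a, e | e⟩ := dih hN hc hγ (p := c) (q := γ) (Or.inl rfl) (Or.inr (Or.inl rfl))
    (mul_mem cN cN) (Or.inr cN) h
  · exact ⟨a, e⟩
  · refine ⟨a, ?_⟩
    have := mul_mem (inv_mem (hN.nor.conj_mem c cN h⁻¹)) e
    rwa [show (h⁻¹ * c * h⁻¹⁻¹)⁻¹ * (h⁻¹ * (c * γ ^ a)) = h⁻¹ * γ ^ a by group] at this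

/-- **anticyclotomic characters** of a subgroup of index two -/
theorem Dt.anti (D : Dt m M y) (hM : ∃ s, s ∉ M) (two : ∀ g ∉ M, ∀ h ∉ M, g * h ∈ M)
    (an : ∀ s ∉ M, ∀ g ∈ M, y (s * g * s⁻¹) * y g = 1) {φ₁ φ₂ : GQ} (a1 : cyc 8 φ₁ = 1)
    (b1 : φ₁ ∉ Lay 2 2) (c1 : φ₁ ∈ M → y φ₁ = 1) (a2 : cyc 8 φ₂ = 1) (b2 : φ₂ ∉ Lay 3 (-4))
    (c2 : φ₂ ∈ M → y φ₂ = 1) : ∀ g ∈ M, y g = 1 := by
  classical
  obtain ⟨c, γ, hc, hγ⟩ := ex_cg
  have cc := H20.conj_sq hc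
  have hs : ∀ s ∉ M, y (s * s) = 1 := fun s h => sq_one (by
    have := an s h _ (D.sq s)
    rwa [show s * (s * s) * s⁻¹ = s * s by group] at this)
  have nm : ∀ {g h : GQ}, g ∉ M → h ∈ M → g * h ∉ M := fun hg hh e =>
    hg ((M.mul_mem_cancel_right hh).1 e)
  have m8 : ∀ h, cyc 8 h = 1 → h ∈ M := fun h h8 => by
    let χ : GQ →* Multiplicative (ZMod 2) :=
      { toFun := fun g => if g ∈ M then 1 else Multiplicative.ofAdd 1
        map_one' := if_pos M.one_mem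
        map_mul' := fun g k => by
          by_cases a : g ∈ M <;> by_cases b : k ∈ M
          · rw [if_pos a, if_pos b, if_pos (M.mul_mem a b), mul_one]
          · rw [if_pos a, if_neg b, if_neg (fun e => b ((M.mul_mem_cancel_left a).1 e)), one_mul]
          · rw [if_neg a, if_pos b, if_neg (nm a b), mul_one]
          · rw [if_neg a, if_neg b, if_pos (two g a k b)]
            decide }
    have p : ∀ g ∈ M, χ g = 1 := fun g hg => if_pos hg
    by_contra hn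
    have e := quad8 χ (Subgroup.isOpen_mono (H₁ := D.N 0) (fun g hg => p g hg.1) (D.gd 0).op)
      (fun l hl h2 σ hσ => p σ (D.unr l hl h2 σ hσ).1) h8
    have e' : χ h = Multiplicative.ofAdd 1 := if_neg hn
    rw [e'] at e
    exact absurd e (by decide)
  have cv : (cyc 8 c : ZMod 8) = -1 := cyc_conj hc
  have main : ∀ {V : Subgroup GQ} {q φ : GQ}, Gd V → c ∉ M → q ∈ M → (γ = q ∨ γ = c * q) →
      c * q * (c * q) ∈ V → cyc 8 φ = 1 → φ ∉ V → (φ ∈ M → y φ = 1) → ∀ g ∈ M, y g = 1 := by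
    intro V q φ hV cM qM hq hv a b e
    refine D.fin hV qM (fun k h hh => ?_) (m8 φ a) b (e (m8 φ a))
    obtain ⟨n, e | e⟩ := dih ((D.gd k).inf hV) hc hγ (p := c) (q := q) (Or.inl rfl) (Or.inr hq)
      (by rw [cc]; exact one_mem _)
      (Or.inl ⟨D.mem k (D.sq _) (hs _ (nm cM qM)), hv⟩) h
    · exact ⟨n, e⟩
    · exact absurd ((M.mul_mem_cancel_left (M.inv_mem hh)).1 e.1.1) (nm cM (M.pow_mem qM n))
  by_cases cM : c ∈ M
  · have gM : γ ∉ M := fun gM => by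
      obtain ⟨s, hs⟩ := hM
      rcases cls8 hc hγ s with h | h | h | h <;> have := m8 _ h
      · exact hs this
      · exact hs ((M.mul_mem_cancel_left cM).1 this)
      · exact hs ((M.mul_mem_cancel_left gM).1 this)
      · exact hs ((M.mul_mem_cancel_left (M.mul_mem cM gM)).1 this)
    have yc : y c = 1 := sq_one (by rw [← D.mul _ cM _ cM, cc, D.one])
    intro h hh
    refine (sub_eq_zero.1 (D.sep _ fun k => ?_)).symm
    obtain ⟨n, e | e⟩ := dih (D.gd k) hc hγ (p := γ) (q := c) (Or.inr rfl) (Or.inl rfl)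
      (D.mem k (D.sq _) (hs _ gM)) (Or.inl (D.mem k (D.sq _) (hs _ (nm gM cM)))) h
    · have e3 := D.cong hh e
      rwa [D.pow cM, yc, one_pow] at e3
    · exact absurd ((M.mul_mem_cancel_left (M.inv_mem hh)).1 e.1) (nm gM (M.pow_mem cM n))
  · by_cases gM : γ ∈ M
    · refine main gd1 cM gM (Or.inl rfl) (sq1 ?_) a1 b1 c1
      rw [map_mul, Units.val_mul, cv, hγ]
      decide
    · have e : c * (c * γ) = γ := by rw [← mul_assoc, cc, one_mul]
      refine main gd2 cM (two c cM γ gM) (Or.inr e.symm) ?_ a2 b2 c2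
      rw [e]
      exact sq2 hγ

end ch

end Vale.Agent.P022G.Nice
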