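import Vale.Agent.P022G.Nice1

/-! # P022G, block NICE, part 2: curves with auxiliary conditions are irreducible on `Ginf` -/

set_option linter.all false

noncomputable section

namespace Vale.Agent.P022G.Nice

open NumberField Vale.Agent.P022 Vale.Agent.P022.C Vale.Agent.P022.H853 Vale.Agent.P022.H790.CT
open Vale.Agent.P022D.G (Inert)
open Vale.Agent.P022D.Sel (Ginf M2)

/-- a constant: fixed by a power of the Frobenius map -/
def Cst {B : Type} [CommRing B] (x : B) : Prop := ∃ f : ℕ, 0 < f ∧ x ^ 2 ^ f = x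

theorem cst_zero {B : Type} [CommRing B] : Cst (0 : B) := ⟨1, one_pos, by norm_num⟩

theorem Cst.map {B C : Type} [CommRing B] [CommRing C] (j : B →+* C) {x : B} (h : Cst x) :
    Cst (j x) := by
  obtain ⟨f, h0, h⟩ := h
  exact ⟨f, h0, by rw [← map_pow, h]⟩

theorem Cst.of_map {B C : Type} [CommRing B] [CommRing C] (j : B →+* C)
    (hj : Function.Injective j) {x : B} (h : Cst (j x)) : Cst x := by
  obtain ⟨f, h0, h⟩ := h
  exact ⟨f, h0, hj (by rw [map_pow, h])⟩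

theorem pw_iter {B : Type} [CommRing B] {x : B} {f : ℕ} (h : x ^ 2 ^ f = x) (k : ℕ) :
    x ^ 2 ^ (f * k) = x := by
  induction k with
  | zero => simp
  | succ k ih => rw [Nat.mul_succ, pow_add, pow_mul, ih, h]

theorem fin_pw (F : Type) [Field F] [Finite F] [CharP F 2] :
    ∃ f : ℕ, 0 < f ∧ ∀ a : F, a ^ 2 ^ f = a := by
  haveI := Fintype.ofFinite F
  obtain ⟨n, -, hn⟩ := FiniteField.card F 2
  exact ⟨n, n.2, fun a => by rw [← hn, FiniteField.pow_card]⟩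

theorem cst_fin {F : Type} [Field F] [Finite F] [CharP F 2] (a : F) : Cst a := by
  obtain ⟨f, h0, h⟩ := fin_pw F
  exact ⟨f, h0, h a⟩

variable {B : Type} [CommRing B] [IsDomain B] [CharP B 2] {m : Ideal B}

theorem Cst.add {x y : B} (h : Cst x) (h' : Cst y) : Cst (x + y) := by
  haveI : Fact (Nat.Prime 2) := ⟨Nat.prime_two⟩
  obtain ⟨f, h0, h⟩ := h
  obtain ⟨g, g0, h'⟩ := h'
  exact ⟨f * g, Nat.mul_pos h0 g0, by
    rw [add_pow_char_pow, pw_iter h, mul_comm f g, pw_iter h']⟩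

/-- roots of unity of odd order are constants -/
theorem cst_odd {x : B} {e : ℕ} (he : Odd e) (h : x ^ e = 1) : Cst x := by
  have e0 : 0 < e := he.pos
  have h1 := Nat.ModEq.pow_totient (x := 2) (n := e) (Nat.coprime_two_left.2 he)
  exact ⟨_, Nat.totient_pos.2 e0, by rw [pow_eq_pow_of_modEq h1 h, pow_one]⟩

/-- constants come from the residue field -/
theorem cst_range (sep : ∀ x : B, (∀ k, x ∈ m ^ k) → x = 0) {x a : B} (hx : Cst x) (ha : Cst a)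
    (h : x - a ∈ m) : x = a := by
  haveI : Fact (Nat.Prime 2) := ⟨Nat.prime_two⟩
  obtain ⟨f, h0, h1⟩ := hx
  obtain ⟨g, g0, h2⟩ := ha
  refine sub_eq_zero.1 (sep _ fun k => ?_)
  have e : (x - a) ^ 2 ^ (f * g * k) = x - a := by
    rw [sub_pow_char_pow, mul_assoc, pw_iter h1, ← mul_assoc, mul_comm f g, mul_assoc, pw_iter h2]
  rw [← e]
  refine Ideal.pow_le_pow_right ?_ (Ideal.pow_mem_pow h _)
  exact le_trans (Nat.le_mul_of_pos_left k (Nat.mul_pos h0 g0)) (Nat.lt_two_pow_self).le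

theorem cst_one (sep : ∀ x : B, (∀ k, x ∈ m ^ k) → x = 0) {a d : B} {o : ℕ} (had : a * d = 1)
    (h : Cst (a + d)) (ho : a ^ o - 1 ∈ m) : a ^ o = 1 := by
  haveI : Fact (Nat.Prime 2) := ⟨Nat.prime_two⟩
  obtain ⟨e, e0, h⟩ := h
  rw [add_pow_char_pow] at h
  have h1 : a ^ 2 ^ e * d ^ 2 ^ e = 1 := by rw [← mul_pow, had, one_pow]
  have h2 : (a ^ 2 ^ e - a) * (a ^ 2 ^ e - d) = 0 := by
    linear_combination a ^ 2 ^ e * h - h1 + had
  obtain ⟨e, rfl⟩ := Nat.exists_eq_add_of_le' e0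
  obtain ⟨n, hn, h3⟩ : ∃ n, Odd n ∧ a ^ n = 1 := by
    rcases mul_eq_zero.1 h2 with h3 | h3
    · obtain ⟨w, hw⟩ : ∃ w, 2 ^ e = w + 1 := ⟨2 ^ e - 1, by
        have := Nat.one_le_two_pow (n := e)
        omega⟩
      refine ⟨2 * w + 1, odd_two_mul_add_one w, ?_⟩
      rw [pow_succ, hw] at h3
      linear_combination d * h3 - (a ^ (2 * w + 1) - 1) * had
    · refine ⟨2 * 2 ^ e + 1, odd_two_mul_add_one _, ?_⟩
      rw [pow_succ 2 e, mul_comm] at h3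
      rw [pow_succ, sub_eq_zero.1 h3, mul_comm, had]
  refine sub_eq_zero.1 (sep _ fun k => odd_mem (k := k) hn ?_ (pw_mem ho k))
  rw [← pow_mul, mul_comm, pow_mul, h3, one_pow, sub_self]
  exact zero_mem _

/-- the arithmetic hypotheses, on the trace only -/
structure Ar (t : GQ → B) : Prop where
  unr : ∀ l : ℕ, l.Prime → l ≠ 2 → ∀ σ, Inert l σ → Cst (t σ)
  a0 : ∃ φ n, φ ∉ Cyq n ∧ Cst (t φ)
  a1 : (∃ φ, cyc 8 φ = 1 ∧ φ ∉ Lay 2 2 ∧ Cst (t φ)) ∧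
    (∃ φ, cyc 8 φ = 1 ∧ φ ∉ Lay 3 (-4) ∧ Cst (t φ)) ∨
    ∀ M : Subgroup GQ, Ginf ≤ M → (∃ s, s ∉ M) → (∀ g ∉ M, ∀ h ∉ M, g * h ∈ M) →
      ∃ s ∉ M, t s ≠ 0
  nc : ∃ g, ¬ Cst (t g)

section mat

variable (ρ : GQ →* M2 B)

theorem ent (g h : GQ) (i j : Fin 2) : ρ (g * h) i j = ρ g i 0 * ρ h 0 j + ρ g i 1 * ρ h 1 j := by
  rw [map_mul, Matrix.mul_apply, Fin.sum_univ_two]

/-- the upper triangular elements -/
def Up (hd : ∀ g, ρ g 0 0 * ρ g 1 1 - ρ g 0 1 * ρ g 1 0 = 1) : Subgroup GQ where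
  carrier := {g | ρ g 1 0 = 0}
  mul_mem' {g h} hg hh := by
    show ρ (g * h) 1 0 = 0
    rw [ent, show ρ g 1 0 = 0 from hg, show ρ h 1 0 = 0 from hh]; ring
  one_mem' := by
    show ρ 1 1 0 = 0
    rw [map_one]; rfl
  inv_mem' {g} hg := by
    show ρ g⁻¹ 1 0 = 0
    have h1 := ent ρ g⁻¹ g 1 0
    have h2 := hd g
    rw [inv_mul_cancel, map_one, show (1 : M2 B) 1 0 = 0 from rfl] at h1
    rw [show ρ g 1 0 = 0 from hg] at h1 h2
    linear_combination -(ρ g 1 1) * h1 - ρ g⁻¹ 1 0 * h2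

theorem low (sep : ∀ x : B, (∀ k, x ∈ m ^ k) → x = 0)
    (fin : ∃ f : ℕ, 0 < f ∧ ∀ x : B, x ^ 2 ^ f - x ∈ m)
    (hd : ∀ g, ρ g 0 0 * ρ g 1 1 - ρ g 0 1 * ρ g 1 0 = 1) {g₀ : GQ} (h0 : g₀ ∈ Ginf)
    (e01 : ρ g₀ 0 1 = 0) (e10 : ρ g₀ 1 0 = 0) (hne : ρ g₀ 0 0 ≠ ρ g₀ 1 1)
    (opn : ∀ k, ∃ U : Subgroup GQ, IsOpen (U : Set GQ) ∧ ∀ v ∈ U, ρ v 0 0 - 1 ∈ m ^ k)
    (A : Ar fun g => ρ g 0 0 + ρ g 1 1) : ∃ g ∈ Ginf, ρ g 1 0 ≠ 0 := by
  by_contra hn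
  push Not at hn
  obtain ⟨f, f0, hf⟩ := fin
  obtain ⟨o, ho⟩ : ∃ o, 2 ^ f = o + 1 := ⟨2 ^ f - 1, by
    have := Nat.one_le_two_pow (n := f)
    omega⟩
  have o0 : o ≠ 0 := by
    rintro rfl
    have := Nat.one_lt_two_pow f0.ne'
    omega
  set M := Up ρ hd with hM
  have mM : ∀ g, g ∈ M ↔ ρ g 1 0 = 0 := fun g => Iff.rfl
  have a0 : ∀ g ∉ M, ρ g 0 0 = 0 := fun g hg => by
    have k := hn _ (Vale.Agent.P022D.Sel.Kum.conj_mem g h0)
    have e : g * (g⁻¹ * g₀ * g) = g₀ * g := by group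
    have e1 := ent ρ g (g⁻¹ * g₀ * g) 0 0
    have e2 := ent ρ g (g⁻¹ * g₀ * g) 1 0
    rw [e, ent, k] at e1 e2
    rw [e01] at e1
    rw [e10] at e2
    have e3 : ρ g 0 0 * ρ g 1 0 * (ρ g₀ 0 0 - ρ g₀ 1 1) = 0 := by
      linear_combination ρ g 1 0 * e1 - ρ g 0 0 * e2
    exact ((mul_eq_zero.1 ((mul_eq_zero.1 e3).resolve_right (sub_ne_zero.2 hne))).resolve_right hg)
  have d0 : ∀ g ∉ M, ρ g 1 1 = 0 := fun g hg => by
    have hg' : g⁻¹ ∉ M := fun e => hg (by simpa using M.inv_mem e)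
    have e1 := ent ρ g⁻¹ g 0 1
    have e2 := hd g⁻¹
    rw [inv_mul_cancel, map_one, show (1 : M2 B) 0 1 = 0 from rfl] at e1
    rw [a0 _ hg'] at e1 e2
    linear_combination (ρ g⁻¹ 1 0) * e1 - ρ g 1 1 * e2
  have two : ∀ g ∉ M, ∀ h ∉ M, g * h ∈ M := fun g hg h hh => by
    rw [mM, ent, a0 h hh, d0 g hg]; ring
  have nm : ∀ {g h : GQ}, g ∉ M → h ∈ M → g * h ∉ M := fun hg hh e =>
    hg ((M.mul_mem_cancel_right hh).1 e)
  have ad : ∀ g ∈ M, ρ g 0 0 * ρ g 1 1 = 1 := fun g hg => by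
    have := hd g
    rw [(mM g).1 hg] at this
    linear_combination this
  have ml : ∀ g h, h ∈ M → ρ (g * h) 0 0 = ρ g 0 0 * ρ h 0 0 := fun g h hh => by
    rw [ent, (mM h).1 hh]; ring
  have an : ∀ s ∉ M, ∀ g ∈ M, ρ (s * g * s⁻¹) 0 0 * ρ g 0 0 = 1 := fun s hs g hg => by
    have e1 := ent ρ (s * g * s⁻¹) s 0 1
    rw [inv_mul_cancel_right, ent, a0 s hs, d0 s hs] at e1
    have e2 := hd s
    rw [a0 s hs] at e2
    have e3 := ad g hg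
    linear_combination (ρ s 1 0 * ρ g 0 0) * e1 - (ρ (s * g * s⁻¹) 0 0 * ρ g 0 0 - 1) * e2 -
      (ρ s 0 1 * ρ s 1 0) * e3
  have res : ∀ g ∈ M, ρ g 0 0 ^ o - 1 ∈ m := fun g hg => by
    have e := m.mul_mem_left (ρ g 1 1) (hf (ρ g 0 0))
    rw [ho] at e
    rwa [show ρ g 1 1 * (ρ g 0 0 ^ (o + 1) - ρ g 0 0) = ρ g 0 0 ^ o - 1 by
      linear_combination (ρ g 0 0 ^ o - 1) * ad g hg] at e
  have one : ∀ g ∈ M, Cst (ρ g 0 0 + ρ g 1 1) → ρ g 0 0 ^ o = 1 := fun g hg h =>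
    cst_one sep (ad g hg) h (res g hg)
  have D : Dt m M fun g => ρ g 0 0 ^ o :=
    { sep := sep
      nor := ⟨fun g hg s => by
        by_cases hs : s ∈ M
        · exact M.mul_mem (M.mul_mem hs hg) (M.inv_mem hs)
        · exact two _ (nm hs hg) _ fun e => hs (by simpa using M.inv_mem e)⟩
      sq := fun g => by
        by_cases hg : g ∈ M
        · exact M.mul_mem hg hg
        · exact two g hg g hg
      mul := fun g _ h hh => by rw [ml g h hh, mul_pow]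
      one := by rw [map_one]; exact one_pow _
      res := res
      opn := fun k => by
        obtain ⟨U, hU, h⟩ := opn (k + 1)
        refine ⟨U, hU, fun v hv => ⟨?_, Ideal.mem_of_dvd _ (sub_one_dvd_pow_sub_one _ _)
          (Ideal.pow_le_pow_right (Nat.le_succ k) (h v hv))⟩⟩
        by_contra hn'
        have e := h v hv
        rw [a0 v hn', zero_sub, neg_mem_iff] at e
        have e1 : m = ⊤ := (Ideal.eq_top_iff_one _).2 (Ideal.pow_le_self (Nat.succ_ne_zero k) e)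
        exact one_ne_zero (sep 1 fun j => by rw [e1, Ideal.top_pow]; trivial)
      cj := fun s g hg => by
        by_cases hs : s ∈ M
        · left
          have e := ml s s⁻¹ (M.inv_mem hs)
          rw [mul_inv_cancel, map_one, show (1 : M2 B) 0 0 = 1 from rfl] at e
          rw [ml _ _ (M.inv_mem hs), ml _ _ hg,
            show ρ s 0 0 * ρ g 0 0 * ρ s⁻¹ 0 0 = ρ g 0 0 by linear_combination -(ρ g 0 0) * e]
        · right
          rw [← mul_pow, an s hs g hg, one_pow]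
      unr := fun l hl h2 σ hσ =>
        ⟨hn σ (inert_inf hl h2 hσ), one σ (hn σ (inert_inf hl h2 hσ)) (A.unr l hl h2 σ hσ)⟩ }
  have fin : (∀ g ∈ M, ρ g 0 0 ^ o = 1) → False := fun h => by
    haveI : Fact (Nat.Prime 2) := ⟨Nat.prime_two⟩
    obtain ⟨g, hg⟩ := A.nc
    apply hg
    by_cases gM : g ∈ M
    · refine Cst.add ⟨f, f0, by rw [ho, pow_succ, h g gM, one_mul]⟩ ⟨f, f0, ?_⟩
      have e : ρ g 0 0 ^ o * ρ g 1 1 ^ o = 1 := by rw [← mul_pow, ad g gM, one_pow]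
      rw [h g gM, one_mul] at e
      rw [ho, pow_succ, e, one_mul]
    · rw [a0 g gM, d0 g gM, add_zero]
      exact cst_zero
  apply fin
  by_cases hT : ∃ s, s ∉ M
  · rcases A.a1 with ⟨⟨φ₁, a1, b1, c1⟩, φ₂, a2, b2, c2⟩ | h
    · exact D.anti hT two (fun s hs g hg => by rw [← mul_pow, an s hs g hg, one_pow]) a1 b1
        (fun e => one _ e c1) a2 b2 fun e => one _ e c2
    · obtain ⟨s, hs, e⟩ := h M hn hT two
      exact absurd (by rw [a0 s hs, d0 s hs, add_zero]) e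
  · push Not at hT
    obtain ⟨φ, n, a, b⟩ := A.a0
    have e : M = ⊤ := (Subgroup.eq_top_iff' M).2 hT
    exact fun g _ => (e ▸ D).top a (one φ (hT φ) b) g

/-- the conjugate by the permutation matrix -/
def sw : GQ →* M2 B where
  toFun g := !![ρ g 1 1, ρ g 1 0; ρ g 0 1, ρ g 0 0]
  map_one' := by
    rw [map_one]
    ext i j
    fin_cases i <;> fin_cases j <;> rfl
  map_mul' g h := by
    ext i j
    fin_cases i <;> fin_cases j <;> simp [ent, Matrix.mul_apply, Fin.sum_univ_two, add_comm]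

/-- **NICE** -/
theorem nice (sep : ∀ x : B, (∀ k, x ∈ m ^ k) → x = 0)
    (fin : ∃ f : ℕ, 0 < f ∧ ∀ x : B, x ^ 2 ^ f - x ∈ m) (hd : ∀ g, (ρ g).det = 1)
    {g₀ : GQ} (h0 : g₀ ∈ Ginf) {α β : B} (e0 : ρ g₀ = !![α, 0; 0, β]) (hne : α ≠ β)
    (opn : ∀ k, ∃ U : Subgroup GQ, IsOpen (U : Set GQ) ∧ ∀ v ∈ U, ∀ i, ρ v i i - 1 ∈ m ^ k)
    (A : Ar fun g => (ρ g).trace) :
    (∃ g ∈ Ginf, ρ g 0 1 ≠ 0) ∧ ∃ g ∈ Ginf, ρ g 1 0 ≠ 0 := by
  have hd' : ∀ g, ρ g 0 0 * ρ g 1 1 - ρ g 0 1 * ρ g 1 0 = 1 := fun g => by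
    rw [← Matrix.det_fin_two, hd]
  simp only [Matrix.trace_fin_two] at A
  constructor
  · refine low (sw ρ) sep fin (fun g => ?_) h0 ?_ ?_ ?_ (fun k => ?_) ?_
    · show ρ g 1 1 * ρ g 0 0 - ρ g 1 0 * ρ g 0 1 = 1
      linear_combination hd' g
    · show ρ g₀ 1 0 = 0
      rw [e0]; rfl
    · show ρ g₀ 0 1 = 0
      rw [e0]; rfl
    · show ρ g₀ 1 1 ≠ ρ g₀ 0 0
      rw [e0]; exact hne.symm
    · obtain ⟨U, hU, h⟩ := opn k
      exact ⟨U, hU, fun v hv => h v hv 1⟩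
    · have e : (fun g => sw ρ g 0 0 + sw ρ g 1 1) = fun g => ρ g 0 0 + ρ g 1 1 :=
        funext fun g => add_comm _ _
      rw [e]
      exact A
  · refine low ρ sep fin hd' h0 (by rw [e0]; rfl) (by rw [e0]; rfl) (by rw [e0]; exact hne)
      (fun k => ?_) A
    obtain ⟨U, hU, h⟩ := opn k
    exact ⟨U, hU, fun v hv => h v hv 0⟩

/-- from two off-diagonal entries to the span -/
theorem span_of (H : Subgroup GQ) {g₀ : GQ} (h0 : g₀ ∈ H) {α β : B} (e0 : ρ g₀ = !![α, 0; 0, β])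
    {g h : GQ} (hg : g ∈ H) (hh : h ∈ H) (Z : M2 B) :
    ((α - β) * ρ g 0 1 * ρ h 1 0) • Z ∈ Submodule.span B (ρ '' (H : Set GQ)) := by
  have s : ∀ x ∈ H, ρ x ∈ Submodule.span B (ρ '' (H : Set GQ)) := fun x hx =>
    Submodule.subset_span ⟨x, hx, rfl⟩
  have e : ((α - β) * ρ g 0 1 * ρ h 1 0) • Z =
      (ρ g 0 1 * ρ h 1 0 * Z 0 0 - ρ h 1 0 * Z 0 1 * ρ g 0 0) • (ρ g₀ - β • ρ 1) +
      (ρ g 0 1 * ρ h 1 0 * Z 1 1 - ρ g 0 1 * Z 1 0 * ρ h 1 1) • (α • ρ 1 - ρ g₀) +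
      (ρ h 1 0 * Z 0 1) • (ρ (g₀ * g) - β • ρ g) + (ρ g 0 1 * Z 1 0) • (α • ρ h - ρ (g₀ * h)) := by
    rw [map_mul, map_mul, map_one, e0]
    ext i j
    fin_cases i <;> fin_cases j <;>
      simp [Matrix.mul_apply, Matrix.vecMul, dotProduct, Fin.sum_univ_two] <;> ring
  rw [e]
  refine add_mem (add_mem (add_mem ?_ ?_) ?_) ?_ <;> refine Submodule.smul_mem _ _ (sub_mem ?_ ?_)
  · exact s _ h0
  · exact Submodule.smul_mem _ _ (s _ H.one_mem)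
  · exact Submodule.smul_mem _ _ (s _ H.one_mem)
  · exact s _ h0
  · exact s _ (H.mul_mem h0 hg)
  · exact Submodule.smul_mem _ _ (s _ hg)
  · exact Submodule.smul_mem _ _ (s _ hh)
  · exact s _ (H.mul_mem h0 hh)

/-- **NICE**, span form -/
theorem nice_span (sep : ∀ x : B, (∀ k, x ∈ m ^ k) → x = 0)
    (fin : ∃ f : ℕ, 0 < f ∧ ∀ x : B, x ^ 2 ^ f - x ∈ m) (hd : ∀ g, (ρ g).det = 1)
    {g₀ : GQ} (h0 : g₀ ∈ Ginf) {α β : B} (e0 : ρ g₀ = !![α, 0; 0, β]) (hne : α ≠ β)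
    (opn : ∀ k, ∃ U : Subgroup GQ, IsOpen (U : Set GQ) ∧ ∀ v ∈ U, ∀ i, ρ v i i - 1 ∈ m ^ k)
    (A : Ar fun g => (ρ g).trace) :
    ∃ δ : B, δ ≠ 0 ∧ ∀ Z : M2 B, δ • Z ∈ Submodule.span B (ρ '' (Ginf : Set GQ)) := by
  obtain ⟨⟨g, hg, a⟩, h, hh, b⟩ := nice ρ sep fin hd h0 e0 hne opn A
  exact ⟨_, mul_ne_zero (mul_ne_zero (sub_ne_zero.2 hne) a) b, span_of ρ Ginf h0 e0 hg hh⟩

end mat

end Vale.Agent.P022G.Nice
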