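import Vale.Agent.P022G.Nice2
import Vale.Agent.P022G.Sel.Defs
import Vale.Agent.P027M.TW.Dens

/-! # P022G, block NICE, part 3: the form for curves and the auxiliary primes -/

set_option linter.all false

noncomputable section

namespace Vale.Agent.P022G.Nice

open NumberField IsLocalRing Vale.Agent.P022 Vale.Agent.P022.C Vale.Agent.P022.H853
open Vale.Agent.P022.H790.CT
open Vale.Agent.P022D.G (Inert)
open Vale.Agent.P022D.Sel (Ginf M2)
open _root_.P022G.Sel (mr rd tI Lv)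

section

variable {A : Type} [CommRing A] [IsDomain A] [IsLocalRing A] [CharP A 2]

theorem sep_max [IsNoetherianRing A] (x : A) (h : ∀ k, x ∈ maximalIdeal A ^ k) : x = 0 := by
  have := Ideal.iInf_pow_eq_bot_of_isDomain (maximalIdeal A) (maximalIdeal.isMaximal A).ne_top
  rw [← Ideal.mem_bot, ← this, Ideal.mem_iInf]
  exact h

theorem res_char : CharP (ResidueField A) 2 := by
  haveI : Fact (Nat.Prime 2) := ⟨Nat.prime_two⟩
  refine (CharP.charP_iff_prime_eq_zero Nat.prime_two).2 ?_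
  rw [← map_natCast (residue A), CharP.cast_eq_zero, map_zero]

theorem fin_max [Finite (ResidueField A)] :
    ∃ f : ℕ, 0 < f ∧ ∀ x : A, x ^ 2 ^ f - x ∈ maximalIdeal A := by
  haveI := res_char (A := A)
  obtain ⟨f, h0, h⟩ := fin_pw (ResidueField A)
  exact ⟨f, h0, fun x => by rw [← residue_eq_zero_iff, map_sub, map_pow, h, sub_self]⟩

theorem unit_iff (x : A) : IsUnit x ↔ residue A x ≠ 0 := by
  rw [Ne, residue_eq_zero_iff, notMem_maximalIdeal]

/-- enough regular elements -/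
theorem reg_of (ρ : GQ →* M2 A) (hd : ∀ g, (ρ g).det = 1) {s : GQ} (e01 : ρ s 0 1 = 0)
    (e10 : ρ s 1 0 = 0) (hu : IsUnit (ρ s).trace) (g : GQ)
    (sh : ρ g 0 1 * ρ g 1 0 ∈ maximalIdeal A) : IsUnit (ρ g).trace ∨
      (IsUnit (ρ (g * s)).trace ∧ IsUnit (ρ (g * s * s)).trace) := by
  haveI := res_char (A := A)
  by_cases h : IsUnit (ρ g).trace
  · exact Or.inl h
  right
  have t2 : (2 : ResidueField A) = 0 := CharP.cast_eq_zero (ResidueField A) 2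
  rw [unit_iff, not_not, Matrix.trace_fin_two, map_add] at h
  rw [unit_iff, Matrix.trace_fin_two, map_add] at hu
  have d := congrArg (residue A) (hd g)
  rw [Matrix.det_fin_two, map_sub, (residue_eq_zero_iff _).2 sh, map_mul, map_one] at d
  have a : residue A (ρ g 0 0) = 1 := sq_one (by
    linear_combination residue A (ρ g 0 0) * h - d - t2)
  have b : residue A (ρ g 1 1) = 1 := by
    rw [a] at d
    linear_combination d
  constructor
  · rw [unit_iff, Matrix.trace_fin_two, ent, ent, e01, e10]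
    simpa [a, b] using hu
  · rw [unit_iff, Matrix.trace_fin_two]
    simp only [ent, e01, e10, mul_zero, add_zero, zero_add, map_add, map_mul, a, b, one_mul]
    intro e
    exact hu (pow_eq_zero_iff (n := 2) (by norm_num) |>.1 (by
      linear_combination e + residue A (ρ s 0 0) * residue A (ρ s 1 1) * t2))

end

/-- **nice curves** -/
theorem selNice {A : Type} [CommRing A] [IsDomain A] [IsDiscreteValuationRing A] [CharP A 2]
    [Finite (ResidueField A)] {t : A} (ht : Irreducible t) (ρ : GQ →* GL (Fin 2) A)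
    {T : Finset ℕ} {D : ℕ → Set GQ} (lv : ∀ N, Lv (rd (tI t N) ρ) T D)
    (hd : ∀ g, (mr ρ g).det = 1) {g₀ : GQ} (h0 : g₀ ∈ Ginf) (e01 : mr ρ g₀ 0 1 = 0)
    (e10 : mr ρ g₀ 1 0 = 0) (hu : IsUnit (mr ρ g₀).trace)
    (sh : ∀ g ∈ Ginf, mr ρ g 0 1 * mr ρ g 1 0 ∈ maximalIdeal A)
    (H : Ar fun g => (mr ρ g).trace) : _root_.P022G.Sel.Nice t ρ T D := by
  let σ : GQ →* M2 A := (Units.coeHom _).comp ρ
  refine ⟨lv, hd, ?_, g₀, h0, hu, fun g hg => reg_of σ hd e01 e10 hu g (sh g hg)⟩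
  refine nice_span σ sep_max fin_max hd h0 (α := mr ρ g₀ 0 0) (β := mr ρ g₀ 1 1) ?_ (fun e => ?_)
    (fun k => ⟨(rd (tI t k) ρ).ker, (lv k).opn, fun v hv i => ?_⟩) H
  · show mr ρ g₀ = _
    rw [← e01, Matrix.eta_fin_two (mr ρ g₀)]
    simp [e01, e10]
  · rw [Matrix.trace_fin_two, e, ← two_mul, show (2 : A) = 0 from CharP.cast_eq_zero A 2,
      zero_mul] at hu
    exact not_isUnit_zero hu
  · rw [ht.maximalIdeal_eq, Ideal.span_singleton_pow, ← Ideal.Quotient.eq]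
    have e : (rd (tI t k) ρ v : M2 (A ⧸ tI t k)) i i = (1 : M2 (A ⧸ tI t k)) i i := by
      rw [MonoidHom.mem_ker.1 hv, Units.val_one]
    rw [Matrix.one_apply_eq] at e
    rw [map_one]
    exact e

/-! ### auxiliary primes -/

theorem out1 {γ : GQ} (hγ : (cyc 8 γ : ZMod 8) = 5) : γ * γ ∉ Lay 2 2 := fun h => by
  obtain ⟨z, hz⟩ := IsAlgClosed.exists_pow_nat_eq (-1 : Qb) (n := 4) (by norm_num)
  obtain ⟨x, hx⟩ := IsAlgClosed.exists_pow_nat_eq (z - z ^ 3) (n := 2) (by norm_num)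
  have z8 : z ^ 8 = 1 := by linear_combination (z ^ 4 - 1) * hz
  have x4 : x ^ 4 = 2 := by linear_combination (x ^ 2 + z - z ^ 3) * hx + (z ^ 2 - 2) * hz
  have x0 : x ≠ 0 := by
    rintro rfl
    norm_num at x4
  have h1 : γ z = -z := by
    rw [act8 (a := 5) hγ (by norm_num) z8]
    linear_combination z * hz
  have h2 : (γ x) ^ 2 = (z ^ 2 * x) ^ 2 := by
    rw [← map_pow, hx, map_sub, map_pow, h1]
    linear_combination -(z ^ 4) * hx - (z - z ^ 3) * hz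
  have h3 := h x (by exact_mod_cast x4)
  rw [AlgEquiv.mul_apply] at h3
  apply x0
  rcases sq_eq_sq_iff_eq_or_eq_neg.1 h2 with e | e
  · rw [e, map_mul, map_pow, h1, e] at h3
    linear_combination (-1 / 2 : Qb) * h3 + (x / 2) * hz
  · rw [e, map_neg, map_mul, map_pow, h1, e] at h3
    linear_combination (-1 / 2 : Qb) * h3 + (x / 2) * hz

theorem out2 {s : GQ} (hs : (cyc 8 s : ZMod 8) = 3) : s * s ∉ Lay 3 (-4) := fun h => by
  obtain ⟨z, hz⟩ := IsAlgClosed.exists_pow_nat_eq (-1 : Qb) (n := 4) (by norm_num)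
  obtain ⟨x, hx⟩ := IsAlgClosed.exists_pow_nat_eq (1 + z ^ 2) (n := 2) (by norm_num)
  have z8 : z ^ 8 = 1 := by linear_combination (z ^ 4 - 1) * hz
  have x4 : x ^ 4 = 2 * z ^ 2 := by linear_combination (x ^ 2 + 1 + z ^ 2) * hx + hz
  have x8 : x ^ 8 = -4 := by linear_combination (x ^ 4 + 2 * z ^ 2) * x4 + 4 * hz
  have x0 : x ≠ 0 := by
    rintro rfl
    norm_num at x8
  have h1 : s z = z ^ 3 := act8 (a := 3) hs (by norm_num) z8
  have h2 : (s x) ^ 2 = (z ^ 3 * x) ^ 2 := by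
    rw [← map_pow, hx, map_add, map_one, map_pow, h1]
    linear_combination -(z ^ 6) * hx + (1 - z ^ 4) * hz
  have h3 := h x (by exact_mod_cast x8)
  rw [AlgEquiv.mul_apply] at h3
  apply x0
  rcases sq_eq_sq_iff_eq_or_eq_neg.1 h2 with e | e
  · rw [e, map_mul, map_pow, h1, e] at h3
    linear_combination (-1 / 2 : Qb) * h3 + (x * (z ^ 8 - z ^ 4 + 1) / 2) * hz
  · rw [e, map_neg, map_mul, map_pow, h1, e] at h3
    linear_combination (-1 / 2 : Qb) * h3 + (x * (z ^ 8 - z ^ 4 + 1) / 2) * hz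

/-- an element of the group of the eighth cyclotomic field outside both layers -/
theorem ex_out : ∃ g : GQ, cyc 8 g = 1 ∧ g ∉ Lay 2 2 ∧ g ∉ Lay 3 (-4) := by
  obtain ⟨γ, hγ⟩ := cyc_surj 8 (ZMod.unitOfCoprime 5 (by norm_num))
  obtain ⟨s, hs⟩ := cyc_surj 8 (ZMod.unitOfCoprime 3 (by norm_num))
  have a : (cyc 8 γ : ZMod 8) = 5 := by rw [hγ]; rfl
  have b : (cyc 8 s : ZMod 8) = 3 := by rw [hs]; rfl
  refine ⟨γ * γ * (s * s), ?_, fun h => out1 a (((Lay 2 2).mul_mem_cancel_right (sq1 b)).1 h),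
    fun h => out2 b (((Lay 3 (-4)).mul_mem_cancel_left (sq2 a)).1 h)⟩
  apply Units.ext
  simp only [map_mul, Units.val_mul, a, b, Units.val_one]
  decide

theorem odd_out {V : Subgroup GQ} (hV : Gd V) {g : GQ} (hg : g ∉ V) {o : ℕ} (ho : Odd o) :
    g ^ o ∉ V := fun h => by
  haveI := hV.nor
  obtain ⟨k, hk⟩ := hV.two g
  have o1 : ∀ x, QuotientGroup.mk' V x = 1 ↔ x ∈ V := fun x => QuotientGroup.eq_one_iff x
  rw [← o1, map_pow] at h hk
  have := pow_gcd_eq_one.2 ⟨h, hk⟩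
  rw [show Nat.gcd o (2 ^ k) = 1 from (Nat.coprime_two_right.2 ho).pow_right k, pow_one, o1] at this
  exact hg this

/-- Frobenius elements in an odd power of a coset of `2`-power order -/
theorem dens2 (U : Subgroup GQ) (hn : U.Normal) (hU : IsOpen (U : Set GQ)) (g : GQ) {k : ℕ}
    (hg : g ^ 2 ^ k ∈ U) (S : Finset ℕ) : ∃ (a : ℕ) (φ : GQ) (m : ℕ), a.Prime ∧ a ∉ S ∧
      IsFrob a φ ∧ Odd m ∧ φ⁻¹ * g ^ m ∈ U := by
  have := Vale.Agent.P022D.Sel.OddP.compact_GQ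
  have : Finite (GQ ⧸ U) := Subgroup.quotient_finite_of_isOpen U hU
  have o1 : ∀ x, QuotientGroup.mk' U x = 1 ↔ x ∈ U := fun x => QuotientGroup.eq_one_iff x
  have hd : orderOf (QuotientGroup.mk' U g) ∣ 2 ^ k :=
    orderOf_dvd_of_pow_eq_one (by rw [← map_pow, o1]; exact hg)
  obtain ⟨φ, ⟨l, hl, hlS, hφ⟩, m, hm, e⟩ := P027M.TW.dens (GQ ⧸ U) (QuotientGroup.mk' U)
    (by
      have : {x : GQ | QuotientGroup.mk' U x = 1} = U := Set.ext o1
      rw [this]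
      exact hU) S g {2} (by simpa using Nat.prime_two) (by norm_num)
    (fun p hp h => by
      simpa using (Nat.prime_dvd_prime_iff_eq hp Nat.prime_two).1 (hp.dvd_of_dvd_pow (h.trans hd)))
  by_cases ho : Odd m
  · exact ⟨l, φ, m, hl, hlS, hφ, ho, by rw [← o1, map_mul, map_inv, map_pow, e, inv_mul_cancel]⟩
  · have h2 : Nat.Coprime (2 ^ k) (orderOf (QuotientGroup.mk' U g)) :=
      (Nat.Coprime.coprime_dvd_left (even_iff_two_dvd.1 (Nat.not_odd_iff_even.1 ho)) hm).pow_left k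
    have h3 : QuotientGroup.mk' U g = 1 :=
      orderOf_eq_one_iff.1 (Nat.Coprime.eq_one_of_dvd h2.symm hd)
    exact ⟨l, φ, 1, hl, hlS, hφ, odd_one, by
      rw [← o1, map_mul, map_inv, map_pow, e, h3, one_pow, one_pow, inv_mul_cancel]⟩

theorem ker8 : IsOpen ((cyc 8).ker : Set GQ) := isOpen_cyc 8

theorem mod8 {a : ℕ} (ha : a.Prime) (h2 : a ≠ 2) {φ : GQ} (hφ : IsFrob a φ) (h : cyc 8 φ = 1) :
    a % 8 = 1 := by
  have h1 : (cyc 8 φ : ZMod 8) = a := cyc_frob ha (fun hd => h2 ((Nat.prime_dvd_prime_iff_eq ha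
    Nat.prime_two).1 (ha.dvd_of_dvd_pow (show a ∣ 2 ^ 3 from hd)))) hφ
  rw [h, Units.val_one] at h1
  exact ((ZMod.natCast_eq_natCast_iff' a 1 8).1 (by rw [← h1, Nat.cast_one])).trans rfl

/-- **auxiliary primes** -/
theorem aux (N : Subgroup GQ) (hn : N.Normal) (hN : IsOpen (N : Set GQ))
    (od : ∀ g, cyc 8 g = 1 → ∃ o, Odd o ∧ g ^ o ∈ N) (S : Finset ℕ) :
    ∃ (a : ℕ) (φ : GQ), a.Prime ∧ a ∉ S ∧ a ≠ 2 ∧ a % 8 = 1 ∧ IsFrob a φ ∧ φ ∈ N ∧ cyc 8 φ = 1 ∧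
      φ ∉ Lay 2 2 ∧ φ ∉ Lay 3 (-4) := by
  classical
  obtain ⟨g, g8, g1, g2⟩ := ex_out
  obtain ⟨o, ho, hg⟩ := od g g8
  obtain ⟨k, hk⟩ := (gd1.inf gd2).two (g ^ o)
  haveI := (gd1.inf gd2).nor
  have g8' : g ^ o ∈ (cyc 8).ker := by rw [MonoidHom.mem_ker, map_pow, g8, one_pow]
  obtain ⟨a, φ, m, ha, hS, hφ, hm, e⟩ := dens2 ((N ⊓ (cyc 8).ker) ⊓ (Lay 2 2 ⊓ Lay 3 (-4)))
    inferInstance ((hN.inter ker8).inter (gd1.inf gd2).op) (g ^ o) (k := k)
    ⟨pow_mem (show g ^ o ∈ N ⊓ (cyc 8).ker from ⟨hg, g8'⟩) _, hk⟩ (insert 2 S)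
  have a2 : a ≠ 2 := fun h => hS (h ▸ Finset.mem_insert_self _ _)
  have e1 : φ ∈ N ⊓ (cyc 8).ker := by
    have := (Subgroup.mul_mem_cancel_right _
      (pow_mem (show g ^ o ∈ N ⊓ (cyc 8).ker from ⟨hg, g8'⟩) m)).1 e.1
    exact (inv_mem_iff).1 this
  refine ⟨a, φ, ha, fun h => hS (Finset.mem_insert_of_mem h), a2, mod8 ha a2 hφ e1.2, hφ, e1.1,
    e1.2, fun h => odd_out gd1 (odd_out gd1 g1 ho) hm ?_,
    fun h => odd_out gd2 (odd_out gd2 g2 ho) hm ?_⟩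
  · exact (Subgroup.mul_mem_cancel_left _ (inv_mem h)).1 e.2.1
  · exact (Subgroup.mul_mem_cancel_left _ (inv_mem h)).1 e.2.2

/-- the hypotheses from one auxiliary prime -/
theorem Ar.of_aux {B : Type} [CommRing B] [IsDomain B] [CharP B 2] {t : GQ → B}
    (unr : ∀ l : ℕ, l.Prime → l ≠ 2 → ∀ σ, Inert l σ → Cst (t σ)) {a : ℕ} (ha : a.Prime)
    (h2 : a ≠ 2) {φ : GQ} (hφ : IsFrob a φ) (h8 : cyc 8 φ = 1) (l1 : φ ∉ Lay 2 2)
    (l2 : φ ∉ Lay 3 (-4)) (h0 : Cst (t φ)) (nc : ∃ g, ¬ Cst (t g)) : Ar t := by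
  obtain ⟨n, hn⟩ := frob_cyq ha h2 hφ
  exact ⟨unr, ⟨φ, n, hn, h0⟩, Or.inl ⟨⟨φ, h8, l1, h0⟩, φ, h8, l2, h0⟩, nc⟩

end Vale.Agent.P022G.Nice
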