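import Vale.Agent.P022G.Nice3
import Vale.Agent.P022D.W.Tame
import Vale.Agent.P022D.Gma.Rep

/-! # P022G, block NICE, part 4: traces on inertia are constant; diagonalisation -/

set_option linter.all false

noncomputable section

namespace Vale.Agent.P022G.Nice

open NumberField IsLocalRing Vale.Agent.P022 Vale.Agent.P022.C Vale.Agent.P022.H853
open Vale.Agent.P022.H790.CT Vale.Agent.P022.H443
open Vale.Agent.P022D.G (Inert)
open Vale.Agent.P022D.Sel (Ginf M2)
open _root_.P022G.Sel (mr rd tI Lv)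

theorem tr_pow {K : Type} [CommRing K] (M : M2 K) {a b : K} (ht : M.trace = a + b)
    (hd : M.det = a * b) (n : ℕ) : (M ^ n).trace = a ^ n + b ^ n := by
  have ch : M * M = (a + b) • M - (a * b) • (1 : M2 K) := by
    rw [← ht, ← hd, Matrix.trace_fin_two, Matrix.det_fin_two]
    ext i j
    fin_cases i <;> fin_cases j <;> simp [Matrix.mul_apply, Fin.sum_univ_two] <;> ring
  induction n using Nat.twoStepInduction with
  | zero => simp [Matrix.trace_fin_two]; norm_num
  | one => simpa using ht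
  | more n h1 h2 =>
    rw [pow_succ, pow_succ, mul_assoc, ch, mul_sub, mul_smul_comm, mul_smul_comm, mul_one,
      ← pow_succ, Matrix.trace_sub, Matrix.trace_smul, Matrix.trace_smul, h1, h2, smul_eq_mul,
      smul_eq_mul]
    ring

section

variable {B : Type} [CommRing B] [IsDomain B] [CharP B 2]

theorem cst_unity {x : B} {n : ℕ} (hn : n ≠ 0) (h : x ^ n = 1) : Cst x := by
  obtain ⟨i, o, ho, rfl⟩ := Nat.exists_eq_two_pow_mul_odd hn
  rw [mul_comm, pow_mul] at h
  exact cst_odd ho (eq_one_of_pw h)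

/-- a matrix which is conjugate to a power of itself has constant trace -/
theorem cst_of_rel (M : M2 B) (hd : M.det = 1) {N l : ℕ} (hN : N ≠ 0) (hl : 2 ≤ l)
    (h : (M ^ N).trace = ((M ^ N) ^ l).trace) : Cst M.trace := by
  let K := AlgebraicClosure (FractionRing B)
  let j : B →+* K := (algebraMap (FractionRing B) K).comp (algebraMap B (FractionRing B))
  have hj : Function.Injective j :=
    (algebraMap (FractionRing B) K).injective.comp (IsFractionRing.injective B (FractionRing B))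
  haveI : CharP K 2 := charP_of_injective_ringHom hj 2
  obtain ⟨a, ha⟩ := IsAlgClosed.exists_root
    (Polynomial.C 1 * Polynomial.X ^ 2 + Polynomial.C (-j M.trace) * Polynomial.X +
      Polynomial.C (1 : K)) (by rw [Polynomial.degree_quadratic one_ne_zero]; decide)
  simp only [Polynomial.IsRoot.def, Polynomial.eval_add, Polynomial.eval_mul, Polynomial.eval_C,
    Polynomial.eval_pow, Polynomial.eval_X] at ha
  obtain ⟨b, hb⟩ : ∃ b, b = j M.trace - a := ⟨_, rfl⟩
  have hab : a * b = 1 := by rw [hb]; linear_combination -ha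
  have tr : ∀ X : M2 B, j X.trace = (j.mapMatrix X).trace := fun X => by
    simp [Matrix.trace_fin_two]
  have p := tr_pow (j.mapMatrix M) (a := a) (b := b) (by rw [← tr, hb]; ring)
    (by rw [hab, ← RingHom.map_det, hd, map_one])
  have h1 := congrArg j h
  rw [tr, tr, ← pow_mul, map_pow, map_pow, p, p, pow_mul, pow_mul] at h1
  have e : a ^ N * b ^ N = 1 := by rw [← mul_pow, hab, one_pow]
  generalize hu : a ^ N = u at h1 e
  generalize b ^ N = v at h1 e
  have e2 : u ^ l * v ^ l = 1 := by rw [← mul_pow, e, one_pow]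
  have h2 : (u ^ l - u) * (u ^ l - v) = 0 := by linear_combination -u ^ l * h1 - e2 + e
  obtain ⟨l, rfl⟩ := Nat.exists_eq_add_of_le' hl
  obtain ⟨n, n0, h3⟩ : ∃ n, n ≠ 0 ∧ u ^ n = 1 := by
    rcases mul_eq_zero.1 h2 with h3 | h3
    · exact ⟨l + 1, by omega, by linear_combination v * h3 - (u ^ (l + 1) - 1) * e⟩
    · exact ⟨l + 3, by omega, by linear_combination u * h3 + e⟩
  rw [← hu, ← pow_mul] at h3
  have h4 : b ^ (N * n) = 1 := by
    have : a ^ (N * n) * b ^ (N * n) = 1 := by rw [← mul_pow, hab, one_pow]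
    rwa [h3, one_mul] at this
  refine Cst.of_map j hj ?_
  rw [show j M.trace = a + b by rw [hb]; ring]
  exact (cst_unity (mul_ne_zero hN n0) h3).add (cst_unity (mul_ne_zero hN n0) h4)

theorem rd_one {t : B} (ρ : GQ →* GL (Fin 2) B) (N : ℕ) (g : GQ) :
    rd (tI t N) ρ g = 1 ↔ ∀ i j, t ^ N ∣ (mr ρ g - 1) i j := by
  rw [Units.ext_iff, ← Matrix.ext_iff]
  refine forall_congr' fun i => forall_congr' fun j => ?_
  rw [← Ideal.mem_span_singleton, Matrix.sub_apply, ← Ideal.Quotient.eq]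
  refine iff_of_eq (congrArg₂ _ rfl ?_)
  rw [Units.val_one, Matrix.one_apply, Matrix.one_apply]
  split_ifs <;> simp

theorem rd_two {t : B} (ρ : GQ →* GL (Fin 2) B) {g : GQ} (h : rd (tI t 1) ρ g = 1) (k : ℕ) :
    rd (tI t k) ρ (g ^ 2 ^ k) = 1 := by
  haveI : Fact (Nat.Prime 2) := ⟨Nat.prime_two⟩
  rw [rd_one] at h ⊢
  choose Y hY using h
  have e : mr ρ g = 1 + t • Matrix.of Y := by
    rw [← sub_eq_iff_eq_add']
    ext i j
    rw [hY, pow_one]; rfl
  intro i j
  have e2 : mr ρ (g ^ 2 ^ k) = mr ρ g ^ 2 ^ k := by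
    simp only [mr, map_pow, Units.val_pow_eq_pow_val]
  rw [e2, e, add_pow_char_pow_of_commute 2 k (Commute.one_left _), one_pow, add_sub_cancel_left,
    smul_pow, Matrix.smul_apply, smul_eq_mul]
  exact (pow_dvd_pow t (Nat.lt_two_pow_self).le).mul_right _

/-- **monodromy**: traces of elements of inertia groups at odd primes are constant -/
theorem mono {t : B} (sep : ∀ x : B, (∀ N, t ^ N ∣ x) → x = 0) (ρ : GQ →* GL (Fin 2) B)
    (hd : ∀ g, (mr ρ g).det = 1) (opn : ∀ N, IsOpen {g : GQ | rd (tI t N) ρ g = 1})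
    {l : ℕ} (hl : l.Prime) (h2 : l ≠ 2) {σ : GQ} (hσ : Inert l σ) : Cst (mr ρ σ).trace := by
  obtain ⟨P, hP, hlP, hx⟩ := hσ
  obtain ⟨φ, hφ⟩ := P022D.W.exists_phi hl hP hlP
  have := Vale.Agent.P022D.Sel.OddP.compact_GQ
  have : Finite (GQ ⧸ (rd (tI t 1) ρ).ker) := Subgroup.quotient_finite_of_isOpen _ (opn 1)
  obtain ⟨N, hN, hs⟩ : ∃ N, N ≠ 0 ∧ σ ^ N ∈ (rd (tI t 1) ρ).ker :=
    ⟨_, (orderOf_pos (QuotientGroup.mk' (rd (tI t 1) ρ).ker σ)).ne', by
      rw [← QuotientGroup.eq_one_iff]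
      exact (map_pow (QuotientGroup.mk' _) σ _).trans (pow_orderOf_eq_one _)⟩
  have hI : σ ^ N ∈ inP P := (inP P).pow_mem hx N
  have w1 : φ * σ ^ N * φ⁻¹ * ((σ ^ N) ^ l)⁻¹ ∈ (rd (tI t 1) ρ).ker :=
    mul_mem ((MonoidHom.normal_ker _).conj_mem _ hs φ) (inv_mem (pow_mem hs l))
  have w : ρ (φ * σ ^ N * φ⁻¹ * ((σ ^ N) ^ l)⁻¹) = 1 := by
    apply Units.ext
    rw [Units.val_one, ← sub_eq_zero]
    ext i j
    refine sep _ fun k => (rd_one ρ k _).1 ?_ i j
    obtain ⟨-, -, -, -, -, -, -, h4⟩ := P022D.W.chi_data (rd (tI t k) ρ).ker (opn k) hl h2 hP hlP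
    obtain ⟨o, ho, e⟩ := h4 φ hφ _ hI
    have e1 := rd_two ρ w1 k
    rw [MonoidHom.mem_ker, map_pow] at e
    rw [map_pow] at e1
    have := pow_gcd_eq_one.2 ⟨e, e1⟩
    rwa [show Nat.gcd o (2 ^ k) = 1 from (Nat.coprime_two_right.2 ho).pow_right k, pow_one] at this
  rw [map_mul, map_inv, mul_inv_eq_one, map_mul, map_mul, map_inv, map_pow, map_pow, map_pow] at w
  refine cst_of_rel _ (hd σ) hN hl.two_le ?_
  have e := congrArg (fun u : GL (Fin 2) B => (u : M2 B).trace) w
  simp only [Units.val_mul, Units.val_pow_eq_pow_val] at e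
  rwa [Matrix.trace_units_conj] at e

end

section

variable {A : Type} [CommRing A] [IsDomain A] [IsLocalRing A] [CharP A 2]

/-- diagonalisation of a residually regular diagonal matrix -/
theorem diag [HenselianRing A (maximalIdeal A)] (M : M2 A) (h01 : M 0 1 ∈ maximalIdeal A)
    (h10 : M 1 0 ∈ maximalIdeal A) (hu : IsUnit M.trace) :
    ∃ (P : GL (Fin 2) A) (α β : A), ((P⁻¹ : GL (Fin 2) A) : M2 A) * M * P = !![α, 0; 0, β] ∧
      α + β = M.trace := by
  haveI := res_char (A := A)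
  have t2 : (2 : A) = 0 := CharP.cast_eq_zero A 2
  obtain ⟨α, β, hs, hp, hα⟩ := P022D.Gma.hensel (maximalIdeal A) M.trace M.det (M 0 0)
    (by
      rw [Matrix.trace_fin_two, Matrix.det_fin_two,
        show M 0 0 ^ 2 - (M 0 0 + M 1 1) * M 0 0 + (M 0 0 * M 1 1 - M 0 1 * M 1 0) =
          -M 0 1 * M 1 0 by ring]
      exact Ideal.mul_mem_left _ _ h10)
    (by
      rw [t2, zero_mul, zero_sub]
      exact hu.neg.map _)
  rw [Matrix.trace_fin_two] at hs hu
  rw [Matrix.det_fin_two] at hp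
  have hD : IsUnit (!![α - M 1 1, M 0 1; M 1 0, β - M 0 0] : M2 A).det := by
    rw [Matrix.det_fin_two_of, show (α - M 1 1) * (β - M 0 0) - M 0 1 * M 1 0 =
      (M 0 0 + M 1 1) ^ 2 + ((α - M 0 0) * (α - M 0 0) - M 0 1 * M 1 0) by
        linear_combination (α - M 1 1) * hs +
          (-α ^ 2 + α * M 0 0 + α * M 1 1 - M 0 0 ^ 2 - M 1 1 ^ 2 - M 0 0 * M 1 1) * t2]
    rw [unit_iff] at hu ⊢
    rw [map_add, (residue_eq_zero_iff _).2 (sub_mem (Ideal.mul_mem_left _ _ hα)
      (Ideal.mul_mem_left _ _ h10)), add_zero, map_pow]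
    exact pow_ne_zero _ hu
  obtain ⟨P, hP⟩ := (Matrix.isUnit_iff_isUnit_det _).2 hD
  refine ⟨P, α, β, ?_, by rw [Matrix.trace_fin_two, hs]⟩
  rw [mul_assoc, Units.inv_mul_eq_iff_eq_mul, hP]
  ext i j
  fin_cases i <;> fin_cases j <;> simp [Matrix.mul_apply, Fin.sum_univ_two]
  · linear_combination -α * hs + hp
  · ring
  · ring
  · linear_combination -β * hs + hp

end

end Vale.Agent.P022G.Nice
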