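import Vale.Agent.P022E.GW.All0
import Vale.Agent.P022E.GW.RecA

/-!
# P022G: reciprocity for `ad` with coefficients in a ring in which `2 = 0`
-/

set_option linter.all false

noncomputable section

namespace Vale.Agent.P022G.RecR

open NumberField
open Vale.Agent.P022 Vale.Agent.P022.H443 Vale.Agent.P022E.GW
open Vale.Agent.P027M.S (Inert)
open Vale.Agent.P022D.Sel (M2 IsDec Stab)
open Vale.Agent.P022D.Sel.AdmA (conj_conj stab_conj)
open Vale.Agent.P022D.L2c (Hm Cob IsZ2 cup up)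
open Vale.Agent.P022D.W (dec dec_gen phi_mem inP_le_dec conj_inP)
open scoped Pointwise

/-- additive maps to `ZMod 2` separate the points of a group killed by `2` -/
theorem sep {M : Type} [AddCommGroup M] (h2 : ∀ x : M, x + x = 0) {x : M}
    (h : ∀ μ : M →+ ZMod 2, μ x = 0) : x = 0 := by
  letI : Module (ZMod 2) M := AddCommGroup.zmodModule (n := 2) fun x => by rw [two_nsmul, h2]
  exact (Module.forall_dual_apply_eq_zero_iff (ZMod 2) x).1 fun f => h f.toAddMonoidHom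

variable {R : Type} [CommRing R] {ρ : GQ →* M2 R}

/-- cocycles -/
def Cc (ρ : GQ →* M2 R) (c : GQ → M2 R) : Prop := ∀ g h, c (g * h) = c g + ρ g * c h * ρ g⁻¹

theorem iv (g : GQ) : ρ g * ρ g⁻¹ = 1 := by rw [← map_mul, mul_inv_cancel, map_one]

theorem iv' (g : GQ) : ρ g⁻¹ * ρ g = 1 := by rw [← map_mul, inv_mul_cancel, map_one]

theorem r1 {g : GQ} (h : ρ g = 1) : ρ g⁻¹ = 1 := by
  have := iv (ρ := ρ) g
  rwa [h, one_mul] at this

theorem tr_ad (g : GQ) (a b : M2 R) :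
    (ρ g * a * ρ g⁻¹ * (ρ g * b * ρ g⁻¹)).trace = (a * b).trace := by
  rw [show ρ g * a * ρ g⁻¹ * (ρ g * b * ρ g⁻¹) =
    ρ g * (a * (ρ g⁻¹ * ρ g) * b) * ρ g⁻¹ by simp only [mul_assoc], iv', mul_one,
    Matrix.trace_mul_cycle, iv', one_mul]

/-- the kernel -/
def kr (ρ : GQ →* M2 R) : Subgroup GQ where
  carrier := {g | ρ g = 1}
  mul_mem' {a b} ha hb := by
    simp only [Set.mem_setOf_eq] at ha hb ⊢
    rw [map_mul, ha, hb, mul_one]
  one_mem' := map_one ρ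
  inv_mem' ha := r1 ha

theorem Cc.one {c : GQ → M2 R} (hc : Cc ρ c) : c 1 = 0 := by
  have := hc 1 1
  rw [mul_one, inv_one, map_one, one_mul, mul_one] at this
  exact left_eq_add.1 this

theorem Cc.lc {c : GQ → M2 R} (hc : Cc ρ c) (ho : Op c) : IsLocallyConstant c := by
  obtain ⟨U, hU, h⟩ := ho
  exact RecP.lc U hU fun g σ hσ => by rw [hc, h σ hσ, mul_zero, zero_mul, add_zero]

theorem lcr (ho : IsOpen {g : GQ | ρ g = 1}) : IsLocallyConstant ρ :=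
  RecP.lc (kr ρ) ho fun g σ hσ => by rw [map_mul, show ρ σ = 1 from hσ, mul_one]

/-- the cup product -/
def zz (μ : R →+ ZMod 2) (ρ : GQ →* M2 R) (c y : GQ → M2 R) (g h : GQ) : ZMod 2 :=
  μ (c g * (ρ g * y h * ρ g⁻¹)).trace

theorem z2 (μ : R →+ ZMod 2) {c y : GQ → M2 R} (ho : IsOpen {g : GQ | ρ g = 1}) (hc : Cc ρ c)
    (oc : Op c) (hy : Cc ρ y) (oy : Op y) : IsZ2 (zz μ ρ c y) := by
  have l1 := lcr ho
  refine ⟨?_, fun g h k => ?_⟩
  · exact (((hc.lc oc).comp_continuous continuous_fst).mul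
      (((l1.comp_continuous continuous_fst).mul ((hy.lc oy).comp_continuous continuous_snd)).mul
        (l1.comp_continuous continuous_fst.inv))).comp fun m => μ m.trace
  · have e := tr_ad (ρ := ρ) g (c h) (ρ h * y k * ρ h⁻¹)
    simp only [zz, hc g h, hy h k, mul_inv_rev, map_mul, mul_add, add_mul, Matrix.trace_add,
      mul_assoc, map_add] at e ⊢
    rw [e]
    ring

theorem cb_of (μ : R →+ ZMod 2) {c y : GQ → M2 R} (hy : Cc ρ y) (oy : Op y) (H : Subgroup GQ)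
    (b : M2 R) (hb : ∀ g ∈ H, c g = b - ρ g * b * ρ g⁻¹) : Cb H (zz μ ρ c y) := by
  refine ⟨fun g => μ (b * y g).trace,
    ((hy.lc oy).comp fun m => μ (b * m).trace).comp_continuous continuous_subtype_val,
    fun g h => ?_⟩
  simp only [rs, zz, Subgroup.coe_mul, hy g h, hb g g.2, sub_mul, mul_add, Matrix.trace_add,
    Matrix.trace_sub, tr_ad, map_add, map_sub]
  generalize μ (b * y g).trace = x1
  generalize μ (b * y h).trace = x2
  generalize μ (b * (ρ g * y h * ρ (g : GQ)⁻¹)).trace = x3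
  ring

theorem cob {c : GQ → M2 R} (hc : Cc ρ c) {g t g' : GQ} (e : g * t = t * g') {a : M2 R}
    (ha : c g' = a - ρ g' * a * ρ g'⁻¹) :
    c g = (c t + ρ t * a * ρ t⁻¹) - ρ g * (c t + ρ t * a * ρ t⁻¹) * ρ g⁻¹ := by
  have e1 : ρ t * ρ g' = ρ g * ρ t := by rw [← map_mul, ← map_mul, e]
  have e2 : ρ g'⁻¹ * ρ t⁻¹ = ρ t⁻¹ * ρ g⁻¹ := by
    rw [← map_mul, ← map_mul, ← mul_inv_rev, ← mul_inv_rev, e]
  have e3 : ρ t * (ρ g' * a * ρ g'⁻¹) * ρ t⁻¹ = ρ g * (ρ t * a * ρ t⁻¹) * ρ g⁻¹ := by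
    calc _ = ρ t * ρ g' * a * (ρ g'⁻¹ * ρ t⁻¹) := by simp only [mul_assoc]
      _ = _ := by rw [e1, e2]; simp only [mul_assoc]
  have e4 : c g = c t + ρ t * c g' * ρ t⁻¹ - ρ g * c t * ρ g⁻¹ := by
    rw [← hc t g', ← e, hc g t, add_sub_cancel_right]
  rw [e4, ha, mul_sub, sub_mul, e3, mul_add, add_mul]
  abel

theorem pw {y : GQ → M2 R} (hy : Cc ρ y) {φ : GQ} {Y b : M2 R} (h1 : ρ φ * Y = Y * ρ φ)
    (h2 : y φ = Y + (b - ρ φ * b * ρ φ⁻¹)) (k : ℕ) :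
    ρ (φ ^ k) * Y * ρ (φ ^ k)⁻¹ = Y ∧ y (φ ^ k) = k • Y + (b - ρ (φ ^ k) * b * ρ (φ ^ k)⁻¹) := by
  have f : ρ φ * Y * ρ φ⁻¹ = Y := by rw [h1, mul_assoc, iv, mul_one]
  induction k with
  | zero => simp [hy.one]
  | succ k ih =>
    have e : ∀ x : M2 R, ρ (φ ^ (k + 1)) * x * ρ (φ ^ (k + 1))⁻¹ =
        ρ φ * (ρ (φ ^ k) * x * ρ (φ ^ k)⁻¹) * ρ φ⁻¹ := fun x => by
      rw [pow_succ', mul_inv_rev, map_mul, map_mul]; simp only [mul_assoc]
    refine ⟨by rw [e, ih.1, f], ?_⟩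
    rw [e, pow_succ', hy, ih.2, h2, mul_add, add_mul, mul_sub, sub_mul, mul_smul_comm,
      smul_mul_assoc, f, succ_nsmul]
    abel

/-- the local computation at an auxiliary prime -/
theorem loc (μ : R →+ ZMod 2) {c y : GQ → M2 R} (ho : IsOpen {g : GQ | ρ g = 1})
    (hc : Cc ρ c) (oc : Op c) (hy : Cc ρ y) (oy : Op y) {q : ℕ} {P : Ideal (𝓞 Qb)} {φ : GQ}
    {Y b : M2 R} (h : Ov q P) (h2 : q ≠ 2) (hφ : Fb q P φ) (y1 : ρ φ * Y = Y * ρ φ)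
    (y2 : y φ = Y + (b - ρ φ * b * ρ φ⁻¹))
    (ur : ∀ g, Inert P g → ρ g = 1) (uy : ∀ g, Inert P g → y g = 0) :
    ∃ u : GQ → ZMod 2, Ch (dec P) u ∧ Ch (dec P) (fun g => μ (c g * Y).trace) ∧
      (∀ g, Inert P g → u g = 0) ∧ u φ = 1 ∧
      Cb (dec P) (zz μ ρ c y - cup u fun g => μ (c g * Y).trace) := by
  obtain ⟨u, U, oU, u0, ua, ui, u1⟩ := RecP.ex_u (F := ZMod 2) h h2 hφ
  obtain ⟨V, oV, y0⟩ := id oy
  have lu : IsLocallyConstant u := RecP.lc U oU fun g σ hσ => by rw [ua, u0 σ hσ, add_zero]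
  have gen : ∀ g ∈ dec P, ρ g * Y * ρ g⁻¹ = Y ∧
      ∃ k : ℕ, y g = k • Y + (b - ρ g * b * ρ g⁻¹) ∧ u g = k := by
    intro g hg
    obtain ⟨k, s, v, hs, hv, rfl⟩ := dec_gen h.1 h.2.1 h.2.2 hφ hg (kr ρ ⊓ (U ⊓ V))
      (ho.inter (oU.inter oV))
    have v1 : ρ v = 1 := hv.1
    have a1 : ρ (v * φ ^ k * s) = ρ (φ ^ k) := by
      rw [map_mul, map_mul, v1, ur s hs, one_mul, mul_one]
    have a2 : ρ (v * φ ^ k * s)⁻¹ = ρ (φ ^ k)⁻¹ := by
      rw [mul_inv_rev, mul_inv_rev, map_mul, map_mul, r1 v1, r1 (ur s hs), one_mul, mul_one]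
    rw [a1, a2]
    refine ⟨(pw hy y1 y2 k).1, k, ?_, ?_⟩
    · rw [hy, uy s hs, mul_zero, zero_mul, add_zero, hy, y0 v hv.2.2, v1, r1 v1, zero_add,
        one_mul, mul_one, (pw hy y1 y2 k).2]
    · rw [ua, ua, ui s hs, u0 v hv.2.1, zero_add, add_zero]
      clear hg a1 a2
      induction k with
      | zero => simpa using ui 1 (inP P).one_mem
      | succ k ih => rw [pow_succ, ua, ih, u1]; push_cast; rfl
  have l1 := lcr ho
  have lψ : IsLocallyConstant fun g => μ (c g * Y).trace :=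
    (hc.lc oc).comp fun x => μ (x * Y).trace
  have aψ : ∀ g ∈ dec P, ∀ k, μ (c (g * k) * Y).trace = μ (c g * Y).trace + μ (c k * Y).trace :=
    fun g hg k => by
      rw [hc, add_mul, Matrix.trace_add, ← tr_ad (ρ := ρ) g (c k), (gen g hg).1, map_add]
  refine ⟨u, RecP.ch_of _ lu fun g _ k _ => ua g k, RecP.ch_of _ lψ fun g hg k _ => aψ g hg k,
    ui, u1, fun g => u g * μ (c g * Y).trace - μ (c g * (ρ g * b * ρ (g : GQ)⁻¹)).trace, ?_,
    fun g k => ?_⟩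
  · exact ((lu.mul lψ).sub (((hc.lc oc).mul ((l1.mul (IsLocallyConstant.const b)).mul
      (l1.comp_continuous continuous_inv))).comp fun m => μ m.trace)).comp_continuous
      continuous_subtype_val
  · obtain ⟨n, e2, e3⟩ := (gen k k.2).2
    have f := (gen g g.2).1
    have t := tr_ad (ρ := ρ) g (c k) (ρ k * b * ρ (k : GQ)⁻¹)
    have w : ρ (g * k : GQ) * b * ρ (g * k : GQ)⁻¹ =
        ρ g * (ρ k * b * ρ (k : GQ)⁻¹) * ρ (g : GQ)⁻¹ := by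
      rw [mul_inv_rev, map_mul, map_mul]; simp only [mul_assoc]
    have two : (2 : ZMod 2) = 0 := rfl
    simp only [rs, Pi.sub_apply, cup, zz, Subgroup.coe_mul, ua, aψ g g.2]
    have A1 : μ (c (g * k : GQ) * (ρ (g * k : GQ) * b * ρ (g * k : GQ)⁻¹)).trace =
        μ (c g * (ρ g * (ρ k * b * ρ (k : GQ)⁻¹) * ρ (g : GQ)⁻¹)).trace +
          μ (c k * (ρ k * b * ρ (k : GQ)⁻¹)).trace := by
      rw [w, hc g k, add_mul (c g), Matrix.trace_add, t, map_add]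
    have A2 : μ (c g * (ρ g * y k * ρ (g : GQ)⁻¹)).trace = u k * μ (c g * Y).trace +
        (μ (c g * (ρ g * b * ρ (g : GQ)⁻¹)).trace -
          μ (c g * (ρ g * (ρ k * b * ρ (k : GQ)⁻¹) * ρ (g : GQ)⁻¹)).trace) := by
      rw [e2, mul_add, add_mul, mul_sub, sub_mul, mul_smul_comm, smul_mul_assoc, f, mul_add,
        mul_sub, mul_smul_comm, Matrix.trace_add, Matrix.trace_sub, Matrix.trace_smul, map_add,
        map_sub, map_nsmul, nsmul_eq_mul, ← e3]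
    rw [A1, A2]
    linear_combination (u g * μ (c k * Y).trace) * two

/-- **reciprocity** -/
theorem rec1 (h2 : (2 : R) = 0) (ρ : GQ →* M2 R) (T Q : Finset ℕ) (D : ℕ → Set GQ)
    (P : ℕ → Ideal (𝓞 Qb)) (τ φ : ℕ → GQ) (c y : GQ → M2 R) (a Y b : ℕ → M2 R)
    (ho : IsOpen {g : GQ | ρ g = 1}) (h0 : 0 ∈ T) (hT2 : 2 ∈ T) (hD : ∀ l ∈ T, IsDec l (D l))
    (ur : ∀ l ∉ T, ∀ P : Ideal (𝓞 Qb), Ov l P → ∀ g, Inert P g → ρ g = 1)
    (hQ : ∀ q ∈ Q, q ∉ T ∧ Ov q (P q) ∧ Gn q (P q) (τ q) ∧ Fb q (P q) (φ q) ∧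
      ρ (φ q) * Y q = Y q * ρ (φ q) ∧ y (φ q) = Y q + (b q - ρ (φ q) * b q * ρ (φ q)⁻¹))
    (cc : Cc ρ c) (oc : Op c) (uc : Ur (T ∪ Q) c)
    (lc : ∀ l ∈ T, ∀ g ∈ D l, c g = a l - ρ g * a l * ρ g⁻¹)
    (cy : Cc ρ y) (oy : Op y) (uy : Ur T y) : ∑ q ∈ Q, (c (τ q) * Y q).trace = 0 := by
  classical
  refine sep (fun x => by rw [← two_mul, h2, zero_mul]) fun μ => ?_
  have zz2 := z2 μ ho cc oc cy oy
  have q2 : ∀ q ∈ Q, q ≠ 2 := fun q hq e => (hQ q hq).1 (e ▸ hT2)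
  choose u k1 k2 k3 k4 k5 using fun q : Q => loc μ ho cc oc cy oy (hQ q q.2).2.1 (q2 q q.2)
    (hQ q q.2).2.2.2.1 (hQ q q.2).2.2.2.2.1 (hQ q q.2).2.2.2.2.2
    (ur q (hQ q q.2).1 _ (hQ q q.2).2.1) (uy q (hQ q q.2).1 _ (hQ q q.2).2.1)
  rw [map_sum, ← Finset.sum_coe_sort Q]
  refine oneC (ZMod 2) ⊤ (zz μ ρ c y) Q (fun q => q) (fun q => P q) (fun q => τ q) (fun q => φ q) u
    (fun q g => μ (c g * Y q).trace) isOpen_univ (RecP.z2_le zz2 ⊤)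
    (fun q => ⟨(hQ q q.2).2.1, q2 q q.2, (hQ q q.2).2.2.1, (hQ q q.2).2.2.2.1, le_top⟩)
    (fun i j g _ hg => ?_) (fun q => ⟨k1 q, k2 q, k3 q, k4 q, k5 q⟩) (fun D' hD' => ?_)
    fun p P' hp hn => ?_
  · by_contra ne
    obtain ⟨a1, a2, a3⟩ := (hQ i i.2).2.1
    obtain ⟨b1, b2, b3⟩ := (hQ j j.2).2.1
    have e := (hg _).1 a3
    rw [show g • ((i : ℕ) : 𝓞 Qb) = (i : ℕ) from
      map_natCast (MulSemiringAction.toRingHom GQ (𝓞 Qb) g) _] at e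
    refine P027M.S.Loc.not_mem b2 b3 (c := (i : ℕ)) (Nat.isCoprime_iff_coprime.2
      ((Nat.coprime_primes b1 a1).2 fun k => ne (Subtype.ext k.symm))) (by exact_mod_cast e)
  · obtain ⟨-, c₀, k, e0⟩ | ⟨lp, -⟩ := hD'
    swap
    · exact absurd lp Nat.not_prime_zero
    obtain ⟨-, c₁, k1, e⟩ | ⟨lp, -⟩ := hD 0 h0
    swap
    · exact absurd lp Nat.not_prime_zero
    obtain ⟨t, ht⟩ := conj_conj k k1
    refine cb_of μ cy oy _ (c t + ρ t * a 0 * ρ t⁻¹) fun g hg => ?_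
    have hg' : g ∈ ({1, c₀} : Set GQ) := e0 ▸ hg.2
    rcases hg' with rfl | rfl
    · exact cob cc (g' := 1) (by group) (lc 0 h0 1 (by rw [e]; exact Or.inl rfl))
    · exact cob cc ht (lc 0 h0 c₁ (by rw [e]; exact Or.inr rfl))
  · by_cases hT : p ∈ T
    · obtain ⟨e, -⟩ | ⟨lp, P₀, p0, p1, e⟩ := hD p hT
      · exact absurd e hp.1.ne_zero
      obtain ⟨t, rfl⟩ := P027M.F.Tra.trans lp p0 hp.2.1 p1 hp.2.2
      exact cb_of μ cy oy _ (c t + ρ t * a p * ρ t⁻¹) fun g hg =>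
        cob cc (g' := t⁻¹ * g * t) (by group) (lc p hT _ (by rw [e]; exact stab_conj hg.2))
    have hq : p ∉ Q := fun hq => by
      obtain ⟨a1, a2, a3⟩ := (hQ p hq).2.1
      obtain ⟨t, rfl⟩ := P027M.F.Tra.trans a1 a2 hp.2.1 a3 hp.2.2
      exact hn ⟨p, hq⟩ t trivial fun x => Ideal.smul_mem_pointwise_smul_iff.symm
    refine unrC (ZMod 2) ⊤ p P' _ isOpen_univ hp (RecP.z2_le zz2 _) fun g _ h _ i _ hi => ?_
    have s1 := ur p hT P' hp i hi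
    have c1 := uc p (by simp [hT, hq]) P' hp i hi
    have y1 := uy p hT P' hp i hi
    simp only [zz, cc g i, cy h i, c1, y1, mul_inv_rev, map_mul, s1, r1 s1, mul_zero,
      zero_mul, add_zero, mul_one, one_mul, and_self]

/-- the value on inertia commutes with the decomposition group -/
theorem fx (h2 : (2 : R) = 0) {c : GQ → M2 R} (cc : Cc ρ c) (oc : Op c) {q : ℕ}
    {P : Ideal (𝓞 Qb)} (h : Ov q P) (q2 : q ≠ 2) (ur : ∀ g, Inert P g → ρ g = 1) {τ φ : GQ}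
    (hτ : Inert P τ) (hφ : φ ∈ dec P) : ρ φ * c τ * ρ φ⁻¹ = c τ := by
  have m2 : ∀ x : M2 R, x + x = 0 := fun x => by rw [← two_smul R, h2, zero_smul]
  obtain ⟨W, hW, c0⟩ := oc
  have := galQb
  obtain ⟨U, hU⟩ := ProfiniteGrp.exist_openNormalSubgroup_sub_open_nhds_of_one hW W.one_mem
  haveI : U.toOpenSubgroup.toSubgroup.Normal := U.isNormal'
  obtain ⟨t, ht, k⟩ := Rc.ti (F := ZMod 2) h.1 q2 h.2.1 h.2.2 (I := inP P) le_rfl
    U.toOpenSubgroup.toSubgroup U.toOpenSubgroup.isOpen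
  have key : ∀ s ∈ inP P, c s = 0 ∨ c s = c t := fun s hs => by
    obtain ⟨n, hn⟩ := k s hs
    have e : ∀ μ : M2 R →+ ZMod 2, μ (c s) = n * μ (c t) := fun μ =>
      hn (fun g => μ (c g))
        (fun a ha b _ => by rw [cc, ur a ha, r1 (ur a ha), one_mul, mul_one, map_add])
        fun a _ ha => by rw [c0 a (hU ha), map_zero]
    have z : ∀ x : ZMod 2, x = 0 ∨ x = 1 := by decide
    rcases z n with z | z
    · exact Or.inl (sep m2 fun μ => by rw [e, z, zero_mul])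
    · exact Or.inr (sub_eq_zero.1 (sep m2 fun μ => by rw [map_sub, e, z, one_mul, sub_self]))
  have e : c (φ * τ * φ⁻¹) = ρ φ * c τ * ρ φ⁻¹ := by
    have a := cc φ φ⁻¹
    rw [mul_inv_cancel, cc.one] at a
    rw [mul_assoc, cc, cc τ, ur τ hτ, r1 (ur τ hτ), one_mul, mul_one, mul_add, add_mul,
      add_left_comm, ← a, add_zero]
  rcases key τ hτ with z | z
  · rw [z, mul_zero, zero_mul]
  rcases key _ (conj_inP hφ hτ) with w | w
  · rw [e] at w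
    have : c τ = ρ φ⁻¹ * (ρ φ * c τ * ρ φ⁻¹) * ρ φ := by
      rw [← mul_assoc, ← mul_assoc, iv', one_mul, mul_assoc, iv', mul_one]
    rw [w, mul_zero, zero_mul] at this
    rw [this, mul_zero, zero_mul]
  · rw [← e, w, z]

theorem pol (x y : M2 R) : x * y + y * x =
    x.trace • y + y.trace • x + ((x * y).trace - x.trace * y.trace) • (1 : M2 R) := by
  ext i j
  fin_cases i <;> fin_cases j <;>
    simp [Matrix.mul_apply, Fin.sum_univ_two, Matrix.trace_fin_two] <;> ring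

/-- the decomposition for an element whose trace is a unit -/
theorem dcp (h2 : (2 : R) = 0) {φ : GQ} (hu : IsUnit (ρ φ).trace) (y : M2 R) :
    ∃ Y b : M2 R, ρ φ * Y = Y * ρ φ ∧ y = Y + (b - ρ φ * b * ρ φ⁻¹) := by
  have m2 : ∀ x : M2 R, x + x = 0 := fun x => by rw [← two_smul R, h2, zero_smul]
  obtain ⟨s, hs⟩ := hu.exists_left_inv
  refine ⟨s • (y.trace • ρ φ + ((ρ φ * y).trace - (ρ φ).trace * y.trace) • (1 : M2 R)),
    s • (y * ρ φ), ?_, ?_⟩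
  · simp only [mul_smul_comm, smul_mul_assoc, mul_add, add_mul, mul_one, one_mul]
  · have e := pol (ρ φ) y
    have f : ρ φ * (s • (y * ρ φ)) * ρ φ⁻¹ = s • (ρ φ * y) := by
      rw [mul_smul_comm, smul_mul_assoc, ← mul_assoc, mul_assoc _ (ρ φ), iv, mul_one]
    have g : ∀ a b : M2 R, a - b = b + a := fun a b => by
      rw [sub_eq_add_neg, neg_eq_of_add_eq_zero_left (m2 b), add_comm]
    rw [f, g, ← smul_add, e, ← smul_add, add_assoc ((ρ φ).trace • y), add_left_comm, m2,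
      add_zero, smul_smul, hs, one_smul]

/-- **reciprocity**, Frobenius elements with unit trace -/
theorem rec2 (h2 : (2 : R) = 0) (ρ : GQ →* M2 R) (T Q : Finset ℕ) (D : ℕ → Set GQ)
    (P : ℕ → Ideal (𝓞 Qb)) (τ φ : ℕ → GQ) (c y : GQ → M2 R) (a : ℕ → M2 R)
    (ho : IsOpen {g : GQ | ρ g = 1}) (h0 : 0 ∈ T) (hT2 : 2 ∈ T) (hD : ∀ l ∈ T, IsDec l (D l))
    (ur : ∀ l ∉ T, ∀ P : Ideal (𝓞 Qb), Ov l P → ∀ g, Inert P g → ρ g = 1)
    (hQ : ∀ q ∈ Q, q ∉ T ∧ Ov q (P q) ∧ Gn q (P q) (τ q) ∧ Fb q (P q) (φ q) ∧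
      IsUnit (ρ (φ q)).trace)
    (cc : Cc ρ c) (oc : Op c) (uc : Ur (T ∪ Q) c)
    (lc : ∀ l ∈ T, ∀ g ∈ D l, c g = a l - ρ g * a l * ρ g⁻¹)
    (cy : Cc ρ y) (oy : Op y) (uy : Ur T y) : ∑ q ∈ Q, (c (τ q) * y (φ q)).trace = 0 := by
  classical
  have ex : ∀ q : ℕ, ∃ Y b : M2 R, q ∈ Q →
      ρ (φ q) * Y = Y * ρ (φ q) ∧ y (φ q) = Y + (b - ρ (φ q) * b * ρ (φ q)⁻¹) := fun q => by
    by_cases hq : q ∈ Q
    · obtain ⟨Y, b, h⟩ := dcp h2 (hQ q hq).2.2.2.2 (y (φ q))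
      exact ⟨Y, b, fun _ => h⟩
    · exact ⟨0, 0, fun h => absurd h hq⟩
  choose Y b hY using ex
  rw [← rec1 h2 ρ T Q D P τ φ c y a Y b ho h0 hT2 hD ur (fun q hq =>
    ⟨(hQ q hq).1, (hQ q hq).2.1, (hQ q hq).2.2.1, (hQ q hq).2.2.2.1, hY q hq⟩) cc oc uc lc cy oy uy]
  refine Finset.sum_congr rfl fun q hq => ?_
  obtain ⟨a1, a2, a3, a4, -⟩ := hQ q hq
  have f := fx h2 cc oc a2 (fun e => a1 (e ▸ hT2)) (ur q a1 _ a2) a3.1 (phi_mem a2.1 a2.2.1 a4)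
  have t := tr_ad (ρ := ρ) (φ q) (c (τ q)) (b q)
  rw [f] at t
  rw [(hY q hq).2, mul_add, mul_sub, Matrix.trace_add, Matrix.trace_sub, t, sub_self, add_zero]

end Vale.Agent.P022G.RecR
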