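import Vale.Agent.P022G.Chain2
import Vale.Agent.P022G.Cat
import Vale.Agent.P022G.Conn.Dim
import Vale.Agent.P022D.CA.BlkDefs

/-!
# P022G: connectedness is kept by cutting with one equation
-/

set_option linter.all false

open IsLocalRing

namespace Vale.Agent.P022G.Trc

open Vale.Agent.P022D.CA Vale.Agent.P022G.Chain

variable {T : Type} [CommRing T]

/-- all the components have dimension at least `d + 1` and they are linked in dimension `d` -/
def CC (I : Ideal T) (d : ℕ) : Prop :=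
  (∀ q ∈ I.minimalPrimes, ((d + 1 : ℕ) : WithBot ℕ∞) ≤ ringKrullDim (T ⧸ q)) ∧ Cn I d

/-- the quotient has a field of coefficients -/
def Cf [IsLocalRing T] (I : Ideal T) : Prop :=
  ∃ (F : Type) (_ : Field F) (σ : F →+* T ⧸ I), ∀ t : T, ∃ c s,
    Ideal.Quotient.mk I s = σ c ∧ t - s ∈ maximalIdeal T

theorem Cf.mono [IsLocalRing T] {I I' : Ideal T} (h : Cf I) (hI : I ≤ I') : Cf I' := by
  obtain ⟨F, iF, σ, h⟩ := h
  refine ⟨F, iF, (Ideal.Quotient.factor hI).comp σ, fun t => ?_⟩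
  obtain ⟨c, s, h1, h2⟩ := h t
  exact ⟨c, s, by rw [RingHom.comp_apply, ← h1]; rfl, h2⟩

theorem cn_congr {I I' : Ideal T} (h : ∀ E : Ideal T, E.IsPrime → (I ≤ E ↔ I' ≤ E)) {d : ℕ}
    (H : Cn I d) : Cn I' d := fun E E' hE hE' =>
  (H E E' ⟨hE.1, (h E hE.1).2 hE.2.1, hE.2.2⟩ ⟨hE'.1, (h E' hE'.1).2 hE'.2.1, hE'.2.2⟩).lift id
    fun a b l => ⟨⟨l.1.1, (h a l.1.1).1 l.1.2.1, l.1.2.2⟩,
      ⟨l.2.1.1, (h b l.2.1.1).1 l.2.1.2.1, l.2.1.2.2⟩, l.2.2⟩

theorem cc_prime {q : Ideal T} (hq : q.IsPrime) {d : ℕ}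
    (h : ((d + 1 : ℕ) : WithBot ℕ∞) ≤ ringKrullDim (T ⧸ q)) : CC q d := by
  refine ⟨fun r hr => ?_, cn_of_fam {q} (fun E hE => ?_) (fun E _ hE => ⟨q, rfl, hE⟩) ?_⟩
  · rw [Ideal.minimalPrimes_eq_subsingleton_self] at hr
    rwa [show r = q from hr]
  · rw [show E = q from hE]; exact ⟨hq, le_rfl, h⟩
  · intro E hE E' hE'
    rw [show E = q from hE, show E' = q from hE']

theorem dim_qq (q : Ideal T) (K : Ideal T) :
    ringKrullDim ((T ⧸ q) ⧸ K.map (Ideal.Quotient.mk q)) = ringKrullDim (T ⧸ (q ⊔ K)) :=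
  ringKrullDim_eq_of_ringEquiv (DoubleQuot.quotQuotEquivQuotSup q K)

variable [IsLocalRing T] [IsNoetherianRing T] [IsPrecomplete (maximalIdeal T) T]

theorem df {q : Ideal T} (hq : q.IsPrime) (hF : Cf q) {f : T} (hf : f ∈ maximalIdeal T)
    {a b : Ideal T} (hab : a * b ≤ (q ⊔ Ideal.span {f}).radical) {k : ℕ}
    (hB : ((k + 2 : ℕ) : WithBot ℕ∞) ≤ ringKrullDim (T ⧸ q))
    (hk : ¬ (k : WithBot ℕ∞) ≤ ringKrullDim (T ⧸ (q ⊔ (Ideal.span {f} ⊔ a ⊔ b)))) :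
    a ≤ (q ⊔ Ideal.span {f}).radical ∨ b ≤ (q ⊔ Ideal.span {f}).radical := by
  obtain ⟨F, iF, σ, hσ⟩ := hF
  have hs : Function.Surjective (Ideal.Quotient.mk q) := Ideal.Quotient.mk_surjective
  haveI : IsDomain (T ⧸ q) := Ideal.Quotient.isDomain q
  haveI : IsLocalRing (T ⧸ q) := .of_surjective' _ hs
  have hm : (maximalIdeal T).map (Ideal.Quotient.mk q) = maximalIdeal (T ⧸ q) :=
    map_maximalIdeal_of_surjective _ hs
  haveI : IsPrecomplete (maximalIdeal (T ⧸ q)) (T ⧸ q) := hm ▸ isPrecomplete_of_surj _ hs _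
  haveI : IsAdicComplete (maximalIdeal (T ⧸ q)) (T ⧸ q) := {}
  have e : Ideal.span {Ideal.Quotient.mk q f} = (Ideal.span {f}).map (Ideal.Quotient.mk q) := by
    rw [Ideal.map_span, Set.image_singleton]
  have key : ∀ c : Ideal T, c.map (Ideal.Quotient.mk q) ≤
      (Ideal.span {Ideal.Quotient.mk q f}).radical ↔ c ≤ (q ⊔ Ideal.span {f}).radical := fun c => by
    rw [Ideal.map_le_iff_le_comap, Ideal.comap_radical, e,
      Ideal.comap_map_of_surjective _ hs, ← RingHom.ker_eq_comap_bot, Ideal.mk_ker, sup_comm]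
  rw [← key, ← key]
  refine Conn.dimform σ (fun x => ?_) (hm ▸ Ideal.mem_map_of_mem _ hf) (k := k) ?_ hB ?_
  · obtain ⟨t, rfl⟩ := hs x
    obtain ⟨c, s, h1, h2⟩ := hσ t
    exact ⟨c, by rw [← h1, ← map_sub]; exact hm ▸ Ideal.mem_map_of_mem _ h2⟩
  · rw [← Ideal.map_mul, key]; exact hab
  · rwa [e, ← Ideal.map_sup, ← Ideal.map_sup, dim_qq]

end Vale.Agent.P022G.Trc

namespace Vale.Agent.P022G.Trc

open Vale.Agent.P022D.CA Vale.Agent.P022G.Chain

variable {T : Type} [CommRing T] [IsRegularLocalRing T] [IsPrecomplete (maximalIdeal T) T]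

/-- **cutting with one equation** -/
theorem cut {I : Ideal T} (hF : Cf I) {d : ℕ} (H : CC I (d + 1)) {f : T}
    (hf : f ∈ maximalIdeal T) : CC (I ⊔ Ideal.span {f}) d := by
  classical
  set K := I ⊔ Ideal.span {f} with hK
  have hmin : ∀ r ∈ K.minimalPrimes, ∃ q ∈ I.minimalPrimes, q ≤ r ∧
      ((d + 1 : ℕ) : WithBot ℕ∞) ≤ ringKrullDim (T ⧸ r) := fun r hr => by
    have := hr.1.1
    obtain ⟨q, hq, hqr⟩ := Ideal.exists_minimalPrimes_le (I := I) (J := r)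
      (le_sup_left.trans hr.1.2)
    refine ⟨q, hq, hqr, P022G.Cat.cat_min (x := f) hq.1.1 ⟨⟨hr.1.1, sup_le hqr
      (le_sup_right.trans hr.1.2)⟩, fun y hy hle => hr.2 ⟨hy.1, sup_le
        (hq.1.2.trans (le_sup_left.trans hy.2)) (le_sup_right.trans hy.2)⟩ hle⟩ (H.1 q hq)⟩
  have hd : ∀ r ∈ K.minimalPrimes, Pd K (d + 1) r := fun r hr =>
    ⟨hr.1.1, hr.1.2, (hmin r hr).choose_spec.2.2⟩
  refine ⟨fun r hr => (hd r hr).2.2, cn_of_fam K.minimalPrimes hd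
    (fun E hE h => Ideal.exists_minimalPrimes_le h) fun r0 hr0 r1 hr1 => ?_⟩
  by_contra hn
  have hfin : K.minimalPrimes.Finite := Ideal.finite_minimalPrimes_of_isNoetherianRing T _
  let R : Ideal T → Prop := Relation.ReflTransGen (fun F F' : Ideal T => F ∈ K.minimalPrimes ∧
    F' ∈ K.minimalPrimes ∧ (d : WithBot ℕ∞) ≤ ringKrullDim (T ⧸ (F ⊔ F'))) r0
  let a : Ideal T := (hfin.toFinset.filter R).inf id
  let b : Ideal T := (hfin.toFinset.filter fun r => ¬ R r).inf id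
  have ha : ∀ p : Ideal T, p.IsPrime → a ≤ p → ∃ r ∈ K.minimalPrimes, R r ∧ r ≤ p :=
    fun p hp h => by
      obtain ⟨r, hr, h⟩ := (Ideal.IsPrime.inf_le' hp).1 h
      exact ⟨r, hfin.mem_toFinset.1 (Finset.mem_filter.1 hr).1, (Finset.mem_filter.1 hr).2, h⟩
  have hb : ∀ p : Ideal T, p.IsPrime → b ≤ p → ∃ r ∈ K.minimalPrimes, ¬ R r ∧ r ≤ p :=
    fun p hp h => by
      obtain ⟨r, hr, h⟩ := (Ideal.IsPrime.inf_le' hp).1 h
      exact ⟨r, hfin.mem_toFinset.1 (Finset.mem_filter.1 hr).1, (Finset.mem_filter.1 hr).2, h⟩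
  have hab : ∀ L : Ideal T, a ≤ L.radical → b ≤ L.radical →
      ¬ (d : WithBot ℕ∞) ≤ ringKrullDim (T ⧸ L) := fun L h1 h2 h => by
    obtain ⟨p, hp, hle, hpd⟩ := dimGE_prime h
    obtain ⟨r, hr, hR, hrp⟩ := ha p hp (h1.trans (hp.radical_le_iff.2 hle))
    obtain ⟨r', hr', hR', hrp'⟩ := hb p hp (h2.trans (hp.radical_le_iff.2 hle))
    exact hR' (hR.tail ⟨hr, hr', dimGE_mono (sup_le hrp hrp') hpd⟩)
  have hmul : a * b ≤ K.radical := by
    rw [← Ideal.sInf_minimalPrimes]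
    refine le_sInf fun r hr => ?_
    by_cases h : R r
    · exact Ideal.mul_le_left.trans
        (Finset.inf_le (Finset.mem_filter.2 ⟨hfin.mem_toFinset.2 hr, h⟩))
    · exact Ideal.mul_le_right.trans
        (Finset.inf_le (Finset.mem_filter.2 ⟨hfin.mem_toFinset.2 hr, h⟩))
  have alt : ∀ q, Pd I (d + 1 + 1) q →
      a ≤ (q ⊔ Ideal.span {f}).radical ∨ b ≤ (q ⊔ Ideal.span {f}).radical := fun q hq =>
    df hq.1 (hF.mono hq.2.1) hf (hmul.trans (Ideal.radical_mono (sup_le_sup_right hq.2.1 _)))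
      hq.2.2 (hab _ (le_trans (le_sup_right.trans (le_sup_left.trans le_sup_right))
        Ideal.le_radical) (le_trans (le_sup_right.trans le_sup_right) Ideal.le_radical))
  obtain ⟨q0, hq0, l0, -⟩ := hmin r0 hr0
  obtain ⟨q1, hq1, l1, -⟩ := hmin r1 hr1
  have p0 : Pd I (d + 1 + 1) q0 := ⟨hq0.1.1, hq0.1.2, H.1 q0 hq0⟩
  have p1 : Pd I (d + 1 + 1) q1 := ⟨hq1.1.1, hq1.1.2, H.1 q1 hq1⟩
  have eqm : ∀ r ∈ K.minimalPrimes, ∀ r' ∈ K.minimalPrimes, r ≤ r' → r = r' :=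
    fun r hr r' hr' h => le_antisymm h (hr'.2 hr.1 h)
  have a0 : a ≤ (q0 ⊔ Ideal.span {f}).radical := (alt q0 p0).resolve_right fun h => by
    obtain ⟨r, hr, hR, hle⟩ := hb r0 hr0.1.1 (h.trans (hr0.1.1.radical_le_iff.2
      (sup_le l0 (le_sup_right.trans hr0.1.2))))
    exact hR (eqm r hr r0 hr0 hle ▸ Relation.ReflTransGen.refl)
  have a1 : a ≤ (q1 ⊔ Ideal.span {f}).radical := by
    have h := H.2 q0 q1 p0 p1
    clear p1 l1 hq1
    induction h with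
    | refl => exact a0
    | @tail x y _ hl ih =>
      refine (alt y hl.2.1).resolve_right fun h => hab ((x ⊔ y) ⊔ Ideal.span {f})
        (ih.trans (Ideal.radical_mono (sup_le_sup_right le_sup_left _)))
        (h.trans (Ideal.radical_mono (sup_le_sup_right le_sup_right _))) (dimGE_sup hf hl.2.2)
  obtain ⟨r, hr, hR, hle⟩ := ha r1 hr1.1.1 (a1.trans (hr1.1.1.radical_le_iff.2
    (sup_le l1 (le_sup_right.trans hr1.1.2))))
  exact hn (eqm r hr r1 hr1 hle ▸ hR)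

/-- cutting with a list of equations -/
theorem cut_list (fs : List T) : ∀ {I : Ideal T} {d : ℕ}, Cf I → CC I (d + fs.length) →
    (∀ f ∈ fs, f ∈ maximalIdeal T) → CC (I ⊔ Ideal.ofList fs) d := by
  induction fs with
  | nil => intro I d _ H _; simpa using H
  | cons f fs ih =>
    intro I d hF H hm
    rw [Ideal.ofList_cons, ← sup_assoc]
    exact ih (hF.mono le_sup_left) (cut hF H (hm f (by simp))) fun g hg => hm g (by simp [hg])

end Vale.Agent.P022G.Trc
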