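import Vale.Agent.P022G.Trc0

/-!
# P022G: passage from the framed ring to the ring of traces
-/

set_option linter.all false

open IsLocalRing

namespace Vale.Agent.P022G.Trc

open Vale.Agent.P022D.CA Vale.Agent.P022G.Chain

section
variable {P₀ P : Type} [CommRing P₀] [CommRing P]

/-- outside the locus of `N` the image of a prime loses at most `e` dimensions -/
def Down (φ : P₀ →+* P) (I N : Ideal P) (e : ℕ) : Prop :=
  ∀ q : Ideal P, q.IsPrime → I ≤ q → ¬ N ≤ q → ∀ k : ℕ,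
    ((k + e : ℕ) : WithBot ℕ∞) ≤ ringKrullDim (P ⧸ q) →
    (k : WithBot ℕ∞) ≤ ringKrullDim (P₀ ⧸ q.comap φ)

/-- the property of the Reynolds operator -/
def Rey (φ : P₀ →+* P) (I : Ideal P) : Prop :=
  ∀ a : Ideal P₀, (I ⊔ a.map φ).comap φ ≤ I.comap φ ⊔ a

theorem pull [IsNoetherianRing P] (φ : P₀ →+* P) {I N : Ideal P} {e d : ℕ} (H : CC I (d + e))
    (hD : Down φ I N e)
    (hR : ¬ ((d + e : ℕ) : WithBot ℕ∞) ≤ ringKrullDim (P ⧸ (I ⊔ N))) : CC (I.comap φ) d := by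
  have nr : ∀ q : Ideal P, I ≤ q → ((d + e : ℕ) : WithBot ℕ∞) ≤ ringKrullDim (P ⧸ q) →
      ¬ N ≤ q := fun q hq h hN => hR (dimGE_mono (sup_le hq hN) h)
  have pd : ∀ q, Pd I (d + e + 1) q → Pd (I.comap φ) (d + 1) (q.comap φ) := fun q hq => by
    have := hq.1
    exact ⟨Ideal.comap_isPrime φ q, Ideal.comap_mono hq.2.1, hD q hq.1 hq.2.1
      (nr q hq.2.1 (hq.mono le_rfl (Nat.le_succ _)).2.2) _ (by
        rw [show d + 1 + e = d + e + 1 by omega]; exact hq.2.2)⟩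
  have cov : ∀ E : Ideal P₀, E.IsPrime → I.comap φ ≤ E →
      ∃ q, Pd I (d + e + 1) q ∧ q.comap φ ≤ E := fun E hE h => by
    obtain ⟨r, hr, hrE⟩ := Ideal.exists_minimalPrimes_le h
    obtain ⟨q, hq, rfl⟩ := Ideal.exists_minimalPrimes_comap_eq φ r hr
    exact ⟨q, ⟨hq.1.1, hq.1.2, H.1 q hq⟩, hrE⟩
  refine ⟨fun r hr => ?_, cn_of_fam ((fun q => q.comap φ) '' {q | Pd I (d + e + 1) q}) ?_ ?_ ?_⟩
  · obtain ⟨q, hq, hle⟩ := cov r hr.1.1 hr.1.2
    rw [le_antisymm (hr.2 ⟨(pd q hq).1, (pd q hq).2.1⟩ hle) hle]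
    exact (pd q hq).2.2
  · rintro _ ⟨q, hq, rfl⟩
    exact pd q hq
  · intro E hE h
    obtain ⟨q, hq, hle⟩ := cov E hE h
    exact ⟨_, ⟨q, hq, rfl⟩, hle⟩
  · rintro _ ⟨q, hq, rfl⟩ _ ⟨q', hq', rfl⟩
    refine (H.2 q q' hq hq').lift (fun q => q.comap φ) ?_
    intro a b l
    refine ⟨⟨a, l.1, rfl⟩, ⟨b, l.2.1, rfl⟩, ?_⟩
    obtain ⟨r, hr, hle, hd⟩ := dimGE_prime l.2.2
    have hI : I ≤ r := l.1.2.1.trans (le_sup_left.trans hle)
    exact dimGE_mono (sup_le (Ideal.comap_mono (le_sup_left.trans hle))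
      (Ideal.comap_mono (le_sup_right.trans hle))) (hD r hr hI (nr r hI hd) d hd)

/-- the primes over `I.comap φ + a` contain everything which vanishes on `V(I + a P)` -/
theorem rey_le {φ : P₀ →+* P} {I : Ideal P} (h : Rey φ I) {a c : Ideal P₀}
    (hc : c.map φ ≤ (I ⊔ a.map φ).radical) {E : Ideal P₀} (hE : E.IsPrime)
    (hle : I.comap φ ⊔ a ≤ E) : c ≤ E := fun u hu => by
  obtain ⟨k, hk⟩ := hc (Ideal.mem_map_of_mem φ hu)
  rw [← map_pow] at hk
  exact hE.mem_of_pow_mem k (hle (h a hk))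

theorem rey_of_surj {φ : P₀ →+* P} {I : Ideal P} (h : ∀ x, ∃ u, x - φ u ∈ I) : Rey φ I := by
  intro a u hu
  obtain ⟨i, hi, y, hy, e⟩ := Submodule.mem_sup.1 (Ideal.mem_comap.1 hu)
  have key : ∀ y ∈ a.map φ, ∃ v ∈ a, y - φ v ∈ I := by
    intro y hy
    refine Submodule.span_induction (p := fun y _ => ∃ v ∈ a, y - φ v ∈ I) ?_ ?_ ?_ ?_ hy
    · rintro _ ⟨v, hv, rfl⟩; exact ⟨v, hv, by simp⟩
    · exact ⟨0, a.zero_mem, by simp⟩
    · rintro x y _ _ ⟨v, hv, h1⟩ ⟨w, hw, h2⟩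
      exact ⟨v + w, a.add_mem hv hw, by
        rw [map_add, add_sub_add_comm]; exact I.add_mem h1 h2⟩
    · rintro s x _ ⟨v, hv, h1⟩
      obtain ⟨w, hw⟩ := h s
      refine ⟨w * v, a.mul_mem_left w hv, ?_⟩
      have : s • x - φ (w * v) = s * (x - φ v) + φ v * (s - φ w) := by
        rw [map_mul, smul_eq_mul]; ring
      rw [this]
      exact I.add_mem (I.mul_mem_left _ h1) (I.mul_mem_left _ hw)
  obtain ⟨v, hv, h1⟩ := key y hy
  refine Submodule.mem_sup.2 ⟨u - v, ?_, v, hv, by ring⟩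
  rw [Ideal.mem_comap, map_sub, ← e, add_sub_assoc]
  exact I.add_mem hi h1

theorem rey_of_pr {φ : P₀ →+* P} {I : Ideal P} (pr : P →+ P) (h1 : ∀ u x, pr (φ u * x) = φ u * pr x)
    (h2 : pr 1 = 1) (h3 : ∀ x, ∃ u, pr x = φ u) (h4 : ∀ x ∈ I, pr x ∈ I) : Rey φ I := by
  intro a u hu
  obtain ⟨i, hi, y, hy, e⟩ := Submodule.mem_sup.1 (Ideal.mem_comap.1 hu)
  have key : ∀ y ∈ a.map φ, ∀ s, ∃ v ∈ a, pr (s * y) = φ v := by
    intro y hy
    refine Submodule.span_induction (p := fun y _ => ∀ s, ∃ v ∈ a, pr (s * y) = φ v)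
      ?_ ?_ ?_ ?_ hy
    · rintro _ ⟨v, hv, rfl⟩ s
      obtain ⟨w, hw⟩ := h3 s
      exact ⟨v * w, a.mul_mem_right w hv, by rw [mul_comm, h1, hw, map_mul]⟩
    · exact fun s => ⟨0, a.zero_mem, by simp⟩
    · intro x y _ _ hx hy s
      obtain ⟨v, hv, e1⟩ := hx s
      obtain ⟨w, hw, e2⟩ := hy s
      exact ⟨v + w, a.add_mem hv hw, by rw [mul_add, map_add, e1, e2, map_add]⟩
    · intro r x _ hx s
      rw [smul_eq_mul, ← mul_assoc]
      exact hx _
  obtain ⟨v, hv, e1⟩ := key y hy 1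
  refine Submodule.mem_sup.2 ⟨u - v, ?_, v, hv, by ring⟩
  have e2 : φ u = pr i + pr y := by
    rw [← map_add, e, ← mul_one (φ u), h1, h2]
  rw [one_mul] at e1
  rw [Ideal.mem_comap, map_sub, e2, ← e1, add_sub_cancel_right]
  exact h4 i hi

theorem down_of_surj {φ : P₀ →+* P} {I : Ideal P} (h : ∀ x, ∃ u, x - φ u ∈ I) (N : Ideal P) :
    Down φ I N 0 := fun q _ hI _ k hk => by
  refine hk.trans (ringKrullDim_le_of_surjective (Ideal.quotientMap q φ le_rfl) fun x => ?_)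
  obtain ⟨x, rfl⟩ := Ideal.Quotient.mk_surjective x
  obtain ⟨u, hu⟩ := h x
  exact ⟨Ideal.Quotient.mk _ u, by
    rw [Ideal.quotientMap_mk, eq_comm, Ideal.Quotient.eq]; exact hI hu⟩

end

section
variable {P₀ P : Type} [CommRing P₀] [CommRing P] [IsRegularLocalRing P₀] [IsRegularLocalRing P]
  [IsPrecomplete (maximalIdeal P₀) P₀] [IsPrecomplete (maximalIdeal P) P]

/-- the data: `q₀` the special fibre of the framed ring, `fs` the homogeneous equations, `gs` the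
invariant equations, `K` the ideal of the pseudo characters of the given type -/
structure TD (φ : P₀ →+* P) (q₀ N : Ideal P) (e : ℕ) (fs : List P) (gs : List P₀)
    (K : Ideal P₀) (d : ℕ) : Prop where
  pr : q₀.IsPrime
  dim : ((d + e + gs.length + fs.length : ℕ) : WithBot ℕ∞) ≤ ringKrullDim (P ⧸ q₀)
  down : Down φ (q₀ ⊔ Ideal.ofList fs) N e
  le : K.map φ ≤ (q₀ ⊔ Ideal.ofList fs ⊔ (Ideal.ofList gs).map φ).radical

/-- **pres**: a component of dimension `d` through the image of a framed point -/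
theorem TD.pres {φ : P₀ →+* P} {q₀ N : Ideal P} {e : ℕ} {fs : List P} {gs : List P₀}
    {K : Ideal P₀} {d : ℕ} (H : TD φ q₀ N e fs gs K d) {p : Ideal P} (hp : p.IsPrime)
    (h0 : q₀ ≤ p) (hf : ∀ f ∈ fs, f ∈ p) (hg : ∀ g ∈ gs, φ g ∈ p) (hN : ¬ N ≤ p) :
    ∃ E, Pd K d E ∧ E ≤ p.comap φ ∧ q₀.comap φ ≤ E := by
  obtain ⟨q, hq, h1, h2, h3, h4⟩ := P022G.Cat.cat_list (fs ++ gs.map φ) H.pr hp h0
    (fun f h => by
      rcases List.mem_append.1 h with h | h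
      · exact hf f h
      · obtain ⟨g, h', rfl⟩ := List.mem_map.1 h
        exact hg g h') (k := d + e) (by
      rw [List.length_append, List.length_map,
        show d + e + (fs.length + gs.length) = d + e + gs.length + fs.length by omega]
      exact H.dim)
  have hI : q₀ ⊔ Ideal.ofList fs ≤ q :=
    sup_le h1 (Ideal.span_le.2 fun f h => h2 f (List.mem_append_left _ h))
  refine ⟨q.comap φ, ⟨Ideal.comap_isPrime φ q, ?_, H.down q hq hI (fun h => hN (h.trans h3)) d h4⟩,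
    Ideal.comap_mono h3, Ideal.comap_mono h1⟩
  rw [← Ideal.map_le_iff_le_comap]
  refine H.le.trans (hq.radical_le_iff.2 (sup_le hI ?_))
  rw [Ideal.map_le_iff_le_comap]
  exact Ideal.span_le.2 fun g h => h2 _ (List.mem_append_right _ (List.mem_map_of_mem h))

/-- **conn** -/
theorem TD.conn {φ : P₀ →+* P} {q₀ N : Ideal P} {e : ℕ} {fs : List P} {gs : List P₀}
    {K : Ideal P₀} {d : ℕ} (H : TD φ q₀ N e fs gs K (d + 1)) (c : Cf q₀) (c₀ : Cf (q₀.comap φ))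
    (hf : ∀ f ∈ fs, f ∈ maximalIdeal P) (hg : ∀ g ∈ gs, g ∈ K) (hK : K ≠ ⊤)
    (rey : Rey φ (q₀ ⊔ Ideal.ofList fs))
    (red : ¬ ((d + gs.length + e : ℕ) : WithBot ℕ∞) ≤
      ringKrullDim (P ⧸ (q₀ ⊔ Ideal.ofList fs ⊔ N)))
    (lift : ∀ p, Cv p → K ≤ p → (q₀ ⊔ Ideal.ofList fs).comap φ ≤ p) : Cn K d := by
  have h1 : CC (q₀ ⊔ Ideal.ofList fs) (d + gs.length + e) :=
    cut_list fs c (cc_prime H.pr (by
      rw [show d + gs.length + e + fs.length + 1 = d + 1 + e + gs.length + fs.length by omega]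
      exact H.dim)) hf
  have h2 := cut_list gs (c₀.mono (Ideal.comap_mono le_sup_left)) (pull φ h1 H.down red)
    fun g h => le_maximalIdeal hK (hg g h)
  have hne : (q₀ ⊔ Ideal.ofList fs).comap φ ≠ ⊤ := Ideal.comap_ne_top φ (ne_top_of_le_ne_top
    (maximalIdeal.isMaximal P).ne_top (sup_le (le_maximalIdeal H.pr.ne_top) (Ideal.span_le.2 hf)))
  exact cn_congr (fun E hE => ⟨fun h => rey_le rey H.le hE h, fun h =>
    sup_le (le_of_cv' hne lift hE h) ((Ideal.span_le.2 hg).trans h)⟩) h2.2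

end

end Vale.Agent.P022G.Trc
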