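import Vale.Agent.P022G.Up
import Vale.Agent.P022G.Flat

/-! UP from the chart of solved polynomial equations. -/

noncomputable section

open MvPowerSeries IsLocalRing

namespace P022G.Up

open P022G.Sum Vale.Agent.P022G Vale.Agent.P022D

theorem reg2 {σ ω O : Type} [Fintype σ] [Fintype ω] [CommRing O] [IsDomain O]
    [IsDiscreteValuationRing O] : IsRegularLocalRing (MvPowerSeries σ (MvPowerSeries ω O)) := by
  obtain ⟨π, hπ⟩ := IsDiscreteValuationRing.exists_irreducible O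
  have h := (Rl.Ch0.reg (σ := ω ⊕ σ)
    ((IsDiscreteValuationRing.irreducible_iff_uniformizer π).1 hπ)).1
  exact IsRegularLocalRing.of_ringEquiv (sumEquiv ω σ O)

/-- UP along a surjection from a power series extension. -/
theorem up_surj {A R B : Type} [CommRing A] [CommRing R] [CommRing B] [IsNoetherianRing A]
    [IsLocalRing A] [IsRegularLocalRing R] {C : A →+* R} {ι κ : Type} [Fintype ι] [Fintype κ]
    {z : ι → R} (h : Ext C z) (φ : A →+* B) (ψ : R →+* B) (hψ : Function.Surjective ψ)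
    (hφ : ∀ a, ψ (C a) = φ a) {c : Ideal A} {N 𝔭 : Ideal B} (hp : 𝔭.IsPrime)
    (f : κ → R) (hf : ∀ i, ψ (f i) ∈ 𝔭) {a : ℕ} (ha : a + Fintype.card κ ≤ Fintype.card ι)
    (hL : ∀ 𝔮 : Ideal R, 𝔮.IsPrime → 𝔮 ≤ 𝔭.comap ψ → c.map C ≤ 𝔮 → (∀ i, f i ∈ 𝔮) →
      N.comap ψ ≤ 𝔮)
    (η : Ideal A) (hη : η.IsPrime) (h1 : c ≤ η) (h2 : η ≤ 𝔭.comap φ) :
    ∃ η' : Ideal B, η'.IsPrime ∧ η' ≤ 𝔭 ∧ η.map φ ⊔ N ≤ η' ∧
      ((a : ℕ) : WithBot ℕ∞) + ringKrullDim (A ⧸ η) ≤ ringKrullDim (B ⧸ η') := by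
  have hc : φ = ψ.comp C := RingHom.ext fun a => (hφ a).symm
  obtain ⟨Q, q1, q2, q3, q4⟩ := up h (Ideal.comap_isPrime ψ 𝔭) f hf ha hL η hη h1
    (by rw [Ideal.comap_comap, ← hc]; exact h2)
  have hk : RingHom.ker ψ ≤ Q :=
    (Ideal.comap_mono (bot_le (a := N))).trans (le_sup_right.trans q3)
  have he : (Q.map ψ).comap ψ = Q := by
    rw [Ideal.comap_map_of_surjective _ hψ]
    exact sup_eq_left.2 hk
  refine ⟨Q.map ψ, Ideal.map_isPrime_of_surjective hψ hk, Ideal.map_le_iff_le_comap.2 q2,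
    sup_le ?_ ?_, ?_⟩
  · rw [hc, ← Ideal.map_map]
    exact Ideal.map_mono (le_sup_left.trans q3)
  · rw [← Ideal.map_comap_of_surjective ψ hψ N]
    exact Ideal.map_mono (le_sup_right.trans q3)
  · have hs : Function.Surjective ((Ideal.Quotient.mk (Q.map ψ)).comp ψ) :=
      Ideal.Quotient.mk_surjective.comp hψ
    have hk2 : Q = RingHom.ker ((Ideal.Quotient.mk (Q.map ψ)).comp ψ) := by
      rw [← RingHom.comap_ker, Ideal.mk_ker, he]
    rw [← ringKrullDim_eq_of_ringEquiv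
      ((Ideal.quotEquivOfEq hk2).trans (RingHom.quotientKerEquivOfSurjective hs))]
    exact q4

/-- UP in the setting of `Flat.col_ps` and `Flat.Col.surj`. -/
theorem up_chart {A B σ τ : Type} [CommRing A] [CommRing B] [IsNoetherianRing A] [IsLocalRing A]
    [Fintype σ] [Fintype τ] [IsRegularLocalRing (MvPowerSeries σ A)] (j : τ → σ)
    (hi : Function.Injective j) (e g : σ → MvPolynomial τ A)
    (hj : ∀ t, g (j t) = e (j t) * MvPolynomial.X t) (φ : A →+* B) (ψ : MvPowerSeries σ A →+* B)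
    (hψ : Function.Surjective ψ) (hφ : ∀ a, ψ (C a) = φ a) {c : Ideal A} {N 𝔭 : Ideal B}
    (hp : 𝔭.IsPrime) (hN : N ≤ 𝔭) {ε : MvPowerSeries σ A} (hε : ψ ε ∉ 𝔭)
    (h1 : ∀ v ∈ (Flat.N0 j e g).map (algebraMap (MvPolynomial σ A) (MvPowerSeries σ A)),
      ψ v ∈ c.map φ ⊔ N)
    (h2 : ∀ v, ψ v ∈ N → v ∈ Flat.sat (c.map C ⊔
      (Flat.N0 j e g).map (algebraMap (MvPolynomial σ A) (MvPowerSeries σ A))) ε)
    (η : Ideal A) (hη : η.IsPrime) (hc : c ≤ η) (hp0 : η ≤ 𝔭.comap φ) :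
    ∃ η' : Ideal B, η'.IsPrime ∧ η' ≤ 𝔭 ∧ η.map φ ⊔ N ≤ η' ∧
      ((Fintype.card τ : ℕ) : WithBot ℕ∞) + ringKrullDim (A ⧸ η) ≤ ringKrullDim (B ⧸ η') := by
  classical
  refine up_surj (ext_C σ) φ ψ hψ hφ hp
    (fun s : {s // s ∉ Set.range j} => algebraMap (MvPolynomial σ A) (MvPowerSeries σ A)
      (MvPolynomial.rename j (e s.1) * MvPolynomial.X s.1 - MvPolynomial.rename j (g s.1)))
    (fun s => ?_) ?_ (fun 𝔮 hq k1 k2 k3 v hv => ?_) η hη hc hp0
  · refine (sup_le (Ideal.map_le_iff_le_comap.2 (hc.trans hp0)) hN) (h1 _ ?_)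
    exact Ideal.mem_map_of_mem _ (Ideal.subset_span ⟨s.1, rfl⟩)
  · rw [Fintype.card_subtype_compl, Set.card_range_of_injective hi]
    have := Fintype.card_le_of_injective j hi
    omega
  · obtain ⟨k, hk⟩ := h2 v hv
    have k4 : (Flat.N0 j e g).map (algebraMap (MvPolynomial σ A) (MvPowerSeries σ A)) ≤ 𝔮 := by
      rw [Ideal.map_le_iff_le_comap, Flat.N0, Ideal.span_le]
      rintro _ ⟨s, rfl⟩
      by_cases hs : s ∈ Set.range j
      · obtain ⟨t, rfl⟩ := hs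
        have : MvPolynomial.rename j (e (j t)) * MvPolynomial.X (j t) -
            MvPolynomial.rename j (g (j t)) = 0 := by
          rw [hj, map_mul, MvPolynomial.rename_X, sub_self]
        show _ ∈ 𝔮.comap _
        simp only [this]
        exact Ideal.zero_mem _
      · exact k3 ⟨s, hs⟩
    refine (hq.mem_or_mem ((sup_le k2 k4) hk)).resolve_left fun k5 => hε ?_
    exact k1 (hq.mem_of_pow_mem k k5)

end P022G.Up
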