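import Vale.Agent.P022.H346.FAlg

/-!
# P022G: the traces of the increasing words generate all the traces
-/

set_option linter.all false

namespace Vale.Agent.P022G.Word

open Vale.Agent.P022.H346

variable {G R : Type*} [Group G] [CommRing R] {t : G → R} {d : G →* Rˣ}

/-- the increasing word of a set of indices -/
def wd {n : ℕ} (γ : Fin n → G) (s : Finset (Fin n)) : G := ((s.sort (· ≤ ·)).map γ).prod

theorem swap (T : TF t d) (x y z : G) :
    t (x * y * z) + t (y * x * z) =
      t x * t (y * z) + t y * t (x * z) + t z * t (x * y) - t x * t y * t z := by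
  have h1 := T.mul (x * y) z
  have h2 := T.mul (y * z⁻¹) x
  have h3 := T.mul y (x * z)
  have h4 := T.mul y z
  have e1 : t (y * z⁻¹ * x) = t (x * y * z⁻¹) := by rw [T.comm, mul_assoc]
  have e2 : y * z⁻¹ * x⁻¹ = y * (x * z)⁻¹ := by group
  rw [e1, e2] at h2
  rw [map_mul, Units.val_mul, ← mul_assoc] at h3
  linear_combination -h1 - h3 + (d z : R) * h2 + t x * h4

theorem sq (T : TF t d) (x z : G) : t (x * x * z) = t x * t (x * z) - (d x : R) * t z := by
  have h := T.mul (z * x) x
  rw [mul_inv_cancel_right, T.comm z x, mul_assoc, T.comm z] at h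
  linear_combination -h

section
variable {n : ℕ} (γ : Fin n → G) (A : Subring R)

theorem pos (T : TF t d) (h1 : ∀ s, t (wd γ s) ∈ A) (h2 : ∀ i, (d (γ i) : R) ∈ A) :
    ∀ (k : ℕ) (l : List (Fin n)), l.length = k → t (l.map γ).prod ∈ A := by
  intro k
  induction k using Nat.strong_induction_on with
  | _ k ih =>
  have sh : ∀ l : List (Fin n), l.length < k → t (l.map γ).prod ∈ A := fun l h => ih _ h l rfl
  have one : ∀ i, t (γ i) ∈ A := fun i => by simpa [wd] using h1 {i}
  have two : ∀ i j, t (γ i * γ j) ∈ A := by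
    have lt : ∀ i j, i < j → t (γ i * γ j) ∈ A := fun i j h => by
      have e : ({i, j} : Finset (Fin n)).sort (· ≤ ·) = [i, j] := by
        rw [show ({i, j} : Finset (Fin n)) = [i, j].toFinset by simp]
        exact (List.toFinset_sort _ (by simp [h.ne])).2 (by simp [h.le])
      have := h1 {i, j}
      rw [wd, e] at this
      simpa using this
    intro i j
    rcases lt_trichotomy i j with h | rfl | h
    · exact lt i j h
    · have := sq T (γ i) 1
      rw [mul_one, mul_one, T.one] at this
      rw [this]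
      exact A.sub_mem (A.mul_mem (one i) (one i)) (A.mul_mem (h2 i) (by
        simpa using natCast_mem A 2))
    · rw [T.comm]; exact lt j i h
  have perm : ∀ l l' : List (Fin n), l.Perm l' → ∀ u : List (Fin n), u.length + l.length = k →
      t ((u ++ l).map γ).prod ∈ A → t ((u ++ l').map γ).prod ∈ A := by
    intro l l' h
    induction h with
    | nil => exact fun u _ h => h
    | cons x _ ih2 =>
      intro u hu h
      rw [List.append_cons] at h ⊢
      exact ih2 (u ++ [x]) (by simp at hu ⊢; omega) h
    | swap x y l =>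
      intro u hu h
      have e : ∀ a b, t ((u ++ a :: b :: l).map γ).prod =
          t (γ a * γ b * ((l ++ u).map γ).prod) := fun a b => by
        simp only [List.map_append, List.prod_append, List.map_cons, List.prod_cons]
        rw [T.comm]
        simp only [mul_assoc]
      have f : ∀ a, t (γ a * ((l ++ u).map γ).prod) ∈ A := fun a => by
        simpa using sh (a :: (l ++ u)) (by simp at hu ⊢; omega)
      have g : t ((l ++ u).map γ).prod ∈ A := sh _ (by simp at hu ⊢; omega)
      rw [e] at h ⊢
      have := swap T (γ x) (γ y) ((l ++ u).map γ).prod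
      rw [eq_sub_of_add_eq this]
      exact A.sub_mem (A.sub_mem (A.add_mem (A.add_mem (A.mul_mem (one x) (f y))
        (A.mul_mem (one y) (f x))) (A.mul_mem g (two x y)))
        (A.mul_mem (A.mul_mem (one x) (one y)) g)) h
    | trans p _ i1 i2 =>
      intro u hu h
      exact i2 u (by rw [← p.length_eq]; exact hu) (i1 u hu h)
  intro l hl
  by_cases hn : l.Nodup
  · have p : (l.toFinset.sort (· ≤ ·)).Perm l :=
      List.perm_of_nodup_nodup_toFinset_eq (Finset.sort_nodup _ _) hn (Finset.sort_toFinset _ _)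
    exact perm _ l p [] (by rw [p.length_eq, hl]; simp) (h1 l.toFinset)
  · obtain ⟨x, hx⟩ := List.exists_duplicate_iff_not_nodup.2 hn
    obtain ⟨l', hl'⟩ : ∃ l', (x :: x :: l').Perm l := by
      have := List.duplicate_iff_sublist.1 hx
      obtain ⟨l', h⟩ := this.exists_perm_append
      exact ⟨l', h.symm⟩
    have hk : l'.length + 2 = k := by rw [← hl, ← hl'.length_eq]; simp
    refine perm _ l hl' [] (by simp; omega) ?_
    have := sq T (γ x) (l'.map γ).prod
    simp only [List.nil_append, List.map_cons, List.prod_cons, ← mul_assoc]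
    rw [this]
    exact A.sub_mem (A.mul_mem (one x) (by simpa using sh (x :: l') (by simp; omega)))
      (A.mul_mem (h2 x) (sh l' (by omega)))

/-- **all the traces and determinants lie in the ring generated by the increasing words** -/
theorem mem (T : TF t d) (h1 : ∀ s, t (wd γ s) ∈ A) (h2 : ∀ i, (d (γ i) : R) ∈ A)
    (h3 : ∀ i, (((d (γ i))⁻¹ : Rˣ) : R) ∈ A) {g : G} (hg : g ∈ Subgroup.closure (Set.range γ)) :
    t g ∈ A := by
  have one : ∀ i, t (γ i) ∈ A := fun i => by simpa [wd] using h1 {i}
  have key : ∀ l : List G, (∀ x ∈ l, x ∈ Set.range γ ∨ x⁻¹ ∈ Set.range γ) →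
      ∀ u : List (Fin n), t (l.prod * (u.map γ).prod) ∈ A := by
    intro l
    induction l using List.reverseRecOn with
    | nil => intro _ u; simpa using pos γ A T h1 h2 _ u rfl
    | append_singleton l x ih =>
      intro h u
      have ih' := ih fun y hy => h y (by simp [hy])
      rcases h x (by simp) with ⟨i, rfl⟩ | ⟨i, hi⟩
      · simpa [mul_assoc] using ih' (i :: u)
      · have hx : x = (γ i)⁻¹ := by rw [hi, inv_inv]
        subst hx
        have e := T.mul ((u.map γ).prod * l.prod) (γ i)
        have e1 : t ((l ++ [(γ i)⁻¹]).prod * (u.map γ).prod) =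
            t ((u.map γ).prod * l.prod * (γ i)⁻¹) := by
          rw [T.comm]; simp [mul_assoc]
        have e2 : t ((u.map γ).prod * l.prod * γ i) = t (l.prod * ((i :: u).map γ).prod) := by
          rw [mul_assoc, T.comm]; simp [mul_assoc]
        have e3 : t ((u.map γ).prod * l.prod * (γ i)⁻¹) = (((d (γ i))⁻¹ : Rˣ) : R) *
            (t (l.prod * (u.map γ).prod) * t (γ i) - t (l.prod * ((i :: u).map γ).prod)) := by
          rw [← e2, T.comm l.prod, e, add_sub_cancel_left, ← mul_assoc, Units.inv_mul, one_mul]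
        rw [e1, e3]
        exact A.mul_mem (h3 i) (A.sub_mem (A.mul_mem (ih' u) (one i)) (ih' _))
  have hg' : g ∈ (Subgroup.closure (Set.range γ)).toSubmonoid := hg
  rw [Subgroup.closure_toSubmonoid] at hg'
  obtain ⟨l, hl, rfl⟩ := Submonoid.exists_list_of_mem_closure hg'
  simpa using key l (fun x hx => hl x hx) []

theorem mem_d (h2 : ∀ i, (d (γ i) : R) ∈ A) (h3 : ∀ i, (((d (γ i))⁻¹ : Rˣ) : R) ∈ A) {g : G}
    (hg : g ∈ Subgroup.closure (Set.range γ)) :
    (d g : R) ∈ A ∧ (((d g)⁻¹ : Rˣ) : R) ∈ A := by
  induction hg using Subgroup.closure_induction with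
  | mem x hx => obtain ⟨i, rfl⟩ := hx; exact ⟨h2 i, h3 i⟩
  | one => simp [A.one_mem]
  | mul x y _ _ a b =>
    rw [map_mul, mul_inv, Units.val_mul, Units.val_mul]
    exact ⟨A.mul_mem a.1 b.1, A.mul_mem a.2 b.2⟩
  | inv x _ a => rw [map_inv, inv_inv]; exact ⟨a.2, a.1⟩

end

/-- **two pseudo characters which agree on the increasing words agree** -/
theorem agree {n : ℕ} (γ : Fin n → G) {t' : G → R} {d' : G →* Rˣ} (T : TF t d) (T' : TF t' d')
    (h1 : ∀ s, t (wd γ s) = t' (wd γ s)) (h2 : ∀ i, d (γ i) = d' (γ i)) {g : G}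
    (hg : g ∈ Subgroup.closure (Set.range γ)) : t g = t' g := by
  let D : G →* (R × R)ˣ := (MulEquiv.prodUnits (M := R) (N := R)).symm.toMonoidHom.comp (d.prod d')
  have hD : ∀ x, (D x : R × R) = ((d x : R), (d' x : R)) := fun _ => rfl
  have T2 : TF (fun x => (t x, t' x)) D :=
    ⟨Prod.ext T.one T'.one, fun a b => Prod.ext (T.comm a b) (T'.comm a b),
      fun a b => Prod.ext (T.mul a b) (T'.mul a b)⟩
  exact mem γ (RingHom.eqLocus (RingHom.fst R R) (RingHom.snd R R)) T2 h1
    (fun i => congrArg Units.val (h2 i)) (fun i => by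
      rw [← map_inv]
      change (d (γ i)⁻¹ : R) = d' (γ i)⁻¹
      rw [map_inv, map_inv, h2]) hg

end Vale.Agent.P022G.Word
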